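import Vale.Agent.P073.H936.Switch

/-!
# P073, H669 (SWIN): the input of the full switch from vertically compatible thick sheets

`VFam` is a finite family of thick sheets `N i` with level functions `s i` and fibres `Gam i`; the
level functions of the sheets of the other side are constant along the fibres, and the middle
sheets of different sides meet in finitely many circles in the interior and finitely many connected
sets reaching the boundary `Bd`.  Then the product structure of all blocks is automatic, and we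
obtain `SwData`.
-/

open Set Metric Topology Filter

namespace P073.H669

open P073 P073.H936

variable {ι E : Type*} [NormedAddCommGroup E] [NormedSpace ℝ E]

/-- the middle sheet -/
def mid (N : Set E) (s : E → ℝ) : Set E := {x | x ∈ N ∧ s x = 0}

/-- thick sheets with vertically compatible fibres -/
structure VFam (ι E : Type*) [NormedAddCommGroup E] [NormedSpace ℝ E] where
  side : ι → Bool
  N : ι → Set E
  s : ι → E → ℝ
  Bd : Set E
  ball : ∀ i, ConBall 2 (mid (N i) (s i)) (mid (N i) (s i) ∩ Bd)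
  Gam : ∀ i, ConHomeo (mid (N i) (s i) ×ˢ Icc (-1:ℝ) 1) (N i)
  gam_zero : ∀ i, ∀ z ∈ mid (N i) (s i), (Gam i).toFun (z, 0) = z
  gam_s : ∀ i, ∀ z ∈ mid (N i) (s i), ∀ t ∈ Icc (-1:ℝ) 1, s i ((Gam i).toFun (z, t)) = t
  gam_bd : ∀ i, ∀ z ∈ mid (N i) (s i), ∀ t ∈ Icc (-1:ℝ) 1, ((Gam i).toFun (z, t) ∈ Bd ↔ z ∈ Bd)
  disj : ∀ i j, i ≠ j → side i = side j → Disjoint (N i) (N j)
  vert : ∀ i j, side i ≠ side j → ∀ z ∈ mid (N i) (s i), ∀ t ∈ Icc (-1:ℝ) 1,
    ((Gam i).toFun (z, t) ∈ N j ↔ z ∈ N j)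
  vert_s : ∀ i j, side i ≠ side j → ∀ z ∈ mid (N i) (s i), ∀ t ∈ Icc (-1:ℝ) 1, z ∈ N j →
    s j ((Gam i).toFun (z, t)) = s j z
  /-- the components of the intersections of the middle sheets -/
  J : ι → ι → Type
  fin : ∀ i j, Finite (J i j)
  C : ∀ i j, J i j → Set E
  C_union : ∀ i j, side i = false → side j = true →
    (⋃ a, C i j a) = mid (N i) (s i) ∩ mid (N j) (s j)
  C_disj : ∀ i j, side i = false → side j = true → ∀ a b, a ≠ b → Disjoint (C i j a) (C i j b)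
  C_conn : ∀ i j, side i = false → side j = true → ∀ a, IsPreconnected (C i j a)
  C_closed : ∀ i j, side i = false → side j = true → ∀ a, IsClosed (C i j a)
  C_cases : ∀ i j, side i = false → side j = true → ∀ a,
    (ConSphere 1 (C i j a) ∧ Disjoint (C i j a) Bd) ∨ (C i j a ∩ Bd).Nonempty

omit [NormedSpace ℝ E] in
/-- a connected subset of a finite disjoint union of closed sets -/
theorem subset_of_meets {J : Type*} [Finite J] {C : J → Set E}
    (hd : ∀ a b, a ≠ b → Disjoint (C a) (C b)) (hc : ∀ a, IsClosed (C a)) {S : Set E}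
    (hS : IsPreconnected S) (hSC : S ⊆ ⋃ a, C a) {a : J} (ha : (S ∩ C a).Nonempty) : S ⊆ C a := by
  have h1 : IsClosed (⋃ b : {b : J // b ≠ a}, C b) := isClosed_iUnion_of_finite fun b => hc b
  have h2 : S ⊆ C a ∪ ⋃ b : {b : J // b ≠ a}, C b := by
    intro x hx
    obtain ⟨b, hb⟩ := mem_iUnion.1 (hSC hx)
    by_cases hba : b = a
    · left; rw [← hba]; exact hb
    · right; exact mem_iUnion.2 ⟨⟨b, hba⟩, hb⟩
  have h3 : S ∩ (C a ∩ ⋃ b : {b : J // b ≠ a}, C b) = ∅ := by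
    rw [eq_empty_iff_forall_notMem]
    rintro x ⟨-, hxa, hx⟩
    obtain ⟨b, hb⟩ := mem_iUnion.1 hx
    exact (disjoint_left.1 (hd a b b.2.symm)) hxa hb
  rcases (isPreconnected_iff_subset_of_disjoint_closed.1 hS) _ _ (hc a) h1 h2 h3 with h | h
  · exact h
  · obtain ⟨x, hxS, hxa⟩ := ha
    obtain ⟨b, hb⟩ := mem_iUnion.1 (h hxS)
    exact ((disjoint_left.1 (hd a b b.2.symm)) hxa hb).elim

namespace VFam

variable (V : VFam ι E)

/-- the foot point of a fibre -/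
def foot (i : ι) (x : E) : E := ((V.Gam i).invFun x).1

variable {V}

theorem foot_mem {i : ι} {x : E} (hx : x ∈ V.N i) : V.foot i x ∈ mid (V.N i) (V.s i) :=
  ((V.Gam i).mapsTo_inv hx).1

theorem inv_eq {i : ι} {x : E} (hx : x ∈ V.N i) : (V.Gam i).invFun x = (V.foot i x, V.s i x) := by
  refine Prod.ext rfl ?_
  have h := (V.Gam i).mapsTo_inv hx
  have h2 := V.gam_s i _ h.1 _ h.2
  rw [Prod.mk.eta, (V.Gam i).right_inv hx] at h2
  exact h2.symm

theorem s_mem {i : ι} {x : E} (hx : x ∈ V.N i) : V.s i x ∈ Icc (-1:ℝ) 1 := by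
  have h := ((V.Gam i).mapsTo_inv hx).2
  rw [inv_eq hx] at h
  exact h

theorem gam_foot {i : ι} {x : E} (hx : x ∈ V.N i) : (V.Gam i).toFun (V.foot i x, V.s i x) = x := by
  rw [← inv_eq hx]; exact (V.Gam i).right_inv hx

theorem zero_mem_I : (0:ℝ) ∈ Icc (-1:ℝ) 1 := ⟨by norm_num, by norm_num⟩

theorem foot_gam {i : ι} {z : E} (hz : z ∈ mid (V.N i) (V.s i)) {t : ℝ} (ht : t ∈ Icc (-1:ℝ) 1) :
    V.foot i ((V.Gam i).toFun (z, t)) = z := by
  unfold foot
  rw [(V.Gam i).left_inv (show (z, t) ∈ mid (V.N i) (V.s i) ×ˢ Icc (-1:ℝ) 1 from ⟨hz, ht⟩)]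

theorem gam_mem {i : ι} {z : E} (hz : z ∈ mid (V.N i) (V.s i)) {t : ℝ} (ht : t ∈ Icc (-1:ℝ) 1) :
    (V.Gam i).toFun (z, t) ∈ V.N i :=
  (V.Gam i).mapsTo (show (z, t) ∈ mid (V.N i) (V.s i) ×ˢ Icc (-1:ℝ) 1 from ⟨hz, ht⟩)

theorem foot_of_mid {i : ι} {z : E} (hz : z ∈ mid (V.N i) (V.s i)) : V.foot i z = z := by
  have := foot_gam hz zero_mem_I
  rwa [V.gam_zero i z hz] at this

theorem foot_bd {i : ι} {x : E} (hx : x ∈ V.N i) : V.foot i x ∈ V.Bd ↔ x ∈ V.Bd := by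
  have := V.gam_bd i _ (foot_mem hx) _ (s_mem hx)
  rw [gam_foot hx] at this
  exact this.symm

theorem foot_other {i j : ι} (hij : V.side i ≠ V.side j) {x : E} (hx : x ∈ V.N i) :
    V.foot i x ∈ V.N j ↔ x ∈ V.N j := by
  have := V.vert i j hij _ (foot_mem hx) _ (s_mem hx)
  rw [gam_foot hx] at this
  exact this.symm

theorem foot_s {i j : ι} (hij : V.side i ≠ V.side j) {x : E} (hx : x ∈ V.N i) (hxj : x ∈ V.N j) :
    V.s j (V.foot i x) = V.s j x := by
  have := V.vert_s i j hij _ (foot_mem hx) _ (s_mem hx) ((foot_other hij hx).2 hxj)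
  rw [gam_foot hx] at this
  exact this.symm

/-- the centre of a point of a block -/
theorem cen_mem {i j : ι} (hij : V.side i ≠ V.side j) {x : E} (hx : x ∈ V.N i) (hxj : x ∈ V.N j) :
    V.foot j (V.foot i x) ∈ mid (V.N i) (V.s i) ∩ mid (V.N j) (V.s j) := by
  have h1 : V.foot i x ∈ V.N j := (foot_other hij hx).2 hxj
  have h2 := foot_mem hx
  refine ⟨⟨(foot_other hij.symm h1).2 h2.1, ?_⟩, foot_mem h1⟩
  rw [foot_s hij.symm h1 h2.1]; exact h2.2

theorem continuousOn_foot (i : ι) : ContinuousOn (V.foot i) (V.N i) :=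
  continuous_fst.comp_continuousOn (V.Gam i).cont_inv

theorem continuousOn_cen {i j : ι} (hij : V.side i ≠ V.side j) :
    ContinuousOn (fun x => V.foot j (V.foot i x)) (V.N i ∩ V.N j) :=
  (continuousOn_foot j).comp ((continuousOn_foot i).mono inter_subset_left)
    fun _ hx => (foot_other hij hx.1).2 hx.2

/-- the standard point of a block -/
def pt (V : VFam ι E) (i j : ι) (z : E) (a b : ℝ) : E :=
  (V.Gam i).toFun ((V.Gam j).toFun (z, b), a)

section pt

variable {i j : ι} (hij : V.side i ≠ V.side j) {z : E}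
  (hz : z ∈ mid (V.N i) (V.s i) ∩ mid (V.N j) (V.s j)) {a b : ℝ} (ha : a ∈ Icc (-1:ℝ) 1)
  (hb : b ∈ Icc (-1:ℝ) 1)

include hij hz hb

theorem pt_aux : (V.Gam j).toFun (z, b) ∈ mid (V.N i) (V.s i) := by
  refine ⟨(V.vert j i hij.symm z hz.2 b hb).2 hz.1.1, ?_⟩
  rw [V.vert_s j i hij.symm z hz.2 b hb hz.1.1]; exact hz.1.2

include ha

theorem pt_mem : V.pt i j z a b ∈ V.N i ∩ V.N j :=
  ⟨gam_mem (pt_aux hij hz hb) ha,
    (V.vert i j hij _ (pt_aux hij hz hb) a ha).2 (gam_mem hz.2 hb)⟩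

theorem pt_s : V.s i (V.pt i j z a b) = a := V.gam_s i _ (pt_aux hij hz hb) a ha

theorem pt_s' : V.s j (V.pt i j z a b) = b := by
  unfold pt
  rw [V.vert_s i j hij _ (pt_aux hij hz hb) a ha (gam_mem hz.2 hb), V.gam_s j z hz.2 b hb]

theorem pt_foot : V.foot i (V.pt i j z a b) = (V.Gam j).toFun (z, b) :=
  foot_gam (pt_aux hij hz hb) ha

theorem pt_cen : V.foot j (V.foot i (V.pt i j z a b)) = z := by
  rw [pt_foot hij hz ha hb, foot_gam hz.2 hb]

theorem pt_bd : V.pt i j z a b ∈ V.Bd ↔ z ∈ V.Bd := by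
  unfold pt
  rw [V.gam_bd i _ (pt_aux hij hz hb) a ha, V.gam_bd j z hz.2 b hb]

end pt

theorem pt_eq {i j : ι} (hij : V.side i ≠ V.side j) {x : E} (hx : x ∈ V.N i) (hxj : x ∈ V.N j) :
    V.pt i j (V.foot j (V.foot i x)) (V.s i x) (V.s j x) = x := by
  unfold pt
  have h1 : V.foot i x ∈ V.N j := (foot_other hij hx).2 hxj
  rw [← foot_s hij hx hxj, gam_foot h1, gam_foot hx]

theorem pt_zero {i j : ι} {z : E} (hz : z ∈ mid (V.N i) (V.s i) ∩ mid (V.N j) (V.s j)) :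
    V.pt i j z 0 0 = z := by
  unfold pt
  rw [V.gam_zero j z hz.2, V.gam_zero i z hz.1]

/-- the map to the points of the blocks is continuous -/
theorem continuousOn_pt {i j : ι} (hij : V.side i ≠ V.side j) :
    ContinuousOn (fun q : E × ℝ × ℝ => V.pt i j q.1 q.2.1 q.2.2)
      ((mid (V.N i) (V.s i) ∩ mid (V.N j) (V.s j)) ×ˢ Sq) := by
  have h1 : ContinuousOn (fun q : E × ℝ × ℝ => (V.Gam j).toFun (q.1, q.2.2))
      ((mid (V.N i) (V.s i) ∩ mid (V.N j) (V.s j)) ×ˢ Sq) :=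
    (V.Gam j).cont.comp (by fun_prop) fun q hq => ⟨hq.1.2, hq.2.2⟩
  exact (V.Gam i).cont.comp (h1.prodMk (by fun_prop))
    fun q hq => ⟨pt_aux hij hq.1 hq.2.2, hq.2.1⟩

theorem conicalOn_pt {i j : ι} (hij : V.side i ≠ V.side j) {C : Set E} (hC : ConicalSet C)
    (hCs : C ⊆ mid (V.N i) (V.s i) ∩ mid (V.N j) (V.s j)) :
    ConicalOn (fun q : E × ℝ × ℝ => V.pt i j q.1 q.2.1 q.2.2) (C ×ˢ Sq) := by
  have hSq : ConicalSet (Sq : Set (ℝ × ℝ)) := (conicalSet_Icc _ _).prod (conicalSet_Icc _ _)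
  have hX : ConicalSet (C ×ˢ (Sq : Set (ℝ × ℝ))) := hC.prod hSq
  have l1 : ConicalOn (fun q : E × ℝ × ℝ => (q.1, q.2.2)) (C ×ˢ Sq) :=
    conicalOn_linear ((LinearMap.fst ℝ E (ℝ × ℝ)).prod
      ((LinearMap.snd ℝ ℝ ℝ).comp (LinearMap.snd ℝ E (ℝ × ℝ)))) hX
  have l2 : ConicalOn (fun q : E × ℝ × ℝ => q.2.1) (C ×ˢ Sq) :=
    conicalOn_linear ((LinearMap.fst ℝ ℝ ℝ).comp (LinearMap.snd ℝ E (ℝ × ℝ))) hX
  have h1 : ConicalOn (fun q : E × ℝ × ℝ => (V.Gam j).toFun (q.1, q.2.2)) (C ×ˢ Sq) :=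
    ConicalOn.comp (g := (V.Gam j).toFun) (V.Gam j).conical l1
      (fun q hq => ⟨(hCs hq.1).2, hq.2.2⟩) (by fun_prop)
  have c1 : ContinuousOn (fun q : E × ℝ × ℝ => (V.Gam j).toFun (q.1, q.2.2)) (C ×ˢ Sq) :=
    (V.Gam j).cont.comp (by fun_prop) fun q hq => ⟨(hCs hq.1).2, hq.2.2⟩
  exact ConicalOn.comp (g := (V.Gam i).toFun) (V.Gam i).conical (h1.prodMk l2)
    (fun q hq => ⟨pt_aux hij (hCs hq.1) hq.2.2, hq.2.1⟩) (c1.prodMk (by fun_prop))

/-- the block over a part of the curve -/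
def blk (V : VFam ι E) (i j : ι) (C : Set E) : Set E :=
  {x | x ∈ V.N i ∧ x ∈ V.N j ∧ V.foot j (V.foot i x) ∈ C}

/-- components: both descriptions of a block agree -/
theorem blk_sub_swap {i j : ι} (hij : V.side i ≠ V.side j) {J : Type*} [Finite J] {C : J → Set E}
    (hU : (⋃ a, C a) = mid (V.N i) (V.s i) ∩ mid (V.N j) (V.s j))
    (hd : ∀ a b, a ≠ b → Disjoint (C a) (C b)) (hc : ∀ a, IsClosed (C a)) (a : J) :
    V.blk i j (C a) ⊆ V.blk j i (C a) := by
  rintro x ⟨hx, hxj, hcen⟩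
  refine ⟨hxj, hx, ?_⟩
  set z := V.foot j (V.foot i x) with hz
  have hzm : z ∈ mid (V.N i) (V.s i) ∩ mid (V.N j) (V.s j) := cen_mem hij hx hxj
  set Q : Set E := (fun q : ℝ × ℝ => V.pt i j z q.1 q.2) '' Sq with hQ
  have hQc : IsPreconnected Q := by
    apply IsPreconnected.image
    · exact (isPreconnected_Icc.prod isPreconnected_Icc)
    · exact (continuousOn_pt hij).comp (f := fun q : ℝ × ℝ => (z, q)) (by fun_prop)
        fun q hq => ⟨hzm, hq⟩
  have hQN : Q ⊆ V.N i ∩ V.N j := by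
    rintro _ ⟨q, hq, rfl⟩
    exact pt_mem hij hzm hq.1 hq.2
  have hS : IsPreconnected ((fun x => V.foot i (V.foot j x)) '' Q) :=
    hQc.image _ ((continuousOn_cen hij.symm).mono (hQN.trans (by rw [inter_comm])))
  have hSC : (fun x => V.foot i (V.foot j x)) '' Q ⊆ ⋃ a, C a := by
    rintro _ ⟨y, hy, rfl⟩
    rw [hU, inter_comm]
    exact cen_mem hij.symm (hQN hy).2 (hQN hy).1
  have hzQ : z ∈ Q := ⟨(0, 0), ⟨zero_mem_I, zero_mem_I⟩, pt_zero hzm⟩
  have hxQ : x ∈ Q := ⟨(V.s i x, V.s j x), ⟨s_mem hx, s_mem hxj⟩, pt_eq hij hx hxj⟩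
  have hmeet : (((fun x => V.foot i (V.foot j x)) '' Q) ∩ C a).Nonempty := by
    refine ⟨z, ⟨z, hzQ, ?_⟩, hcen⟩
    show V.foot i (V.foot j z) = z
    rw [foot_of_mid hzm.2, foot_of_mid hzm.1]
  exact subset_of_meets hd hc hS hSC hmeet ⟨x, hxQ, rfl⟩

theorem blk_swap {i j : ι} (hij : V.side i ≠ V.side j) {J : Type*} [Finite J] {C : J → Set E}
    (hU : (⋃ a, C a) = mid (V.N i) (V.s i) ∩ mid (V.N j) (V.s j))
    (hd : ∀ a b, a ≠ b → Disjoint (C a) (C b)) (hc : ∀ a, IsClosed (C a)) (a : J) :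
    V.blk i j (C a) = V.blk j i (C a) :=
  Subset.antisymm (blk_sub_swap hij hU hd hc a)
    (blk_sub_swap hij.symm (by rw [hU, inter_comm]) hd hc a)

/-- blocks are vertical for the first sheet -/
theorem mem_blk_iff {i j : ι} (hij : V.side i ≠ V.side j) {C : Set E} {x : E} (hx : x ∈ V.N i) :
    V.foot i x ∈ V.blk i j C ↔ x ∈ V.blk i j C := by
  have h1 := foot_mem hx
  constructor
  · rintro ⟨-, h2, h3⟩
    rw [foot_of_mid h1] at h3
    exact ⟨hx, (foot_other hij hx).1 h2, h3⟩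
  · rintro ⟨-, h2, h3⟩
    refine ⟨h1.1, (foot_other hij hx).2 h2, ?_⟩
    rw [foot_of_mid h1]; exact h3

/-- the block as an image -/
theorem blk_eq {i j : ι} (hij : V.side i ≠ V.side j) {C : Set E}
    (hC : C ⊆ mid (V.N i) (V.s i) ∩ mid (V.N j) (V.s j)) :
    V.blk i j C = (fun q : E × ℝ × ℝ => V.pt i j q.1 q.2.1 q.2.2) '' (C ×ˢ Sq) := by
  ext x
  constructor
  · rintro ⟨hx, hxj, h⟩
    exact ⟨(V.foot j (V.foot i x), (V.s i x, V.s j x)), ⟨h, s_mem hx, s_mem hxj⟩,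
      pt_eq hij hx hxj⟩
  · rintro ⟨⟨z, a, b⟩, ⟨hz, ha, hb⟩, rfl⟩
    have h := pt_mem hij (hC hz) ha hb
    exact ⟨h.1, h.2, by show V.foot j (V.foot i (V.pt i j z a b)) ∈ C
                        rw [pt_cen hij (hC hz) ha hb]; exact hz⟩

theorem isPreconnected_blk {i j : ι} (hij : V.side i ≠ V.side j) {C : Set E}
    (hC : C ⊆ mid (V.N i) (V.s i) ∩ mid (V.N j) (V.s j)) (hc : IsPreconnected C) :
    IsPreconnected (V.blk i j C) := by
  rw [blk_eq hij hC]
  exact (hc.prod (isPreconnected_Icc.prod isPreconnected_Icc)).image _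
    ((continuousOn_pt hij).mono (prod_mono hC (Subset.refl _)))

/-! ### The full switch input -/

/-- the planar chart of the middle sheet -/
noncomputable def chart (V : VFam ι E) (i : ι) :
    ConHomeo (mid (V.N i) (V.s i)) (closedBall (0 : Fin 2 → ℝ) 1) := (V.ball i).2.choose

theorem chart_bd (i : ι) : (V.chart i).toFun '' (mid (V.N i) (V.s i) ∩ V.Bd) = sphere 0 1 :=
  (V.ball i).2.choose_spec

theorem norm_chart {i : ι} {z : E} (hz : z ∈ mid (V.N i) (V.s i)) :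
    ‖(V.chart i).toFun z‖ = 1 ↔ z ∈ V.Bd := by
  rw [← mem_sphere_zero_iff_norm, ← chart_bd (V := V) i]
  constructor
  · rintro ⟨y, hy, h⟩
    rw [← (V.chart i).injOn hy.1 hz h]; exact hy.2
  · intro h; exact ⟨z, ⟨hz, h⟩, rfl⟩

/-- the chart of the thick sheet -/
noncomputable def phi (V : VFam ι E) (i : ι) : ConHomeo (V.N i) (TD 2) :=
  (V.Gam i).symm.trans ((V.chart i).prod
    (ConHomeo.refl (conicalSet_Icc (-1) 1) : ConHomeo (Icc (-1:ℝ) 1) (Icc (-1:ℝ) 1)))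

theorem phi_apply {i : ι} {x : E} (hx : x ∈ V.N i) :
    (V.phi i).toFun x = ((V.chart i).toFun (V.foot i x), V.s i x) := by
  show ((V.chart i).toFun ((V.Gam i).invFun x).1, ((V.Gam i).invFun x).2) = _
  rw [inv_eq hx]

/-- the circle blocks -/
def Circ (V : VFam ι E) : Type _ :=
  {c : Σ i, Σ j, V.J i j // V.side c.1 = false ∧ V.side c.2.1 = true ∧
    ConSphere 1 (V.C c.1 c.2.1 c.2.2) ∧ Disjoint (V.C c.1 c.2.1 c.2.2) V.Bd}

instance [Finite ι] : Finite V.Circ := by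
  have : ∀ i j, Finite (V.J i j) := V.fin
  unfold Circ
  infer_instance

/-- the sheets of a circle -/
def shc (V : VFam ι E) (c : V.Circ) (X : Bool) : ι := cond X c.1.2.1 c.1.1

theorem shc_side (c : V.Circ) (X : Bool) : V.side (V.shc c X) = X := by
  cases X
  · exact c.2.1
  · exact c.2.2.1

theorem Circ.ne (c : V.Circ) : V.side c.1.1 ≠ V.side c.1.2.1 := by
  rw [c.2.1, c.2.2.1]; decide

/-- the circle block -/
def Kc (V : VFam ι E) (c : V.Circ) : Set E := V.blk c.1.1 c.1.2.1 (V.C c.1.1 c.1.2.1 c.1.2.2)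

theorem C_sub {i j : ι} (hi : V.side i = false) (hj : V.side j = true) (a : V.J i j) :
    V.C i j a ⊆ mid (V.N i) (V.s i) ∩ mid (V.N j) (V.s j) := by
  rw [← V.C_union i j hi hj]; exact subset_iUnion _ a

theorem Kc_swap (c : V.Circ) :
    V.Kc c = V.blk c.1.2.1 c.1.1 (V.C c.1.1 c.1.2.1 c.1.2.2) := by
  have : Finite (V.J c.1.1 c.1.2.1) := V.fin _ _
  exact blk_swap c.ne (V.C_union _ _ c.2.1 c.2.2.1) (V.C_disj _ _ c.2.1 c.2.2.1)
    (V.C_closed _ _ c.2.1 c.2.2.1) _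

theorem Kc_sub (c : V.Circ) (X : Bool) : V.Kc c ⊆ V.N (V.shc c X) := by
  cases X
  · exact fun x hx => hx.1
  · exact fun x hx => hx.2.1

/-- circle blocks are vertical -/
theorem Kc_vert (c : V.Circ) (X : Bool) {x : E} (hx : x ∈ V.N (V.shc c X)) :
    V.foot (V.shc c X) x ∈ V.Kc c ↔ x ∈ V.Kc c := by
  cases X
  · exact mem_blk_iff c.ne hx
  · rw [Kc_swap]
    exact mem_blk_iff c.ne.symm hx

theorem Kc_bd (c : V.Circ) {x : E} (hx : x ∈ V.Kc c) : x ∉ V.Bd := by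
  intro hb
  have h1 := cen_mem c.ne hx.1 hx.2.1
  have h2 : V.foot c.1.2.1 (V.foot c.1.1 x) ∈ V.Bd := by
    rw [foot_bd ((foot_other c.ne hx.1).2 hx.2.1), foot_bd hx.1]; exact hb
  exact disjoint_left.1 c.2.2.2.2 hx.2.2 h2

/-- parametrisation of a circle block -/
theorem exists_psi (c : V.Circ) : ∃ ψ : ConHomeo Blk (V.Kc c),
    ∀ X, ∀ q ∈ Blk, V.s (V.shc c X) (ψ.toFun q) = co X q.2 := by
  obtain ⟨⟨i, j, a⟩, hi, hj, ⟨γ⟩, hbd⟩ := c
  have hij : V.side i ≠ V.side j := by rw [hi, hj]; decide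
  have hC := C_sub hi hj a
  have g1 : ∀ q ∈ Blk, γ.invFun q.1 ∈ V.C i j a := fun q hq => γ.mapsTo_inv hq.1
  have g2 : ∀ q ∈ Blk, γ.invFun q.1 ∈ mid (V.N i) (V.s i) ∩ mid (V.N j) (V.s j) :=
    fun q hq => hC (g1 q hq)
  have hSq : ConicalSet (Sq : Set (ℝ × ℝ)) := (conicalSet_Icc _ _).prod (conicalSet_Icc _ _)
  have hBk : ConicalSet Blk := (conicalSet_sphere_pi 2).prod hSq
  have m1 : ContinuousOn (fun q : P2 × ℝ × ℝ => ((γ.invFun q.1, q.2) : E × ℝ × ℝ)) Blk :=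
    (γ.cont_inv.comp continuousOn_fst fun q hq => hq.1).prodMk continuousOn_snd
  have m2 : ConicalOn (fun q : P2 × ℝ × ℝ => ((γ.invFun q.1, q.2) : E × ℝ × ℝ)) Blk :=
    (ConicalOn.comp (g := γ.invFun) γ.conical_inv (conicalOn_fst hBk) (fun q hq => hq.1)
      continuousOn_fst).prodMk (conicalOn_snd hBk)
  set f : P2 × ℝ × ℝ → E := fun q => V.pt i j (γ.invFun q.1) q.2.1 q.2.2 with hf
  have hcomp : IsCompact Blk := (isCompact_sphere _ _).prod (isCompact_Icc.prod isCompact_Icc)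
  have hcont : ContinuousOn f Blk :=
    (continuousOn_pt hij).comp m1 fun q hq => ⟨g2 q hq, hq.2⟩
  have hcon : ConicalOn f Blk := by
    have := conicalOn_pt hij γ.conicalSet_left hC
    exact ConicalOn.comp (g := fun q : E × ℝ × ℝ => V.pt i j q.1 q.2.1 q.2.2) this m2
      (fun q hq => ⟨g1 q hq, hq.2⟩) m1
  have hinj : InjOn f Blk := by
    intro q hq q' hq' h
    have h : V.pt i j (γ.invFun q.1) q.2.1 q.2.2 = V.pt i j (γ.invFun q'.1) q'.2.1 q'.2.2 := h
    have e1 := pt_cen hij (g2 q hq) hq.2.1 hq.2.2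
    rw [h, pt_cen hij (g2 q' hq') hq'.2.1 hq'.2.2] at e1
    have e2 := pt_s hij (g2 q hq) hq.2.1 hq.2.2
    rw [h, pt_s hij (g2 q' hq') hq'.2.1 hq'.2.2] at e2
    have e3 := pt_s' hij (g2 q hq) hq.2.1 hq.2.2
    rw [h, pt_s' hij (g2 q' hq') hq'.2.1 hq'.2.2] at e3
    refine Prod.ext ?_ (Prod.ext e2.symm e3.symm)
    exact (γ.symm.injOn hq'.1 hq.1 e1).symm
  have himg : f '' Blk = V.Kc ⟨⟨i, j, a⟩, hi, hj, ⟨γ⟩, hbd⟩ := by
    show f '' Blk = V.blk i j (V.C i j a)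
    rw [blk_eq hij hC]
    ext x
    constructor
    · rintro ⟨q, hq, rfl⟩
      exact ⟨(γ.invFun q.1, q.2), ⟨g1 q hq, hq.2⟩, rfl⟩
    · rintro ⟨⟨z, q⟩, ⟨hz, hq⟩, rfl⟩
      refine ⟨(γ.toFun z, q), ⟨γ.mapsTo hz, hq⟩, ?_⟩
      show V.pt i j (γ.invFun (γ.toFun z)) q.1 q.2 = V.pt i j z q.1 q.2
      rw [γ.left_inv hz]
  refine ⟨ConHomeo.ofCompact hcomp f hcont hinj hcon himg, ?_⟩
  intro X q hq
  rw [ConHomeo.ofCompact_toFun]
  cases X
  · exact pt_s hij (g2 q hq) hq.2.1 hq.2.2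
  · exact pt_s' hij (g2 q hq) hq.2.1 hq.2.2

/-- the arc blocks -/
def Rc (V : VFam ι E) : Set E :=
  {x | ∃ i j, ∃ a : V.J i j, V.side i = false ∧ V.side j = true ∧
    (V.C i j a ∩ V.Bd).Nonempty ∧ x ∈ V.blk i j (V.C i j a)}

theorem mem_phi_iff {c : V.Circ} {X : Bool} {x : E} (hx : x ∈ V.N (V.shc c X)) {P : E → Prop}
    (hP : P (V.foot (V.shc c X) x) ↔ P x) :
    ((V.phi (V.shc c X)).toFun x).1 ∈
      {p | ∃ z ∈ mid (V.N (V.shc c X)) (V.s (V.shc c X)), P z ∧ (V.chart (V.shc c X)).toFun z = p} ↔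
      P x := by
  rw [phi_apply hx]
  constructor
  · rintro ⟨z, hz, hPz, h⟩
    have := (V.chart (V.shc c X)).injOn hz (foot_mem hx) h
    subst this
    exact hP.1 hPz
  · intro h
    exact ⟨_, foot_mem hx, hP.2 h, rfl⟩

/-- **[SWIN]** the input of the full switch -/
noncomputable def swData (V : VFam ι E) : SwData ι V.Circ E where
  side := V.side
  N := V.N
  s := V.s
  φ := V.phi
  hφ := fun i x hx => by rw [phi_apply hx]
  N_disj := V.disj
  sh := V.shc
  sh_side := shc_side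
  K := V.Kc
  ψ := fun c => (exists_psi c).choose
  hψ := fun c => (exists_psi c).choose_spec
  K_disj := by
    rintro ⟨⟨i, j, a⟩, hi, hj, h1, h2⟩ ⟨⟨i', j', a'⟩, hi', hj', h1', h2'⟩ hne
    rw [Set.disjoint_left]
    rintro x ⟨hx1, hx2, hx3⟩ ⟨hy1, hy2, hy3⟩
    have hx1 : x ∈ V.N i := hx1
    have hx2 : x ∈ V.N j := hx2
    have hy1 : x ∈ V.N i' := hy1
    have hy2 : x ∈ V.N j' := hy2
    have e1 : i = i' := by
      by_contra hn
      exact disjoint_left.1 (V.disj i i' hn (hi.trans hi'.symm)) hx1 hy1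
    have e2 : j = j' := by
      by_contra hn
      exact disjoint_left.1 (V.disj j j' hn (hj.trans hj'.symm)) hx2 hy2
    subst e1 e2
    have hx3 : V.foot j (V.foot i x) ∈ V.C i j a := hx3
    have hy3 : V.foot j (V.foot i x) ∈ V.C i j a' := hy3
    have e3 : a = a' := by
      by_contra hn
      exact disjoint_left.1 (V.C_disj i j hi hj a a' hn) hx3 hy3
    subst e3
    exact hne rfl
  A := fun c X => {p | ∃ z ∈ mid (V.N (V.shc c X)) (V.s (V.shc c X)), z ∈ V.Kc c ∧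
    (V.chart (V.shc c X)).toFun z = p}
  A_ball := by
    rintro c X p ⟨z, hz, hzK, rfl⟩
    have h1 := (V.chart (V.shc c X)).mapsTo hz
    rw [mem_closedBall_zero_iff] at h1
    rw [mem_ball_zero_iff]
    exact lt_of_le_of_ne h1 fun h => Kc_bd c hzK ((norm_chart hz).1 h)
  K_vert := by
    intro c X
    ext x
    constructor
    · intro hx
      have h1 := Kc_sub c X hx
      exact ⟨h1, (mem_phi_iff h1 (P := fun z => z ∈ V.Kc c) (Kc_vert c X h1)).2 hx⟩
    · rintro ⟨hx, h⟩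
      exact (mem_phi_iff hx (P := fun z => z ∈ V.Kc c) (Kc_vert c X hx)).1 h
  K_face := by
    intro c X σ
    refine ⟨{p | ∃ z ∈ mid (V.N (V.shc c X)) (V.s (V.shc c X)),
      (z ∈ V.Kc c ∧ V.s (V.shc c (!X)) z = lv σ) ∧ (V.chart (V.shc c X)).toFun z = p}, ?_⟩
    have key : ∀ x ∈ V.N (V.shc c X),
        ((V.foot (V.shc c X) x ∈ V.Kc c ∧ V.s (V.shc c (!X)) (V.foot (V.shc c X) x) = lv σ) ↔
          (x ∈ V.Kc c ∧ V.s (V.shc c (!X)) x = lv σ)) := by
      intro x hx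
      rw [Kc_vert c X hx]
      refine and_congr_right fun hxK => ?_
      rw [foot_s (by rw [shc_side, shc_side]; cases X <;> decide) hx (Kc_sub c (!X) hxK)]
    ext x
    constructor
    · rintro ⟨hx, h⟩
      have h1 := Kc_sub c X hx
      exact ⟨h1, (mem_phi_iff h1 (P := fun z => z ∈ V.Kc c ∧ V.s (V.shc c (!X)) z = lv σ)
        (key x h1)).2 ⟨hx, h⟩⟩
    · rintro ⟨hx, h⟩
      exact (mem_phi_iff hx (P := fun z => z ∈ V.Kc c ∧ V.s (V.shc c (!X)) z = lv σ)
        (key x hx)).1 h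
  R := V.Rc
  cross := by
    have key : ∀ i j, V.side i = false → V.side j = true →
        V.N i ∩ V.N j ⊆ V.Rc ∪ ⋃ c, V.Kc c := by
      rintro i j hi hj x ⟨hx, hxj⟩
      have hij : V.side i ≠ V.side j := by rw [hi, hj]; decide
      have h1 := cen_mem hij hx hxj
      rw [← V.C_union i j hi hj] at h1
      obtain ⟨a, ha⟩ := mem_iUnion.1 h1
      rcases V.C_cases i j hi hj a with h | h
      · exact Or.inr (mem_iUnion.2 ⟨⟨⟨i, j, a⟩, hi, hj, h.1, h.2⟩, hx, hxj, ha⟩)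
      · exact Or.inl ⟨i, j, a, hi, hj, h, hx, hxj, ha⟩
    intro i j hij
    cases hi : V.side i with
    | false =>
      have hj : V.side j = true := by
        cases h : V.side j
        · exact absurd (hi.trans h.symm) hij
        · rfl
      exact key i j hi hj
    | true =>
      have hj : V.side j = false := by
        cases h : V.side j
        · rfl
        · exact absurd (hi.trans h.symm) hij
      rw [inter_comm]
      exact key j i hj hi
  R_arc := by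
    rintro k x ⟨⟨i, j, a, hi, hj, ⟨y, hyC, hyb⟩, hx⟩, hxk⟩
    have hij : V.side i ≠ V.side j := by rw [hi, hj]; decide
    have hCs := C_sub hi hj a
    have hk : k = i ∨ k = j := by
      cases hk : V.side k with
      | false =>
        left
        by_contra hn
        exact disjoint_left.1 (V.disj k i hn (hk.trans hi.symm)) hxk hx.1
      | true =>
        right
        by_contra hn
        exact disjoint_left.1 (V.disj k j hn (hk.trans hj.symm)) hxk hx.2.1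
    have hyB : y ∈ V.blk i j (V.C i j a) := by
      refine ⟨(hCs hyC).1.1, (hCs hyC).2.1, ?_⟩
      rw [foot_of_mid (hCs hyC).1, foot_of_mid (hCs hyC).2]; exact hyC
    refine ⟨V.blk i j (V.C i j a), isPreconnected_blk hij hCs (V.C_conn i j hi hj a), hx, ?_, ?_,
      y, hyB, ?_⟩
    · intro z hz
      rcases hk with rfl | rfl
      · exact hz.1
      · exact hz.2.1
    · rintro ⟨⟨i', j', a'⟩, hi', hj', h1', h2'⟩
      rw [Set.disjoint_left]
      rintro z ⟨hx1, hx2, hx3⟩ ⟨hy1, hy2, hy3⟩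
      have hy1 : z ∈ V.N i' := hy1
      have hy2 : z ∈ V.N j' := hy2
      have e1 : i = i' := by
        by_contra hn
        exact disjoint_left.1 (V.disj i i' hn (hi.trans hi'.symm)) hx1 hy1
      have e2 : j = j' := by
        by_contra hn
        exact disjoint_left.1 (V.disj j j' hn (hj.trans hj'.symm)) hx2 hy2
      subst e1 e2
      have hy3 : V.foot j (V.foot i z) ∈ V.C i j a' := hy3
      have e3 : a = a' := by
        by_contra hn
        exact disjoint_left.1 (V.C_disj i j hi hj a a' hn) hx3 hy3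
      subst e3
      exact disjoint_left.1 h2' hyC hyb
    · have hyk : y ∈ V.N k ∧ V.s k y = 0 := by
        rcases hk with rfl | rfl
        · exact (hCs hyC).1
        · exact (hCs hyC).2
      rw [phi_apply hyk.1, foot_of_mid hyk]
      exact (norm_chart hyk).2 hyb

theorem norm_phi {i : ι} {x : E} (hx : x ∈ V.N i) :
    ‖((V.swData.φ i).toFun x).1‖ = 1 ↔ x ∈ V.Bd := by
  show ‖((V.phi i).toFun x).1‖ = 1 ↔ x ∈ V.Bd
  rw [phi_apply hx, norm_chart (foot_mem hx), foot_bd hx]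

end VFam

end P073.H669
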