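import Vale.Agent.P073.H669.TBd
import Vale.Agent.P073.H429.ThinBands2

/-!
# P073, H669: **[T-BANDS]**, part 2: thin bands in the window of a tube

`slE`: the slivers at an edge, for the bands of round T and the bands of round P of the squares of
`S₀` at the edge.  `exists_thnE`: thin bands (H429) in the window of the tube, with the conditions on
the lengths of the gaps.  `thnE_bands`: every thin band is contained in a band of round T and in a
band of round P of every square.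
-/

open Set Metric Topology Filter

namespace Vale.Agent.P073.H669

open _root_.P073 _root_.P073.Net _root_.P073.PA691
open Vale.Agent.P073.St (V)
open Vale.Agent.P073.H471 Vale.Agent.P073.H267 Vale.Agent.P073.H267.Geo
open _root_.P073.H429 (Thn exists_thn)
open _root_.P073.H236 (clam clam_mono)

variable {Λ : Set V} {v : V} {K : BoxCx Λ v} {S : Rad K} {W : Wid K S} {B : Boxes W}

theorem clam_sub_le {l r x y : ℝ} (hxy : x ≤ y) : clam l r y - clam l r x ≤ y - x := by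
  unfold clam
  rcases le_total (y - l) (r - l) with h1 | h1 <;> rcases le_total (x - l) (r - l) with h2 | h2
  · rw [min_eq_left h1, min_eq_left h2]
    rcases le_total 0 (y - l) with h3 | h3 <;> rcases le_total 0 (x - l) with h4 | h4
    · rw [max_eq_right h3, max_eq_right h4]; linarith
    · rw [max_eq_right h3, max_eq_left h4]; linarith
    · rw [max_eq_left h3, max_eq_right h4]; linarith
    · rw [max_eq_left h3, max_eq_left h4]; linarith
  · rw [min_eq_left h1, min_eq_right h2]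
    have : y - l ≤ r - l := h1
    have h5 : max 0 (y - l) ≤ max 0 (r - l) := max_le_max le_rfl h1
    linarith
  · rw [min_eq_right h1, min_eq_left h2]
    rcases le_total 0 (r - l) with h3 | h3 <;> rcases le_total 0 (x - l) with h4 | h4
    · rw [max_eq_right h3, max_eq_right h4]; linarith
    · rw [max_eq_right h3, max_eq_left h4]; linarith
    · rw [max_eq_left h3, max_eq_right h4]; linarith
    · rw [max_eq_left h3, max_eq_left h4]; linarith
  · rw [min_eq_right h1, min_eq_right h2]; linarith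

open Classical in
/-- **the slivers at an edge** -/
noncomputable def slE (S₀ : Set K.S) (e : K.G) (N : ℕ) (T T' : ℕ → ℝ) (D : ℝ) (Ns : K.S → ℕ)
    (P P' : K.S → ℕ → ℝ) : Finset (ℝ × ℝ) :=
  tbSl e (gap N T T' D) fun s => if s ∈ S₀ ∧ K.edge e ⊆ K.sq s then gap (Ns s) (P s) (P' s) 0 else ∅

section

variable {S₀ : Set K.S} {e : K.G} {N : ℕ} {T T' : ℕ → ℝ} {D : ℝ} {Ns : K.S → ℕ}
  {P P' : K.S → ℕ → ℝ}

theorem slE_le (H : Bds N T T') (hD : 0 ≤ D)
    (HP : ∀ s ∈ S₀, K.edge e ⊆ K.sq s → Bds (Ns s) (P s) (P' s)) :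
    ∀ p ∈ slE S₀ e N T T' D Ns P P', p.1 ≤ p.2 := by
  classical
  refine tbSl_le (gap_le H hD) fun s p hp => ?_
  split_ifs at hp with hs
  · exact gap_le (HP s hs.1 hs.2) le_rfl p hp
  · exact absurd hp (Finset.notMem_empty p)

/-- the total length of the slivers -/
theorem sum_slE_le (H : Bds N T T') (hD : 0 ≤ D)
    (HP : ∀ s ∈ S₀, K.edge e ⊆ K.sq s → Bds (Ns s) (P s) (P' s)) {gT : ℝ} (hgT : 0 ≤ gT)
    (hT : ∀ k, k + 1 < N → T (k + 1) - T' k ≤ gT) {gP : K.S → ℝ} (hgP : ∀ s, 0 ≤ gP s)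
    (hP : ∀ s ∈ S₀, K.edge e ⊆ K.sq s → ∀ k, k + 1 < Ns s → P s (k + 1) - P' s k ≤ gP s) {q : ℝ}
    (hq : 0 ≤ q) (hNs : ∀ s ∈ S₀, K.edge e ⊆ K.sq s → Ns s * gP s ≤ q) :
    ∑ p ∈ slE S₀ e N T T' D Ns P P', (p.2 - p.1) ≤ N * (gT + 2 * D) + (sqE e).card * q := by
  classical
  have h1 : ∀ s, ∀ p ∈ (if s ∈ S₀ ∧ K.edge e ⊆ K.sq s then gap (Ns s) (P s) (P' s) 0 else ∅ :
      Finset (ℝ × ℝ)), p.1 ≤ p.2 := by
    intro s p hp
    split_ifs at hp with hs
    · exact gap_le (HP s hs.1 hs.2) le_rfl p hp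
    · exact absurd hp (Finset.notMem_empty p)
  refine (sum_tbSl_le (gap_le H hD) h1).trans (add_le_add (sum_gap_le (by linarith) hT) ?_)
  have h2 : ∀ s ∈ sqE e, ∑ p ∈ (if s ∈ S₀ ∧ K.edge e ⊆ K.sq s then gap (Ns s) (P s) (P' s) 0
      else ∅ : Finset (ℝ × ℝ)), (p.2 - p.1) ≤ q := by
    intro s _
    split_ifs with hs
    · have h3 := sum_gap_le (N := Ns s) (T := P s) (T' := P' s) (D := 0) (e := gP s)
        (by have := hgP s; linarith) (hP s hs.1 hs.2)
      have h4 := hNs s hs.1 hs.2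
      linarith
    · rw [Finset.sum_empty]; exact hq
  calc ∑ s ∈ sqE e, ∑ p ∈ (if s ∈ S₀ ∧ K.edge e ⊆ K.sq s then gap (Ns s) (P s) (P' s) 0
        else ∅ : Finset (ℝ × ℝ)), (p.2 - p.1) ≤ ∑ s ∈ sqE e, q := Finset.sum_le_sum h2
    _ = (sqE e).card * q := by rw [Finset.sum_const, nsmul_eq_mul]

/-- **thin bands in the window of the tube** -/
theorem exists_thnE (G : Geo B) (H : Bds N T T') (hD : 0 ≤ D)
    (HP : ∀ s ∈ S₀, K.edge e ⊆ K.sq s → Bds (Ns s) (P s) (P' s)) {gT : ℝ} (hgT : 0 ≤ gT)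
    (hT : ∀ k, k + 1 < N → T (k + 1) - T' k ≤ gT) {gP : K.S → ℝ} (hgP : ∀ s, 0 ≤ gP s)
    (hP : ∀ s ∈ S₀, K.edge e ⊆ K.sq s → ∀ k, k + 1 < Ns s → P s (k + 1) - P' s k ≤ gP s)
    {μ : ℝ} (hμ : 0 < μ) (hμ1 : μ ≤ 1) (hN : N * (gT + 2 * D) ≤ μ / 8 * (eHi W e - eLo W e))
    (hNs : ∀ s ∈ S₀, K.edge e ⊆ K.sq s →
      Ns s * gP s * (8 * ((sqE e).card + 1)) ≤ μ * (eHi W e - eLo W e)) {δ : ℝ} (hδ : 0 < δ) :
    ∃ M : ℕ, 0 < M ∧ (eHi W e - eLo W e) / M ≤ δ ∧ ∃ e₀ > 0, ∀ ε, 0 < ε → ε ≤ e₀ →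
      ∃ Th : Thn (eLo W e) (eHi W e) (slE S₀ e N T T' D Ns P P') μ, Th.M = M ∧ Th.e = ε := by
  have hl : 0 < eHi W e - eLo W e := by
    have h1 := eLo_lt (W := W) G e
    have h2 := G.be_pos (K.a e)
    linarith
  refine exists_thn (by linarith) _ (slE_le H hD HP) hμ hμ1 ?_ hδ
  have hc : (0:ℝ) < 8 * ((sqE e).card + 1) := by positivity
  have h1 : ∑ p ∈ slE S₀ e N T T' D Ns P P',
      (clam (eLo W e) (eHi W e) p.2 - clam (eLo W e) (eHi W e) p.1) ≤
      ∑ p ∈ slE S₀ e N T T' D Ns P P', (p.2 - p.1) :=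
    Finset.sum_le_sum fun p hp => clam_sub_le (slE_le H hD HP p hp)
  have h2 := sum_slE_le (S₀ := S₀) (e := e) (Ns := Ns) (P := P) (P' := P') H hD HP hgT hT hgP hP
    (q := μ * (eHi W e - eLo W e) / (8 * ((sqE e).card + 1))) (by positivity) fun s hs he => by
      rw [le_div_iff₀ hc]
      exact hNs s hs he
  have h3 : ((sqE e).card : ℝ) * (μ * (eHi W e - eLo W e) / (8 * ((sqE e).card + 1))) ≤
      μ / 8 * (eHi W e - eLo W e) := by
    rw [← mul_div_assoc, div_le_iff₀ hc]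
    have h4 : (0:ℝ) ≤ μ * (eHi W e - eLo W e) := by positivity
    nlinarith
  linarith

/-- **every thin band is contained in a band of round T and in a band of round P of every square** -/
theorem thnE_bands (H : Bds N T T')
    (HP : ∀ s ∈ S₀, K.edge e ⊆ K.sq s → Bds (Ns s) (P s) (P' s))
    (h0 : T 0 + D ≤ eLo W e) (h1 : eHi W e ≤ T' (N - 1) - D)
    (h0' : ∀ s ∈ S₀, K.edge e ⊆ K.sq s → P s 0 ≤ eLo W e)
    (h1' : ∀ s ∈ S₀, K.edge e ⊆ K.sq s → eHi W e ≤ P' s (Ns s - 1)) {μ : ℝ}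
    (Th : Thn (eLo W e) (eHi W e) (slE S₀ e N T T' D Ns P P') μ) (i : Th.I) :
    (∃ k < N, T k + D ≤ Th.c i - Th.w i ∧ Th.c i + Th.w i ≤ T' k - D) ∧
      ∀ s ∈ S₀, K.edge e ⊆ K.sq s → ∃ k < Ns s, P s k ≤ Th.c i - Th.w i ∧
        Th.c i + Th.w i ≤ P' s k := by
  classical
  have hx := (Th.al_lt i).le
  have hy := (Th.lt_be i).le
  have hg : ∀ p ∈ slE S₀ e N T T' D Ns P P',
      Th.c i + Th.w i ≤ p.1 ∨ p.2 ≤ Th.c i - Th.w i := fun p hp => by
    rcases Th.off (i := i) hp with h | h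
    · exact Or.inr h.le
    · exact Or.inl h.le
  refine ⟨in_band H (h0.trans hx) (hy.trans h1) fun p hp => hg p (mem_tbSl.2 (Or.inl hp)),
    fun s hs he => ?_⟩
  obtain ⟨k, hk, h2, h3⟩ := in_band (D := 0) (HP s hs he)
    (by linarith [h0' s hs he] : P s 0 + 0 ≤ Th.c i - Th.w i)
    (by linarith [h1' s hs he] : Th.c i + Th.w i ≤ P' s (Ns s - 1) - 0)
    fun p hp => hg p (mem_tbSl.2 (Or.inr ⟨s, he, by rw [if_pos ⟨hs, he⟩]; exact hp⟩))
  exact ⟨k, hk, by linarith, by linarith⟩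

end

/-! ### the uniform bands of round P -/

/-- the ends of the uniform bands of round P of a square at the edge -/
theorem P_first (G : Geo B) {e : K.G} {s : K.S} (he : K.edge e ⊆ K.sq s) {N : ℕ} (hN : 0 < N)
    {ε : ℝ} (hε : ε ≤ 31 * G.a s) :
    K.slo s (K.dir e) + G.a s + ((0:ℕ):ℝ) * _root_.P073.H236.stp N (K.slo s (K.dir e) + G.a s)
        (K.shi s (K.dir e) - G.a s) + ε ≤ eLo W e ∧
      eHi W e ≤ K.slo s (K.dir e) + G.a s + (((N - 1 : ℕ) : ℝ) + 1) *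
        _root_.P073.H236.stp N (K.slo s (K.dir e) + G.a s) (K.shi s (K.dir e) - G.a s) - ε := by
  obtain ⟨h1, h2⟩ := eLo_P (W := W) G he
  have hN' : (0:ℝ) < N := by exact_mod_cast hN
  have h3 : (((N - 1 : ℕ) : ℝ) + 1) = N := by
    rw [Nat.cast_sub (by omega)]
    push_cast
    ring
  rw [h3]
  unfold _root_.P073.H236.stp
  rw [mul_div_cancel₀ _ hN'.ne']
  constructor
  · push_cast; linarith
  · linarith

end Vale.Agent.P073.H669
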