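import Vale.Agent.P073.H669.TLev
import Vale.Agent.P073.H345.PBox

/-!
# P073, H669: **[P-LEV]**, first part: slivers which matter for a plate

`Rel s l b`: the slivers of the box `b` of round T matter for the levels of the square `s` in the
direction `l`.
-/

open Set Metric Topology Filter
open scoped ENNReal

namespace Vale.Agent.P073.H669

open _root_.P073 _root_.P073.TR _root_.P073.Net _root_.P073.PA691
open _root_.P073.PR720 (LF)
open Vale.Agent.P073.St (V)
open Vale.Agent.P073.H471 Vale.Agent.P073.H267 Vale.Agent.P073.H267.Geo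
open _root_.P073.H345 (tg tg_ne tg_ne_not tg_cases)
open Vale.Agent.P073.H805 (t1 t2 t1_ne t2_ne t1_ne_t2 t_cases)

variable {Ω Λ : Set V} {v : V} {K : BoxCx Λ v} {S : Rad K} {W : Wid K S} {B : Boxes W}

theorem lf_fin {ι : Type*} {A : ι → Set V} {X C : Set V} (h : LF A X)
    (hC : IsCompact C) (hCX : C ⊆ X) : {i | (A i ∩ C).Nonempty}.Finite := by
  choose! U hU hfin using fun z (hz : z ∈ C) => h z (hCX hz)
  obtain ⟨t, ht, htC⟩ := hC.elim_nhds_subcover U hU
  refine (t.finite_toSet.biUnion fun z hz => hfin z (ht z hz)).subset ?_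
  rintro i ⟨x, hxA, hxC⟩
  obtain ⟨z, hz, hxz⟩ := mem_iUnion₂.1 (htC hxC)
  exact mem_biUnion hz ⟨x, hxA, hxz⟩

/-- the slivers of the box `b` of round T matter for the levels of `s` in the direction `l` -/
def Rel (s : K.S) (l : Fin 3) : TBx K → Prop
  | .inl e => K.edge e ⊆ K.sq s ∧ K.dir e = l
  | .inr H => H.s = s ∧ H.l = l

theorem Rel.ax {s : K.S} {l : Fin 3} {b : TBx K} (h : Rel s l b) : b.ax = l := by
  rcases b with e | H
  · exact h.2
  · exact h.2

theorem sq_sub (s : K.S) : K.sq s ⊆ Λ := by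
  intro x hx
  have h1 : x ∈ Icc (K.lo (K.sm s)) (K.hi (K.sm s)) ∩ Icc (K.lo (K.sp s)) (K.hi (K.sp s)) := by
    rw [← K.s_eq]; exact hx
  exact K.sub _ h1.1

theorem edge_sub_Λ (e : K.G) : K.edge e ⊆ Λ := by
  obtain ⟨p, hp⟩ := K.edge_in e
  exact fun x hx => K.sub p (hp hx)

theorem edge_nonempty (e : K.G) : (K.edge e).Nonempty := by
  refine ⟨K.w (K.a e), left_mem_Icc.2 fun k => ?_⟩
  by_cases hk : k = K.dir e
  · rw [hk]; exact (K.ab_dir e).le
  · exact (K.ab_off e k hk).le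

theorem isCompact_sq (s : K.S) : IsCompact (K.sq s) := isCompact_Icc

/-- finitely many vertices on a square -/
theorem vert_fin (s : K.S) : {i : K.W | K.w i ∈ K.sq s}.Finite := by
  have h1 : {e : K.G | (Icc (K.w (K.a e)) (K.w (K.b e)) ∩ K.sq s).Nonempty}.Finite :=
    lf_fin K.lfG (isCompact_sq s) (sq_sub s)
  refine ((h1.image K.a).union (h1.image K.b)).subset ?_
  intro i hi
  have hab : ∀ e, K.w (K.a e) ≤ K.w (K.b e) := fun e k => by
    by_cases hk : k = K.dir e
    · rw [hk]; exact (K.ab_dir e).le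
    · exact (K.ab_off e k hk).le
  obtain ⟨e, he | he⟩ := K.w_edge i
  · refine Or.inl ⟨e, ⟨K.w i, ?_, hi⟩, he.symm⟩
    rw [he]; exact left_mem_Icc.2 (hab e)
  · refine Or.inr ⟨e, ⟨K.w i, ?_, hi⟩, he.symm⟩
    rw [he]; exact right_mem_Icc.2 (hab e)

/-- finitely many boxes matter for a square -/
theorem rel_fin (s : K.S) (l : Fin 3) : {b : TBx K | Rel s l b}.Finite := by
  have h1 : {e : K.G | (Icc (K.w (K.a e)) (K.w (K.b e)) ∩ K.sq s).Nonempty}.Finite :=
    lf_fin K.lfG (isCompact_sq s) (sq_sub s)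
  have h2 : {H : Hang K | H.s = s}.Finite := by
    refine Set.Finite.of_finite_image (f := fun H : Hang K => H.i) ((vert_fin s).subset ?_) ?_
    · rintro _ ⟨H, hH, rfl⟩
      have := hang_mem H
      rw [show H.s = s from hH] at this
      exact this
    · intro H hH H' hH' h
      exact hang_eq h ((show H.s = s from hH).trans (show H'.s = s from hH').symm)
  refine ((h1.image Sum.inl).union (h2.image Sum.inr)).subset ?_
  rintro (e | H) hb
  · refine Or.inl ⟨e, ?_, rfl⟩
    obtain ⟨x, hx⟩ := edge_nonempty e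
    exact ⟨x, hx, hb.1 hx⟩
  · exact Or.inr ⟨H, hb.1, rfl⟩

/-- a box matters for finitely many squares -/
theorem rel_fin' (b : TBx K) : {s : K.S | ∃ l, Rel s l b}.Finite := by
  rcases b with e | H
  · have h1 : {s : K.S | (Icc (K.slo s) (K.shi s) ∩ K.edge e).Nonempty}.Finite :=
      lf_fin K.lfS isCompact_Icc (edge_sub_Λ e)
    refine h1.subset ?_
    rintro s ⟨l, hb⟩
    obtain ⟨x, hx⟩ := edge_nonempty e
    exact ⟨x, hb.1 hx, hx⟩
  · refine (finite_singleton H.s).subset ?_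
    rintro s ⟨l, hb⟩
    exact hb.1.symm

/-- the boxes which matter -/
noncomputable def relF (s : K.S) (l : Fin 3) : Finset (TBx K) := (rel_fin s l).toFinset

theorem mem_relF {s : K.S} {l : Fin 3} {b : TBx K} : b ∈ relF s l ↔ Rel s l b :=
  Set.Finite.mem_toFinset _

open Classical in
/-- the slivers for the levels of the square `s` in the direction `l` -/
noncomputable def plT (sl : TBx K → Finset (ℝ × ℝ)) (s : K.S) (l : Fin 3) : Finset (ℝ × ℝ) :=
  (relF s l).biUnion sl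

theorem mem_plT {sl : TBx K → Finset (ℝ × ℝ)} {s : K.S} {l : Fin 3} {p : ℝ × ℝ} :
    p ∈ plT sl s l ↔ ∃ b, Rel s l b ∧ p ∈ sl b := by
  classical
  unfold plT
  rw [Finset.mem_biUnion]
  exact ⟨fun ⟨b, h1, h2⟩ => ⟨b, mem_relF.1 h1, h2⟩, fun ⟨b, h1, h2⟩ => ⟨b, mem_relF.2 h1, h2⟩⟩

theorem plT_le {sl : TBx K → Finset (ℝ × ℝ)} (hsl : ∀ b, ∀ p ∈ sl b, p.1 ≤ p.2) (s : K.S)
    (l : Fin 3) : ∀ p ∈ plT sl s l, p.1 ≤ p.2 := by
  intro p hp
  obtain ⟨b, -, h⟩ := mem_plT.1 hp
  exact hsl b p h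

/-- the total length of the slivers -/
theorem sum_plT_le {sl : TBx K → Finset (ℝ × ℝ)} (hsl : ∀ b, ∀ p ∈ sl b, p.1 ≤ p.2)
    {σ : TBx K → ℝ} (hσ : ∀ b, ∑ p ∈ sl b, (p.2 - p.1) ≤ σ b) (s : K.S) (l : Fin 3) :
    ∑ p ∈ plT sl s l, (p.2 - p.1) ≤ ∑ b ∈ relF s l, σ b := by
  classical
  have h1 : ∀ (F : Finset (TBx K)), ∑ p ∈ F.biUnion sl, (p.2 - p.1) ≤ ∑ b ∈ F, σ b := by
    intro F
    induction F using Finset.induction_on with
    | empty => simp
    | insert b F hb ih =>
      rw [Finset.biUnion_insert, Finset.sum_insert hb]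
      have h2 := Finset.sum_union_inter (s₁ := sl b) (s₂ := F.biUnion sl)
        (f := fun p : ℝ × ℝ => p.2 - p.1)
      have h3 : 0 ≤ ∑ p ∈ sl b ∩ F.biUnion sl, (p.2 - p.1) :=
        Finset.sum_nonneg fun p hp => by
          have := hsl b p (Finset.mem_inter.1 hp).1
          linarith
      have h4 := hσ b
      linarith
  unfold plT
  convert h1 (relF s l)

/-- a positive number for every box, with small sums for every square -/
theorem exists_sig {μ : K.S → ℝ} (hμ : ∀ s, 0 < μ s) : ∃ σ : TBx K → ℝ, (∀ b, 0 < σ b) ∧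
    (∀ s l, ∑ b ∈ relF s l, σ b ≤ μ s) ∧ ∀ s l b, Rel s l b → σ b ≤ μ s := by
  classical
  -- the number of boxes of a square
  set n : K.S → ℝ := fun s => 1 + ∑ l : Fin 3, ((relF s l).card : ℝ) with hn
  have hn1 : ∀ s, 1 ≤ n s := fun s => by
    have : 0 ≤ ∑ l : Fin 3, ((relF s l).card : ℝ) := Finset.sum_nonneg fun _ _ => Nat.cast_nonneg _
    simp only [hn]; linarith
  have hnl : ∀ s l, ((relF s l).card : ℝ) ≤ n s := fun s l => by
    have h1 := Finset.single_le_sum (f := fun l : Fin 3 => ((relF s l).card : ℝ))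
      (fun _ _ => Nat.cast_nonneg _) (Finset.mem_univ l)
    simp only [hn]
    linarith
  have key : ∀ b : TBx K, ∃ σ > 0, ∀ s, (∃ l, Rel s l b) → σ ≤ μ s / n s := by
    intro b
    have hf := rel_fin' b
    rcases hf.toFinset.eq_empty_or_nonempty with h0 | h0
    · refine ⟨1, one_pos, fun s hs => ?_⟩
      have : s ∈ hf.toFinset := hf.mem_toFinset.2 hs
      rw [h0] at this
      exact absurd this (Finset.notMem_empty s)
    · refine ⟨hf.toFinset.inf' h0 fun s => μ s / n s, ?_, fun s hs => ?_⟩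
      · rw [gt_iff_lt, Finset.lt_inf'_iff]
        exact fun s _ => div_pos (hμ s) (by linarith [hn1 s])
      · exact Finset.inf'_le _ (hf.mem_toFinset.2 hs)
  choose σ hσ0 hσ using key
  refine ⟨σ, hσ0, fun s l => ?_, fun s l b hb => ?_⟩
  · calc ∑ b ∈ relF s l, σ b ≤ ∑ b ∈ relF s l, μ s / n s :=
        Finset.sum_le_sum fun b hb => hσ b s ⟨l, mem_relF.1 hb⟩
      _ = ((relF s l).card : ℝ) * (μ s / n s) := by rw [Finset.sum_const, nsmul_eq_mul]
      _ ≤ n s * (μ s / n s) := mul_le_mul_of_nonneg_right (hnl s l)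
          (div_nonneg (hμ s).le (by linarith [hn1 s]))
      _ = μ s := by have := hn1 s; field_simp
  · refine (hσ b s ⟨l, hb⟩).trans ?_
    rw [div_le_iff₀ (by linarith [hn1 s])]
    nlinarith [hμ s, hn1 s]

/-- the squares of the dyadic tiling are squares -/
theorem side_eq {ρ : V → ℝ} (C : H471.Cells ρ v K) (s : K.S) {j j' : Fin 3} (hj : j ≠ K.nrm s)
    (hj' : j' ≠ K.nrm s) : K.shi s j - K.slo s j = K.shi s j' - K.slo s j' := by
  have key : ∀ i, i ≠ K.nrm s → K.shi s i - K.slo s i = (C.fS s).sd := by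
    intro i hi
    have h1 : (C.fS s).n i ≠ true := fun h => hi ((C.isS s i).1 h)
    rw [C.slo_eq, C.shi_eq]
    show (C.fS s).lo v i + (if (C.fS s).n i then 0 else (C.fS s).sd) - (C.fS s).lo v i = _
    rw [if_neg h1]
    ring
  rw [key j hj, key j' hj']

end Vale.Agent.P073.H669
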