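import Vale.Agent.P073.H669.PLevC

/-!
# P073, H669: **[P-LEV]**, part 4: the existence theorem, with the widths of the slivers chosen first
-/

open Set Metric Topology Filter
open scoped ENNReal

namespace Vale.Agent.P073.H669

open _root_.P073 _root_.P073.TR _root_.P073.Net _root_.P073.PA691
open _root_.P073.PR720 (LF)
open Vale.Agent.P073.St (V)
open Vale.Agent.P073.H471 (Rad Wid Boxes Near lf_ss ss_subset)
open Vale.Agent.P073.H267
open Vale.Agent.P073.H73 (Mesh)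
open Vale.Agent.P073.H193 (Edges)
open _root_.P073.H345 (tg tg_ne tg_ne_not PK)

/-- positive numbers below finitely many given positive numbers -/
theorem exists_le_of_finite {ι κ : Type*} {R : ι → κ → Prop} (hR : ∀ s, {k | R s k}.Finite)
    {f : κ → ℝ} (hf : ∀ k, 0 < f k) :
    ∃ m : ι → ℝ, (∀ s, 0 < m s) ∧ ∀ s k, R s k → m s ≤ f k := by
  classical
  have key : ∀ s, ∃ m > 0, ∀ k, R s k → m ≤ f k := by
    intro s
    rcases (hR s).toFinset.eq_empty_or_nonempty with h0 | h0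
    · refine ⟨1, one_pos, fun k hk => ?_⟩
      have : k ∈ (hR s).toFinset := (hR s).mem_toFinset.2 hk
      rw [h0] at this
      exact absurd this (Finset.notMem_empty k)
    · refine ⟨(hR s).toFinset.inf' h0 f, ?_, fun k hk => ?_⟩
      · rw [gt_iff_lt, Finset.lt_inf'_iff]
        exact fun k _ => hf k
      · exact Finset.inf'_le _ ((hR s).mem_toFinset.2 hk)
  choose m hm0 hm using key
  exact ⟨m, hm0, hm⟩

variable {Λ : Set V} {v : V} {K : BoxCx Λ v} {S : Rad K} {W : Wid K S} {B : Boxes W}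

/-- finitely many faces near a plate -/
theorem face_fin {Ω : Set V} {M : Mesh Ω} (h : ConHomeo Ω Λ) {P : Set V} (hP : IsCompact P)
    (hPΛ : P ⊆ Λ) : {k | (h.toFun '' M.F k ∩ P).Nonempty}.Finite :=
  Croft.finite_image_inter h (fun k => Vale.Agent.P073.H238.mesh_sub M k)
    (fun X hX hXc => M.ffin X hX hXc) hP hPΛ

/-- **[P-LEV]**: the widths `σ` of the slivers are chosen first; `μ` is the displacement, `dmax` bounds
the spacings (the steps are at most `2 δ`). -/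
theorem exists_plev {ρ : V → ℝ} (D : H471.Cells ρ v K) (G : Geo B) {μ : K.S → ℝ}
    (hμ : ∀ s, 0 < μ s) :
    ∃ (μ' : K.S → ℝ) (σ : TBx K → ℝ), (∀ s, 0 < μ' s) ∧ (∀ s, μ' s ≤ μ s) ∧ (∀ b, 0 < σ b) ∧
      ∀ {Ω : Set V} (_ : IsOpen Ω) {M : Mesh Ω} (E : Edges M) (h : ConHomeo Ω Λ) (Pr : Set M.ι)
        {sl : TBx K → Finset (ℝ × ℝ)} (_ : ∀ b, ∀ p ∈ sl b, p.1 ≤ p.2)
        (_ : ∀ b, ∑ p ∈ sl b, (p.2 - p.1) ≤ σ b) {τ : Type} {A : τ → Set V}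
        (_ : ∀ t, ∀ x ∈ Ω, LocConeAt (A t) x)
        (_ : ∀ x ∈ Ω, ∃ U ∈ 𝓝 x, {t | (A t ∩ U).Nonempty}.Finite)
        {εE : E.ε → ℝ} (_ : ∀ e, 0 < εE e) {C : Set ℝ} (_ : C.Countable) {η : ℝ} (_ : 0 < η)
        (_ : η ≤ 1 / 4) {dmax : K.S → ℝ} (_ : ∀ s, 0 < dmax s),
        ∃ δ : K.S → ℝ, (∀ s, δ s ≤ dmax s) ∧ Nonempty (PLv G E h Pr sl η A C εE μ' δ) := by
  have hμ' : ∀ s, 0 < min (μ s) (G.a s) := fun s => lt_min (hμ s) (G.a_pos s)
  obtain ⟨σ, hσ0, hσ, -⟩ := exists_sig (K := K) (μ := fun s => min (μ s) (G.a s) / 4)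
    fun s => by have := hμ' s; positivity
  refine ⟨fun s => min (μ s) (G.a s), σ, hμ', fun s => min_le_left _ _, hσ0, ?_⟩
  intro Ω hΩ M E h Pr sl hsl hsum τ A hA hAlf εE hε C hC η hη hη4 dmax hd
  exact exists_plv hΩ G E h Pr (fun s => side_eq D s (tg_ne s false) (tg_ne s true)) hsl hμ'
    (fun s => min_le_right _ _)
    (fun s β => (sum_plT_le hsl hsum s (tg s β)).trans (hσ s (tg s β))) hA hAlf hε hC hη hη4 hd

/-- the empty further family -/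
theorem exists_plev' {ρ : V → ℝ} (D : H471.Cells ρ v K) (G : Geo B) {μ : K.S → ℝ}
    (hμ : ∀ s, 0 < μ s) :
    ∃ (μ' : K.S → ℝ) (σ : TBx K → ℝ), (∀ s, 0 < μ' s) ∧ (∀ s, μ' s ≤ μ s) ∧ (∀ b, 0 < σ b) ∧
      ∀ {Ω : Set V} (_ : IsOpen Ω) {M : Mesh Ω} (E : Edges M) (h : ConHomeo Ω Λ) (Pr : Set M.ι)
        {sl : TBx K → Finset (ℝ × ℝ)} (_ : ∀ b, ∀ p ∈ sl b, p.1 ≤ p.2)
        (_ : ∀ b, ∑ p ∈ sl b, (p.2 - p.1) ≤ σ b)
        {εE : E.ε → ℝ} (_ : ∀ e, 0 < εE e) {C : Set ℝ} (_ : C.Countable) {η : ℝ} (_ : 0 < η)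
        (_ : η ≤ 1 / 4) {dmax : K.S → ℝ} (_ : ∀ s, 0 < dmax s),
        ∃ δ : K.S → ℝ, (∀ s, δ s ≤ dmax s) ∧
          Nonempty (PLv G E h Pr sl η (fun t : Empty => t.elim) C εE μ' δ) := by
  obtain ⟨μ', σ, h1, h2, h3, h4⟩ := exists_plev D G hμ
  refine ⟨μ', σ, h1, h2, h3, ?_⟩
  intro Ω hΩ M E h Pr sl hsl hsum εE hε C hC η hη hη4 dmax hd
  exact h4 hΩ E h Pr hsl hsum (fun t => t.elim) (fun x _ => ⟨univ, univ_mem,
    (Set.toFinite _)⟩) hε hC hη hη4 hd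

end Vale.Agent.P073.H669
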