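import Vale.Agent.P073.H669.PLevD
import Vale.Agent.P073.H345.PStage2
import Vale.Agent.P073.H805.RinT
import Vale.Agent.P073.H244.PWe2

/-!
# P073, H669: **[P-LEV]**, part 5: the forms of H155, H345, H805, H244
-/

open Set Metric Topology Filter
open scoped ENNReal

namespace Vale.Agent.P073.H669

open _root_.P073 _root_.P073.TR _root_.P073.Net _root_.P073.PA691
open _root_.P073.PR720 (LF)
open Vale.Agent.P073.St (V)
open Vale.Agent.P073.H471 (Rad Wid Boxes Near lf_ss ss_subset)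
open Vale.Agent.P073.H267
open Vale.Agent.P073.H73 (Mesh)
open Vale.Agent.P073.H193 (Edges)
open _root_.P073.Croft (Cells Crs levs Generic onS cross varIn TransAt SepL)
open _root_.P073.H345 (tg tg_ne tg_ne_not bt bt_tg tg_bt PK PB_sub_PK PLev)
open _root_.P073.H236 (NoSl T3Out)
open Vale.Agent.P073.H805 (RIn RelB rin_of)

variable {Ω Λ : Set V} {v : V} {K : BoxCx Λ v}

theorem rel_iff_B {s : K.S} {l : Fin 3} {b : TBx K} : RelB s l b ↔ Rel s l b := by
  cases b <;> exact Iff.rfl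

theorem rel_iff_T {s : K.S} {l : Fin 3} {b : TBx K} : _root_.P073.H155.RelT s l b ↔ Rel s l b := by
  cases b <;> exact Iff.rfl

theorem rel_iff_345 {s : K.S} {l : Fin 3} {b : TBx K} : _root_.P073.H345.Rel s l b ↔ Rel s l b := by
  cases b <;> exact Iff.rfl

namespace PLv

section geo

variable {S : Rad K} {W : Wid K S} {B : Boxes W}
  {G : Geo B} {M : Mesh Ω} {E : Edges M} {h : ConHomeo Ω Λ} {Pr : Set M.ι}
  {sl : TBx K → Finset (ℝ × ℝ)} {η : ℝ} {τ : Type*} {A : τ → Set V} {C : Set ℝ}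
  {εE : E.ε → ℝ} {μ δ : K.S → ℝ} (L : PLv G E h Pr sl η A C εE μ δ)

/-- the cells avoid the closed slivers -/
theorem bandC (s : K.S) (β : Bool) {n : ℕ} (hn : n < L.N s) {b : TBx K} (hb : Rel s (tg s β) b)
    {p : ℝ × ℝ} (hp : p ∈ sl b) :
    p.2 < L.a s β n - 2 * (δ s / 8) ∨ L.a s β n + 2 * (δ s / 8) < p.1 := by
  have h1 := L.lt_a s β n
  rcases (L.cells s β).sliver n (hn.trans_le (L.N_le s β)) p (mem_plT.2 ⟨b, hb, hp⟩) with h2 | h2
  · right; linarith [h1.2]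
  · left; linarith [h1.1]

/-- **155's (BAND)** -/
theorem bandP : _root_.P073.H155.BandP L.lev sl := fun s β _ hn _ hb _ hp =>
  L.bandC s β hn (rel_iff_T.1 hb) hp

/-- **345's (BAND)** -/
theorem band345 : _root_.P073.H345.Band L.lev sl := fun s β _ hn _ hb _ hr =>
  L.band s β hn (rel_iff_345.1 hb) hr

/-- **805's hypothesis on the slivers** -/
theorem hnsB : ∀ s l, l ≠ K.nrm s → ∀ t ∈ L.lev.lv s l, ∀ b : TBx K, RelB s l b →
    NoSl (sl b) t := fun s l hl t ht b hb => L.hns s l hl t ht b (rel_iff_B.1 hb)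

/-! ### the forms of 244 -/

theorem hP244 (s : K.S) : G.PB (3 / 4) s ⊆ PK G s := PB_sub_PK le_rfl s

theorem om244 (s : K.S) (β : Bool) : L.lev.om s β ≤ 1 * L.lev.om s (!β) := by
  rw [one_mul]
  exact (L.om_eq s β (!β)).le

theorem omδ244 (i : K.S × Bool) : L.lev.om i.1 i.2 ≤ 2 * δ i.1 := L.om_le_two i.1 i.2

theorem crs244 (e : E.ε) : Crs h.toFun (E.a e) (E.b e) (fun i : K.S × Bool => tg i.1 i.2)
    (fun i => PK G i.1) (fun i => δ i.1) (fun i => levs (L.lev.N i.1 i.2) (L.lev.a i.1 i.2))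
    (1 - 2 * η)⁻¹ (εE e) := L.crs e

include L in
theorem K0_le : (1 - 2 * η)⁻¹ ≤ 2 := by
  have := L.η4
  rw [inv_le_comm₀ (by linarith) (by norm_num)]
  linarith

end geo

/-- **805's input of the exchange**, from the output of round T -/
theorem rin {η₀ : ℝ} {ρ : V → ℝ} {M : Mesh Ω} {E : Edges M} {h h1 : ConHomeo Ω Λ}
    {P : Set M.ι} {O : M.κ → V} {La : E.ε → ℝ} {Lf : M.κ → E.ε → ℝ} {Lam1 : M.κ → ℝ}
    {sl : TBx K → Finset (ℝ × ℝ)} (D : KIn η₀ v ρ M h P) (C : H471.Cells ρ v K)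
    {η : ℝ} {τ : Type*} {A : τ → Set V} {Cs : Set ℝ} {εE : E.ε → ℝ} {μ δ : K.S → ℝ}
    (L : PLv (D.G C) E h1 P sl η A Cs εE μ δ)
    (T : T3Out (D.G C) M E h h1 (ωT η₀ C) O La Lf Lam1 sl)
    (hi : ∀ i ∈ P, h1.toFun '' M.Q i = h.toFun '' M.Q i)
    (ht : ∀ i ∈ P, ∀ x ∈ frontier (M.Q i), ∀ q, h.toFun x ∈ K.cube q → h1.toFun x ∈ K.cube q) :
    RIn (D.G C) M h1 P univ L.lev.lv E :=
  rin_of D C T hi ht L.win L.hnsB L.reg1 L.reg2

end PLv

end Vale.Agent.P073.H669
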