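import Vale.Agent.P073.H669.PLevG
import Vale.Agent.P073.H669.PLevE
import Vale.Agent.P073.H880.RP1
import Vale.Agent.P073.H805.Inv3

/-!
# P073, H669: **[P-LEV3]**, part 2: the slivers, the coordinate rectangles, thin boxes

`plT3 G h F sl`: the slivers of the boxes of round T, and the coordinates of all coordinate
rectangles which are images of members of the family `F`.  `exists_plev3`: the widths of the
slivers are chosen first.  `PLg.inv_rect`: these rectangles are invariant under the moves inside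
the cells.  `PLg.bfamX`: the staircases with thinner flats, for some of the squares.
-/

open Set Metric Topology Filter
open scoped ENNReal

namespace Vale.Agent.P073.H669

open _root_.P073 _root_.P073.TR _root_.P073.Net _root_.P073.PA691
open _root_.P073.PR720 (LF)
open Vale.Agent.P073.St (V)
open Vale.Agent.P073.H471 (Rad Wid Boxes Near lf_ss ss_subset)
open Vale.Agent.P073.H267
open Vale.Agent.P073.H73 (Mesh)
open Vale.Agent.P073.H193 (Edges)
open _root_.P073.H345 (tg tg_ne tg_ne_not tg_cases bt bt_tg tg_bt PK PB_sub_PK PK_sub_ss PK_unique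
  PLev)
open _root_.P073.H236 (BX Lvs NoSl BFam stp abs_sm_sub_self_le abs_sm_sub_le)
open _root_.P073.H196 (MvInv mvInv_icc)

variable {Ω Λ : Set V} {v : V} {K : BoxCx Λ v} {S : Rad K} {W : Wid K S} {B : Boxes W}

/-! ### the coordinates of the rectangles -/

section rect

variable {τ : Type*} {F : τ → Set V} {h : ConHomeo Ω Λ}

/-- the coordinate rectangles which are images of members of `F` -/
def rects (h : ConHomeo Ω Λ) (F : τ → Set V) : Set (V × V) :=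
  {p | p.1 ≤ p.2 ∧ ∃ t, F t ⊆ Ω ∧ h.toFun '' F t = Icc p.1 p.2}

theorem rects_fin (hF : ∀ x ∈ Ω, ∃ U ∈ 𝓝 x, {t | (F t ∩ U).Nonempty}.Finite) {P : Set V}
    (hP : IsCompact P) (hPΛ : P ⊆ Λ) : {p | p ∈ rects h F ∧ (Icc p.1 p.2 ∩ P).Nonempty}.Finite := by
  have hc : IsCompact (h.invFun '' P) := hP.image_of_continuousOn (h.cont_inv.mono hPΛ)
  have hsub : h.invFun '' P ⊆ Ω := by
    rintro _ ⟨y, hy, rfl⟩
    exact h.mapsTo_inv (hPΛ hy)
  have h1 : {t | (F t ∩ h.invFun '' P).Nonempty}.Finite := H805.finite_meet hF hc hsub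
  refine Set.Finite.of_finite_image (f := fun p : V × V => Icc p.1 p.2)
    ((h1.image fun t => h.toFun '' F t).subset ?_) ?_
  · rintro _ ⟨p, ⟨⟨-, t, ht, he⟩, ⟨y, hy, hyP⟩⟩, rfl⟩
    refine ⟨t, ?_, he⟩
    rw [← he] at hy
    obtain ⟨x, hx, rfl⟩ := hy
    exact ⟨x, hx, h.toFun x, hyP, h.left_inv (ht hx)⟩
  · rintro p ⟨⟨hp, -⟩, -⟩ q ⟨⟨hq, -⟩, -⟩ he
    have he' : Icc p.1 p.2 = Icc q.1 q.2 := he
    have a1 : p.1 ∈ Icc q.1 q.2 := he' ▸ left_mem_Icc.2 hp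
    have a2 : p.2 ∈ Icc q.1 q.2 := he' ▸ right_mem_Icc.2 hp
    have a3 : q.1 ∈ Icc p.1 p.2 := he' ▸ left_mem_Icc.2 hq
    have a4 : q.2 ∈ Icc p.1 p.2 := he' ▸ right_mem_Icc.2 hq
    exact Prod.ext (le_antisymm a3.1 a1.1) (le_antisymm a2.2 a4.2)

/-- the rectangles which meet the plate, and the rectangles inside of them -/
def relR (G : Geo B) (h : ConHomeo Ω Λ) (F : τ → Set V) (s : K.S) : Set (V × V) :=
  {p | p ∈ rects h F ∧ ∃ q ∈ rects h F, (Icc q.1 q.2 ∩ PK G s).Nonempty ∧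
    Icc p.1 p.2 ⊆ Icc q.1 q.2}

theorem relR_fin (hF : ∀ x ∈ Ω, ∃ U ∈ 𝓝 x, {t | (F t ∩ U).Nonempty}.Finite) (G : Geo B)
    (s : K.S) : (relR G h F s).Finite := by
  have h1 := rects_fin (h := h) hF (PK_compact G s) (PK_sub G s)
  refine (h1.biUnion (t := fun q => {p | p ∈ rects h F ∧ (Icc p.1 p.2 ∩ Icc q.1 q.2).Nonempty})
    fun q hq => ?_).subset ?_
  · obtain ⟨⟨hq1, t, ht, he⟩, -⟩ := hq
    refine rects_fin hF isCompact_Icc ?_
    rw [← he]
    rintro _ ⟨x, hx, rfl⟩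
    exact h.mapsTo (ht hx)
  · rintro p ⟨hp, q, hq, hm, hpq⟩
    exact mem_biUnion (x := q) ⟨hq, hm⟩ ⟨hp, p.1, left_mem_Icc.2 hp.1, hpq (left_mem_Icc.2 hp.1)⟩

open Classical in
/-- the coordinates of these rectangles, as slivers of length `0` -/
noncomputable def rectT (G : Geo B) (h : ConHomeo Ω Λ) (F : τ → Set V) (s : K.S) (β : Bool) :
    Finset (ℝ × ℝ) :=
  if hf : (relR G h F s).Finite then
    hf.toFinset.image (fun p => (p.1 (tg s β), p.1 (tg s β))) ∪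
      hf.toFinset.image (fun p => (p.2 (tg s β), p.2 (tg s β)))
  else ∅

theorem rectT_len {G : Geo B} {s : K.S} {β : Bool} : ∀ p ∈ rectT G h F s β, p.2 = p.1 := by
  intro p hp
  unfold rectT at hp
  split_ifs at hp
  · rcases Finset.mem_union.1 hp with hp | hp <;>
    · obtain ⟨q, -, rfl⟩ := Finset.mem_image.1 hp
      rfl
  · exact absurd hp (Finset.notMem_empty _)

theorem mem_rectT (hF : ∀ x ∈ Ω, ∃ U ∈ 𝓝 x, {t | (F t ∩ U).Nonempty}.Finite) {G : Geo B}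
    {s : K.S} (β : Bool) {p : V × V} (hp : p ∈ relR G h F s) :
    (p.1 (tg s β), p.1 (tg s β)) ∈ rectT G h F s β ∧
      (p.2 (tg s β), p.2 (tg s β)) ∈ rectT G h F s β := by
  have hf := relR_fin (h := h) hF G s
  unfold rectT
  rw [dif_pos hf]
  have h1 : p ∈ hf.toFinset := hf.mem_toFinset.2 hp
  exact ⟨Finset.mem_union.2 (Or.inl (Finset.mem_image.2 ⟨p, h1, rfl⟩)),
    Finset.mem_union.2 (Or.inr (Finset.mem_image.2 ⟨p, h1, rfl⟩))⟩

open Classical in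
/-- **the slivers**: of the boxes of round T, and the coordinates of the rectangles -/
noncomputable def plT3 (G : Geo B) (h : ConHomeo Ω Λ) (F : τ → Set V)
    (sl : TBx K → Finset (ℝ × ℝ)) (s : K.S) (β : Bool) : Finset (ℝ × ℝ) :=
  plT sl s (tg s β) ∪ rectT G h F s β

variable {sl : TBx K → Finset (ℝ × ℝ)} {G : Geo B}

theorem plT3_le (hsl : ∀ b, ∀ p ∈ sl b, p.1 ≤ p.2) (s : K.S) (β : Bool) :
    ∀ p ∈ plT3 G h F sl s β, p.1 ≤ p.2 := by
  intro p hp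
  rcases Finset.mem_union.1 hp with h1 | h1
  · exact plT_le hsl s (tg s β) p h1
  · exact (rectT_len p h1).symm.le

theorem sum_plT3_le (hsl : ∀ b, ∀ p ∈ sl b, p.1 ≤ p.2)
    {σ : TBx K → ℝ} (hσ : ∀ b, ∑ p ∈ sl b, (p.2 - p.1) ≤ σ b) (s : K.S) (β : Bool) :
    ∑ p ∈ plT3 G h F sl s β, (p.2 - p.1) ≤ ∑ b ∈ relF s (tg s β), σ b := by
  classical
  have h1 := Finset.sum_union_inter (s₁ := plT sl s (tg s β)) (s₂ := rectT G h F s β)
    (f := fun p : ℝ × ℝ => p.2 - p.1)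
  have h2 : ∑ p ∈ rectT G h F s β, (p.2 - p.1) = 0 :=
    Finset.sum_eq_zero fun p hp => by rw [rectT_len p hp, sub_self]
  have h3 : ∑ p ∈ plT sl s (tg s β) ∩ rectT G h F s β, (p.2 - p.1) = 0 :=
    Finset.sum_eq_zero fun p hp => by
      rw [rectT_len p (Finset.mem_inter.1 hp).2, sub_self]
  rw [h2, h3, add_zero, add_zero] at h1
  refine le_trans (le_of_eq ?_) (sum_plT_le hsl hσ s (tg s β))
  rw [← h1]
  unfold plT3
  congr 1

end rect

/-- **[P-LEV3]**: the widths `σ` of the slivers are chosen first; `μ` is the displacement, `dmax` bounds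
the spacings (the steps are at most `2 δ`). -/
theorem exists_plev3 {ρ : V → ℝ} (D : H471.Cells ρ v K) (G : Geo B) {μ : K.S → ℝ}
    (hμ : ∀ s, 0 < μ s) :
    ∃ (μ' : K.S → ℝ) (σ : TBx K → ℝ), (∀ s, 0 < μ' s) ∧ (∀ s, μ' s ≤ μ s) ∧ (∀ b, 0 < σ b) ∧
      ∀ {Ω : Set V} (_ : IsOpen Ω) (h : ConHomeo Ω Λ)
        {sl : TBx K → Finset (ℝ × ℝ)} (_ : ∀ b, ∀ p ∈ sl b, p.1 ≤ p.2)
        (_ : ∀ b, ∑ p ∈ sl b, (p.2 - p.1) ≤ σ b) {τ : Type} {F : τ → Set V}
        (_ : ∀ t, ∀ x ∈ Ω, LocConeAt (F t) x)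
        (_ : ∀ x ∈ Ω, ∃ U ∈ 𝓝 x, {t | (F t ∩ U).Nonempty}.Finite)
        {ξ : Type} {sa sb : ξ → V} (_ : ∀ e, segment ℝ (sa e) (sb e) ⊆ Ω)
        (_ : ∀ X ⊆ Ω, IsCompact X → {e | (segment ℝ (sa e) (sb e) ∩ X).Nonempty}.Finite)
        {εE : ξ → ℝ} (_ : ∀ e, 0 < εE e) {C : Set ℝ} (_ : C.Countable) {η : ℝ} (_ : 0 < η)
        (_ : η ≤ 1 / 4) {dmax : K.S → ℝ} (_ : ∀ s, 0 < dmax s),
        ∃ δ : K.S → ℝ, (∀ s, δ s ≤ dmax s) ∧
          Nonempty (PLg G h (plT3 G h F sl) η F C sa sb εE μ' δ) := by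
  have hμ' : ∀ s, 0 < min (μ s) (G.a s) := fun s => lt_min (hμ s) (G.a_pos s)
  obtain ⟨σ, hσ0, hσ, -⟩ := exists_sig (K := K) (μ := fun s => min (μ s) (G.a s) / 4)
    fun s => by have := hμ' s; positivity
  refine ⟨fun s => min (μ s) (G.a s), σ, hμ', fun s => min_le_left _ _, hσ0, ?_⟩
  intro Ω hΩ h sl hsl hsum τ F hF hFlf ξ sa sb hseg hslf εE hε C hC η hη hη4 dmax hd
  exact exists_plg hΩ G h (fun s => side_eq D s (tg_ne s false) (tg_ne s true))
    (fun s β => plT3_le hsl s β) hμ' (fun s => min_le_right _ _)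
    (fun s β => (sum_plT3_le hsl hsum s β).trans (hσ s (tg s β))) hF hFlf hseg hslf hε hC hη hη4 hd

/-- the plate is invariant under the moves inside the window -/
theorem PK_update {G : Geo B} {s : K.S} {j : Fin 3} (hj : j ≠ K.nrm s) {y : V} (hy : y ∈ PK G s)
    {t : ℝ} (h1 : K.slo s j + G.a s ≤ t) (h2 : t ≤ K.shi s j - G.a s) :
    Function.update y j t ∈ PK G s := by
  have hpa := Geo.p_a (G := G) s
  have hp := Geo.p_pos (G := G) s
  refine ⟨fun k hk => ?_, ?_⟩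
  · by_cases hkj : k = j
    · subst hkj
      rw [Function.update_self]
      constructor <;> linarith
    · rw [Function.update_of_ne hkj]
      exact hy.1 k hk
  · rw [Function.update_of_ne hj.symm]
    exact hy.2

namespace PLg

section plt3

variable {G : Geo B} {h : ConHomeo Ω Λ} {sl : TBx K → Finset (ℝ × ℝ)} {η : ℝ}
  {τ : Type*} {F : τ → Set V} {C : Set ℝ} {ξ : Type*} {sa sb : ξ → V} {εE : ξ → ℝ}
  {μ δ : K.S → ℝ} (L : PLg G h (plT3 G h F sl) η F C sa sb εE μ δ)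

/-- **(BAND)**: the cells avoid the closed slivers -/
theorem band3 {s : K.S} {β : Bool} {n : ℕ} (hn : n < L.lev.N s β) {b : TBx K}
    (hb : Rel s (tg s β) b) {p : ℝ × ℝ} (hp : p ∈ sl b) :
    p.2 < L.lev.a s β n - 2 * L.lev.c s β ∨ L.lev.a s β n + 2 * L.lev.c s β < p.1 := by
  classical
  exact L.bandT' s β hn (Finset.mem_union.2 (Or.inl (mem_plT.2 ⟨b, hb, hp⟩)))

theorem subT {s : K.S} {β : Bool} {b : TBx K} (hb : Rel s (tg s β) b) :
    sl b ⊆ plT3 G h F sl s β := by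
  classical
  exact fun p hp => Finset.mem_union.2 (Or.inl (mem_plT.2 ⟨b, hb, hp⟩))

/-- 155's (BAND) -/
theorem bandP3 : _root_.P073.H155.BandP L.lev sl := fun _ _ _ hn _ hb _ hp =>
  L.band3 hn (rel_iff_T.1 hb) hp

/-- 345's (BAND) -/
theorem band345' : _root_.P073.H345.Band L.lev sl := fun _ _ _ hn _ hb _ hr =>
  L.band (subT (rel_iff_345.1 hb)) hn hr

/-- 805's hypothesis on the slivers -/
theorem hnsB' : ∀ s l, l ≠ K.nrm s → ∀ t ∈ L.lev.lv s l, ∀ b : TBx K,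
    Vale.Agent.P073.H805.RelB s l b → NoSl (sl b) t := by
  intro s l hl t ht b hb
  obtain ⟨β, rfl⟩ : ∃ β, l = tg s β := ⟨bt s l, (tg_bt s hl).symm⟩
  exact L.hns (subT (rel_iff_B.1 hb)) ht

/-- the cells avoid the coordinates of the rectangles -/
theorem rect3' (hF : ∀ x ∈ Ω, ∃ U ∈ 𝓝 x, {t | (F t ∩ U).Nonempty}.Finite) {s : K.S} {β : Bool}
    {n : ℕ} (hn : n < L.lev.N s β) {p : V × V} (hp : p ∈ relR G h F s) :
    (p.1 (tg s β) ∉ Icc (L.lev.a s β n - 2 * L.lev.c s β) (L.lev.a s β n + 2 * L.lev.c s β)) ∧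
    (p.2 (tg s β) ∉ Icc (L.lev.a s β n - 2 * L.lev.c s β) (L.lev.a s β n + 2 * L.lev.c s β)) := by
  classical
  obtain ⟨h1, h2⟩ := mem_rectT (h := h) hF (G := G) (s := s) β hp
  have key : ∀ r : ℝ, (r, r) ∈ plT3 G h F sl s β →
      r ∉ Icc (L.lev.a s β n - 2 * L.lev.c s β) (L.lev.a s β n + 2 * L.lev.c s β) := by
    intro r hr hmem
    rcases L.bandT' s β hn hr with h3 | h3
    · exact absurd hmem.1 (not_le.2 h3)
    · exact absurd hmem.2 (not_le.2 h3)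
  exact ⟨key _ (Finset.mem_union.2 (Or.inr h1)), key _ (Finset.mem_union.2 (Or.inr h2))⟩

theorem rect3 (hF : ∀ x ∈ Ω, ∃ U ∈ 𝓝 x, {t | (F t ∩ U).Nonempty}.Finite) {s : K.S} {β : Bool}
    {n : ℕ} (hn : n < L.lev.N s β) {p : V × V} (hp : p ∈ rects h F)
    (hm : (Icc p.1 p.2 ∩ PK G s).Nonempty) :
    (p.1 (tg s β) ∉ Icc (L.lev.a s β n - 2 * L.lev.c s β) (L.lev.a s β n + 2 * L.lev.c s β)) ∧
    (p.2 (tg s β) ∉ Icc (L.lev.a s β n - 2 * L.lev.c s β) (L.lev.a s β n + 2 * L.lev.c s β)) :=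
  L.rect3' hF hn ⟨hp, p, hp, hm, Subset.rfl⟩

/-- **805's `PAvoid`**: the cells avoid the coordinates of the vertices of the protected cells -/
theorem pavoid (hF : ∀ x ∈ Ω, ∃ U ∈ 𝓝 x, {t | (F t ∩ U).Nonempty}.Finite) {M : Mesh Ω}
    (E : Edges M) (D : H880.RP.Dat K M) (hQ : ∀ i ∈ D.Pr, ∃ t, F t = M.Q i)
    (hv : ∀ x ∈ E.verts, ∃ t, F t = {x})
    (hr : Vale.Agent.P073.H805.PRect G E D h) :
    Vale.Agent.P073.H805.PAvoid L.lev E D h := by
  intro s hs i hi hm x hx hxi β n hn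
  obtain ⟨t, ht⟩ := hQ i hi
  obtain ⟨t', ht'⟩ := hv x hx
  obtain ⟨lo, hi', he, -⟩ := hr.cell s hs i hi hm
  have hlh : lo ≤ hi' := by
    have h1 : h.toFun x ∈ Icc lo hi' := by rw [← he]; exact ⟨x, hxi, rfl⟩
    exact h1.1.trans h1.2
  have h1 : ((lo, hi') : V × V) ∈ rects h F := ⟨hlh, t, by rw [ht]; exact M.sub i, by rw [ht]; exact he⟩
  have h2 : ((h.toFun x, h.toFun x) : V × V) ∈ rects h F :=
    ⟨le_rfl, t', by rw [ht']; exact singleton_subset_iff.2 (M.sub i hxi), by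
      rw [ht', image_singleton, Icc_self]⟩
  have h3 : ((h.toFun x, h.toFun x) : V × V) ∈ relR G h F s := by
    refine ⟨h2, (lo, hi'), h1, by rw [he] at hm; exact hm, ?_⟩
    show Icc (h.toFun x) (h.toFun x) ⊆ Icc lo hi'
    rw [Icc_self, singleton_subset_iff, ← he]
    exact ⟨x, hxi, rfl⟩
  have h4 := (L.rect3' hF hn h3).1
  by_contra hcon
  push Not at hcon
  obtain ⟨a1, a2⟩ := abs_le.1 hcon
  exact h4 ⟨by linarith, by linarith⟩

/-- **the rectangles are invariant** -/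
theorem inv_rect' (hF : ∀ x ∈ Ω, ∃ U ∈ 𝓝 x, {t | (F t ∩ U).Nonempty}.Finite) (S₀ : Set K.S)
    {p : V × V} (hp : p ∈ rects h F) : H880.RP.Inv L.lev S₀ (Icc p.1 p.2) := by
  intro s _ β n hn
  by_cases hm : (Icc p.1 p.2 ∩ PK G s).Nonempty
  · obtain ⟨h1, h2⟩ := L.rect3 hF hn hp hm
    exact mvInv_icc ordConnected_Icc h1 h2 _
  · intro y hy hyj t ht
    have hw : K.slo s (tg s β) + G.a s ≤ t ∧ t ≤ K.shi s (tg s β) - G.a s := by
      have h0 := L.δ0 s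
      have h1 := L.lt_a s β n
      have h2 := (L.cells s β).ge n (hn.trans_le (L.N_le s β))
      have h3 := (L.cells s β).le n (hn.trans_le (L.N_le s β))
      have h4 : L.a s β n - 2 * (δ s / 8) ≤ t := ht.1
      have h5 : t ≤ L.a s β n + 2 * (δ s / 8) := ht.2
      constructor <;> linarith [h1.1, h1.2]
    have h1 : y ∉ Icc p.1 p.2 := fun h2 => hm ⟨y, h2, hy⟩
    have h2 : Function.update y (tg s β) t ∉ Icc p.1 p.2 := fun h3 =>
      hm ⟨_, h3, PK_update (tg_ne s β) hy hw.1 hw.2⟩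
    exact iff_of_false h2 h1

theorem inv_rect (hF : ∀ x ∈ Ω, ∃ U ∈ 𝓝 x, {t | (F t ∩ U).Nonempty}.Finite) (S₀ : Set K.S)
    {t : τ} (ht : F t ⊆ Ω) {lo hi : V} (hlh : lo ≤ hi) (he : h.toFun '' F t = Icc lo hi) :
    H880.RP.Inv L.lev S₀ (h.toFun '' F t) := by
  have := L.inv_rect' hF S₀ (p := (lo, hi)) ⟨hlh, t, ht, he⟩
  rw [he]
  exact this

end plt3

/-! ### thinner flats, some of the squares -/

section thinner

variable {G : Geo B} {h : ConHomeo Ω Λ} {T : K.S → Bool → Finset (ℝ × ℝ)} {η : ℝ}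
  {τ : Type*} {F : τ → Set V} {C : Set ℝ} {ξ : Type*} {sa sb : ξ → V} {εE : ξ → ℝ}
  {μ δ : K.S → ℝ} (L : PLg G h T η F C sa sb εE μ δ)

/-- the box `X` has the levels of `L`, and perhaps thinner flats -/
structure IsBx (β : Bool) (s : K.S) (X : BX 3) : Prop where
  j : X.j = tg s β
  N : X.N = L.N s
  a : X.a = L.a s β
  al : X.al = K.slo s (tg s β) + G.a s
  be : X.be = K.shi s (tg s β) - G.a s
  c : X.c ≤ δ s / 8
  sub : X.K ⊆ PK G s

theorem isBx_thin (β : Bool) (s : K.S) {c : K.S → Bool → ℝ} {h0 : ∀ s β, 0 < c s β}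
    {h1 : ∀ s β, c s β ≤ L.lev.c s β} : L.IsBx β s ((H880.RP.thinL L.lev c h0 h1).bx β s) where
  j := rfl
  N := rfl
  a := rfl
  al := rfl
  be := rfl
  c := h1 s β
  sub := L.bx_sub s β

theorem IsBx.stp {β : Bool} {s : K.S} {X : BX 3} (hX : L.IsBx β s X) :
    stp X.N X.al X.be = L.om s β := by
  rw [hX.N, hX.al, hX.be]
  rfl

/-- **the displacement** of the staircase of the box `X` -/
theorem IsBx.disp {β : Bool} {s : K.S} {X : BX 3} (hX : L.IsBx β s X) {e : ℝ} (he : 0 < e)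
    (he8 : e ≤ δ s / 8) (t : ℝ) :
    |_root_.P073.H236.sm X.N X.a X.c X.al X.be X.al (_root_.P073.H236.stp X.N X.al X.be) e t - t|
      ≤ μ s := by
  have h0 := L.δ0 s
  have hμ := L.δμ s
  have h1 := L.num s β
  have h2 := L.Ns s β
  have h3 := L.om_ge s β
  have h3' := L.om_le_two s β
  have hc := hX.c
  have hc0 := X.lvs.c0
  have key : ∀ k : ℕ, k ≤ L.N s → (k:ℝ) * δ s ≤ k * L.om s β ∧
      k * L.om s β ≤ k * δ s + μ s / 2 := by
    intro k hk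
    have hk' : (k:ℝ) ≤ L.N s := by exact_mod_cast hk
    constructor
    · exact mul_le_mul_of_nonneg_left h3 (Nat.cast_nonneg _)
    · have h5 : (k:ℝ) * (L.om s β - δ s) ≤ L.N s * (L.om s β - δ s) :=
        mul_le_mul_of_nonneg_right hk' (by linarith)
      have h6 : (L.N s : ℝ) * (L.om s β - δ s) = wl G s β - L.N s * δ s := by
        rw [mul_sub, h2]
      linarith
  refine abs_sm_sub_self_le X.lvs (by linarith) (fun k hk => ?_) (fun k hk => ?_) t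
  · rw [hX.N] at hk
    have e1 := L.lt_a s β k
    have e2 := (L.cells s β).disp_nonneg k (hk.trans_le (L.N_le s β))
    have e3 := L.shift s β k hk
    have e4 := key k hk.le
    rw [hX.stp, hX.al, hX.a, abs_le]
    constructor <;> linarith [e1.1, e1.2, e4.1, e4.2]
  · rw [hX.N] at hk
    have e1 := L.lt_a s β k
    have e2 := (L.cells s β).disp_nonneg k (hk.trans_le (L.N_le s β))
    have e3 := L.shift s β k hk
    have e4 := key k hk.le
    rw [hX.stp, hX.al, hX.a, abs_le]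
    constructor <;> linarith [e1.1, e1.2, e4.1, e4.2]

/-- **the family of staircases of round P for `K3C`** -/
noncomputable def bfamX {S₀ : Set K.S} (β : Bool) (X : S₀ → BX 3) (hX : ∀ s : S₀, L.IsBx β s.1 (X s))
    (e : S₀ → ℝ) (he : ∀ s, 0 < e s) (he8 : ∀ s : S₀, e s ≤ δ s.1 / 8) : BFam 3 S₀ Λ where
  B := X
  e := e
  D := fun s => μ s.1
  he := he
  heo := fun s => by
    have h1 := L.om_ge s.1 β
    have h2 := he8 s
    have h3 := L.δ0 s.1
    rw [(hX s).stp]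
    linarith
  hD := fun s t => (hX s).disp L (he s) (he8 s) t
  sub := fun s => (hX s).sub.trans (PK_sub G s.1)
  lf := fun z hz => by
    obtain ⟨U, hU, hf⟩ := lf_PK G z hz
    refine ⟨U, hU, (hf.preimage Subtype.val_injective.injOn).subset ?_⟩
    rintro s ⟨x, hx, hxU⟩
    exact ⟨x, (hX s).sub hx, hxU⟩
  dis := fun s s' hne => Set.disjoint_left.2 fun y hy hy' =>
    hne (Subtype.ext (PK_unique ((hX s).sub (interior_subset hy)) ((hX s').sub hy')))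

theorem bfamX_om {S₀ : Set K.S} {β : Bool} {X : S₀ → BX 3} {hX : ∀ s : S₀, L.IsBx β s.1 (X s)}
    {e : S₀ → ℝ} {he : ∀ s, 0 < e s} {he8 : ∀ s : S₀, e s ≤ δ s.1 / 8} (s : S₀) :
    (L.bfamX β X hX e he he8).om s = L.om s.1 β := (hX s).stp

/-- the displacement at the levels -/
theorem disp_lev (s : K.S) (β : Bool) {n : ℕ} (hn : n < L.N s) :
    |K.slo s (tg s β) + G.a s + (n + 1 / 2) * L.om s β - L.a s β n| ≤ μ s := by
  have h0 := L.δ0 s
  have hμ := L.δμ s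
  have h1 := L.num s β
  have h2 := L.Ns s β
  have h3 := L.om_ge s β
  have h3' := L.om_le_two s β
  have e1 := L.lt_a s β n
  have e2 := (L.cells s β).disp_nonneg n (hn.trans_le (L.N_le s β))
  have e3 := L.shift s β n hn
  have hk' : (n:ℝ) ≤ L.N s := by exact_mod_cast hn.le
  have e4 : (n:ℝ) * δ s ≤ n * L.om s β := mul_le_mul_of_nonneg_left h3 (Nat.cast_nonneg _)
  have h5 : (n:ℝ) * (L.om s β - δ s) ≤ L.N s * (L.om s β - δ s) :=
    mul_le_mul_of_nonneg_right hk' (by linarith)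
  have h6 : (L.N s : ℝ) * (L.om s β - δ s) = wl G s β - L.N s * δ s := by
    rw [mul_sub, h2]
  have e5 : (n:ℝ) * L.om s β ≤ n * δ s + μ s / 2 := by linarith
  rw [abs_le]
  constructor <;> linarith [e1.1, e1.2]

end thinner

end PLg

/-! ### cuts -/

section cuts

variable {γ : Type*}

/-- the preimages of the boxes and of their boundaries -/
def boxFam (h : ConHomeo Ω Λ) (lo hi : γ → V) (g : γ × Bool) : Set V :=
  if g.2 then h.invFun '' Icc (lo g.1) (hi g.1) else h.invFun '' frontier (Icc (lo g.1) (hi g.1))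

theorem boxFam_cone (h : ConHomeo Ω Λ) {lo hi : γ → V} (hlt : ∀ c j, lo c j < hi c j)
    (hsub : ∀ c, Icc (lo c) (hi c) ⊆ Λ) (g : γ × Bool) (x : V) :
    LocConeAt (boxFam h lo hi g) x := by
  have hb : ConBall 3 (h.invFun '' Icc (lo g.1) (hi g.1))
      (h.invFun '' frontier (Icc (lo g.1) (hi g.1))) :=
    (conBall_Icc_pi three_ne_zero (hlt g.1)).image h.symm (hsub g.1)
  unfold boxFam
  split_ifs
  · exact hb.locCone x
  · exact hb.locCone_bdry x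

theorem boxFam_sub (h : ConHomeo Ω Λ) {lo hi : γ → V}
    (hsub : ∀ c, Icc (lo c) (hi c) ⊆ Λ) (g : γ × Bool) : boxFam h lo hi g ⊆ Ω := by
  have hfr : frontier (Icc (lo g.1) (hi g.1)) ⊆ Icc (lo g.1) (hi g.1) :=
    isClosed_Icc.frontier_subset
  unfold boxFam
  split_ifs
  · rintro _ ⟨y, hy, rfl⟩
    exact h.mapsTo_inv (hsub g.1 hy)
  · rintro _ ⟨y, hy, rfl⟩
    exact h.mapsTo_inv (hsub g.1 (hfr hy))

theorem boxFam_lf (hΩ : IsOpen Ω) (h : ConHomeo Ω Λ) {lo hi : γ → V}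
    (hsub : ∀ c, Icc (lo c) (hi c) ⊆ Λ)
    (lf : ∀ y ∈ Λ, ∃ O ∈ 𝓝 y, {c | (Icc (lo c) (hi c) ∩ O).Nonempty}.Finite) :
    ∀ x ∈ Ω, ∃ O ∈ 𝓝 x, {g | (boxFam h lo hi g ∩ O).Nonempty}.Finite := by
  intro x hx
  obtain ⟨O, hO, hf⟩ := lf _ (h.mapsTo hx)
  have h1 : ContinuousAt h.toFun x := h.cont.continuousAt (hΩ.mem_nhds hx)
  refine ⟨h.toFun ⁻¹' O, h1 hO, (hf.prod (finite_univ : (univ : Set Bool).Finite)).subset ?_⟩
  rintro ⟨c, b⟩ ⟨y, hy, hyO⟩
  refine ⟨?_, mem_univ _⟩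
  have hfr : frontier (Icc (lo c) (hi c)) ⊆ Icc (lo c) (hi c) := isClosed_Icc.frontier_subset
  have h2 : y ∈ h.invFun '' Icc (lo c) (hi c) := by
    cases b
    · exact image_mono hfr hy
    · exact hy
  obtain ⟨z, hz, rfl⟩ := h2
  exact ⟨z, hz, by have := hyO; rwa [mem_preimage, h.right_inv (hsub c hz)] at this⟩

end cuts

/-! ### unions of families -/

section union

variable {τ₁ τ₂ : Type*} {F₁ : τ₁ → Set V} {F₂ : τ₂ → Set V}

theorem sumFam_cone (h1 : ∀ t, ∀ x ∈ Ω, LocConeAt (F₁ t) x)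
    (h2 : ∀ t, ∀ x ∈ Ω, LocConeAt (F₂ t) x) : ∀ t, ∀ x ∈ Ω, LocConeAt (Sum.elim F₁ F₂ t) x := by
  rintro (t | t)
  · exact h1 t
  · exact h2 t

theorem sumFam_lf (h1 : ∀ x ∈ Ω, ∃ U ∈ 𝓝 x, {t | (F₁ t ∩ U).Nonempty}.Finite)
    (h2 : ∀ x ∈ Ω, ∃ U ∈ 𝓝 x, {t | (F₂ t ∩ U).Nonempty}.Finite) :
    ∀ x ∈ Ω, ∃ U ∈ 𝓝 x, {t | (Sum.elim F₁ F₂ t ∩ U).Nonempty}.Finite := by
  intro x hx
  obtain ⟨O, hO, h1⟩ := h1 x hx
  obtain ⟨U, hU, h2⟩ := h2 x hx
  refine ⟨O ∩ U, inter_mem hO hU, ((h1.image Sum.inl).union (h2.image Sum.inr)).subset ?_⟩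
  rintro (g | t) ⟨y, hy, hyO⟩
  · exact Or.inl ⟨g, ⟨y, hy, hyO.1⟩, rfl⟩
  · exact Or.inr ⟨t, ⟨y, hy, hyO.2⟩, rfl⟩

end union

end Vale.Agent.P073.H669
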