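import Vale.Agent.P073.H669.PLevH
import Vale.Agent.P073.H687.PL4C

/-!
# P073, H669: **[P-LEV4]**, part 2b: `PLevH` for the levels `PLw` with compensation windows

Slivers of round T, coordinate rectangles, thin boxes.  `PLw.IsBx.disp`: the displacement is at most
`μ + Bg`; `PLw.IsBx.disp_out`: off the windows it is at most `μ`.
-/

open Set Metric Topology Filter
open scoped ENNReal

namespace Vale.Agent.P073.H687

open _root_.P073 _root_.P073.TR _root_.P073.Net _root_.P073.PA691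
open _root_.P073.PR720 (LF)
open Vale.Agent.P073.St (V)
open Vale.Agent.P073.H471 (Rad Wid Boxes Near lf_ss ss_subset)
open Vale.Agent.P073.H267
open Vale.Agent.P073.H73 (Mesh)
open Vale.Agent.P073.H193 (Edges)
open _root_.P073.H345 (tg tg_ne tg_ne_not tg_cases bt bt_tg tg_bt PK PB_sub_PK PK_sub_ss PK_unique
  PLev)
open _root_.P073.H236 (BX Lvs NoSl BFam Tgt stp abs_sm_sub_self_le abs_sm_sub_le sm_out sm_flat
  sm_strictMono)
open _root_.P073.H196 (MvInv mvInv_icc)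
open Vale.Agent.P073.H669

variable {Ω Λ : Set V} {v : V} {K : BoxCx Λ v} {S : Rad K} {W : Wid K S} {B : Boxes W}

namespace PLw

section plt3

variable {G : Geo B} {h : ConHomeo Ω Λ} {sl : TBx K → Finset (ℝ × ℝ)} {η r : ℝ}
  {τ : Type*} {F : τ → Set V} {C : Set ℝ} {ξ : Type*} {sa sb : ξ → V} {εE : ξ → ℝ}
  {Wn : K.S → Bool → Set ℝ} {Jn : K.S → Bool → Finset (ℝ × ℝ)} {μ Bg δ : K.S → ℝ}
  (L : PLw G h (plT3 G h F sl) η r F C sa sb εE Wn Jn μ Bg δ)

/-- **(BAND)**: the cells avoid the closed slivers -/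
theorem band3 {s : K.S} {β : Bool} {n : ℕ} (hn : n < L.lev.N s β) {b : TBx K}
    (hb : Rel s (tg s β) b) {p : ℝ × ℝ} (hp : p ∈ sl b) :
    p.2 < L.lev.a s β n - 2 * L.lev.c s β ∨ L.lev.a s β n + 2 * L.lev.c s β < p.1 := by
  classical
  exact L.bandT' s β hn (Finset.mem_union.2 (Or.inl (mem_plT.2 ⟨b, hb, hp⟩)))

theorem subT {s : K.S} {β : Bool} {b : TBx K} (hb : Rel s (tg s β) b) :
    sl b ⊆ plT3 G h F sl s β := by
  classical
  exact fun p hp => Finset.mem_union.2 (Or.inl (mem_plT.2 ⟨b, hb, hp⟩))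

/-- 155's (BAND) -/
theorem bandP3 : _root_.P073.H155.BandP L.lev sl := fun _ _ _ hn _ hb _ hp =>
  L.band3 hn (rel_iff_T.1 hb) hp

/-- 345's (BAND) -/
theorem band345' : _root_.P073.H345.Band L.lev sl := fun _ _ _ hn _ hb _ hr =>
  L.band (subT (rel_iff_345.1 hb)) hn hr

/-- 805's hypothesis on the slivers -/
theorem hnsB' : ∀ s l, l ≠ K.nrm s → ∀ t ∈ L.lev.lv s l, ∀ b : TBx K,
    Vale.Agent.P073.H805.RelB s l b → NoSl (sl b) t := by
  intro s l hl t ht b hb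
  obtain ⟨β, rfl⟩ : ∃ β, l = tg s β := ⟨bt s l, (tg_bt s hl).symm⟩
  exact L.hns (subT (rel_iff_B.1 hb)) ht

/-- the cells avoid the coordinates of the rectangles -/
theorem rect3' (hF : ∀ x ∈ Ω, ∃ U ∈ 𝓝 x, {t | (F t ∩ U).Nonempty}.Finite) {s : K.S} {β : Bool}
    {n : ℕ} (hn : n < L.lev.N s β) {p : V × V} (hp : p ∈ relR G h F s) :
    (p.1 (tg s β) ∉ Icc (L.lev.a s β n - 2 * L.lev.c s β) (L.lev.a s β n + 2 * L.lev.c s β)) ∧
    (p.2 (tg s β) ∉ Icc (L.lev.a s β n - 2 * L.lev.c s β) (L.lev.a s β n + 2 * L.lev.c s β)) := by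
  classical
  obtain ⟨h1, h2⟩ := mem_rectT (h := h) hF (G := G) (s := s) β hp
  have key : ∀ r : ℝ, (r, r) ∈ plT3 G h F sl s β →
      r ∉ Icc (L.lev.a s β n - 2 * L.lev.c s β) (L.lev.a s β n + 2 * L.lev.c s β) := by
    intro r hr hmem
    rcases L.bandT' s β hn hr with h3 | h3
    · exact absurd hmem.1 (not_le.2 h3)
    · exact absurd hmem.2 (not_le.2 h3)
  exact ⟨key _ (Finset.mem_union.2 (Or.inr h1)), key _ (Finset.mem_union.2 (Or.inr h2))⟩

theorem rect3 (hF : ∀ x ∈ Ω, ∃ U ∈ 𝓝 x, {t | (F t ∩ U).Nonempty}.Finite) {s : K.S} {β : Bool}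
    {n : ℕ} (hn : n < L.lev.N s β) {p : V × V} (hp : p ∈ rects h F)
    (hm : (Icc p.1 p.2 ∩ PK G s).Nonempty) :
    (p.1 (tg s β) ∉ Icc (L.lev.a s β n - 2 * L.lev.c s β) (L.lev.a s β n + 2 * L.lev.c s β)) ∧
    (p.2 (tg s β) ∉ Icc (L.lev.a s β n - 2 * L.lev.c s β) (L.lev.a s β n + 2 * L.lev.c s β)) :=
  L.rect3' hF hn ⟨hp, p, hp, hm, Subset.rfl⟩

/-- **805's `PAvoid`**: the cells avoid the coordinates of the vertices of the protected cells -/
theorem pavoid (hF : ∀ x ∈ Ω, ∃ U ∈ 𝓝 x, {t | (F t ∩ U).Nonempty}.Finite) {M : Mesh Ω}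
    (E : Edges M) (D : H880.RP.Dat K M) (hQ : ∀ i ∈ D.Pr, ∃ t, F t = M.Q i)
    (hv : ∀ x ∈ E.verts, ∃ t, F t = {x})
    (hr : Vale.Agent.P073.H805.PRect G E D h) :
    Vale.Agent.P073.H805.PAvoid L.lev E D h := by
  intro s hs i hi hm x hx hxi β n hn
  obtain ⟨t, ht⟩ := hQ i hi
  obtain ⟨t', ht'⟩ := hv x hx
  obtain ⟨lo, hi', he, -⟩ := hr.cell s hs i hi hm
  have hlh : lo ≤ hi' := by
    have h1 : h.toFun x ∈ Icc lo hi' := by rw [← he]; exact ⟨x, hxi, rfl⟩
    exact h1.1.trans h1.2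
  have h1 : ((lo, hi') : V × V) ∈ rects h F := ⟨hlh, t, by rw [ht]; exact M.sub i, by rw [ht]; exact he⟩
  have h2 : ((h.toFun x, h.toFun x) : V × V) ∈ rects h F :=
    ⟨le_rfl, t', by rw [ht']; exact singleton_subset_iff.2 (M.sub i hxi), by
      rw [ht', image_singleton, Icc_self]⟩
  have h3 : ((h.toFun x, h.toFun x) : V × V) ∈ relR G h F s := by
    refine ⟨h2, (lo, hi'), h1, by rw [he] at hm; exact hm, ?_⟩
    show Icc (h.toFun x) (h.toFun x) ⊆ Icc lo hi'
    rw [Icc_self, singleton_subset_iff, ← he]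
    exact ⟨x, hxi, rfl⟩
  have h4 := (L.rect3' hF hn h3).1
  by_contra hcon
  push Not at hcon
  obtain ⟨a1, a2⟩ := abs_le.1 hcon
  exact h4 ⟨by linarith, by linarith⟩

/-- **the rectangles are invariant** -/
theorem inv_rect' (hF : ∀ x ∈ Ω, ∃ U ∈ 𝓝 x, {t | (F t ∩ U).Nonempty}.Finite) (S₀ : Set K.S)
    {p : V × V} (hp : p ∈ rects h F) : H880.RP.Inv L.lev S₀ (Icc p.1 p.2) := by
  intro s _ β n hn
  by_cases hm : (Icc p.1 p.2 ∩ PK G s).Nonempty
  · obtain ⟨h1, h2⟩ := L.rect3 hF hn hp hm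
    exact mvInv_icc ordConnected_Icc h1 h2 _
  · intro y hy hyj t ht
    have hw : K.slo s (tg s β) + G.a s ≤ t ∧ t ≤ K.shi s (tg s β) - G.a s := by
      have h2 := (L.lv s β).ge n hn
      have h3 := (L.lv s β).le n hn
      have h4 : L.a s β n - 2 * (δ s / 8) ≤ t := ht.1
      have h5 : t ≤ L.a s β n + 2 * (δ s / 8) := ht.2
      constructor <;> linarith
    have h1 : y ∉ Icc p.1 p.2 := fun h2 => hm ⟨y, h2, hy⟩
    have h2 : Function.update y (tg s β) t ∉ Icc p.1 p.2 := fun h3 =>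
      hm ⟨_, h3, PK_update (tg_ne s β) hy hw.1 hw.2⟩
    exact iff_of_false h2 h1

theorem inv_rect (hF : ∀ x ∈ Ω, ∃ U ∈ 𝓝 x, {t | (F t ∩ U).Nonempty}.Finite) (S₀ : Set K.S)
    {t : τ} (ht : F t ⊆ Ω) {lo hi : V} (hlh : lo ≤ hi) (he : h.toFun '' F t = Icc lo hi) :
    H880.RP.Inv L.lev S₀ (h.toFun '' F t) := by
  have := L.inv_rect' hF S₀ (p := (lo, hi)) ⟨hlh, t, ht, he⟩
  rw [he]
  exact this

end plt3

/-! ### thinner flats, some of the squares -/

section thinner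

variable {G : Geo B} {h : ConHomeo Ω Λ} {T : K.S → Bool → Finset (ℝ × ℝ)} {η r : ℝ}
  {τ : Type*} {F : τ → Set V} {C : Set ℝ} {ξ : Type*} {sa sb : ξ → V} {εE : ξ → ℝ}
  {Wn : K.S → Bool → Set ℝ} {Jn : K.S → Bool → Finset (ℝ × ℝ)} {μ Bg δ : K.S → ℝ}
  (L : PLw G h T η r F C sa sb εE Wn Jn μ Bg δ)

/-- the box `X` has the levels of `L`, and perhaps thinner flats -/
structure IsBx (β : Bool) (s : K.S) (X : BX 3) : Prop where
  j : X.j = tg s β
  N : X.N = L.N s
  a : X.a = L.a s β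
  al : X.al = K.slo s (tg s β) + G.a s
  be : X.be = K.shi s (tg s β) - G.a s
  c : X.c ≤ δ s / 8
  sub : X.K ⊆ PK G s

theorem isBx_thin (β : Bool) (s : K.S) {c : K.S → Bool → ℝ} {h0 : ∀ s β, 0 < c s β}
    {h1 : ∀ s β, c s β ≤ L.lev.c s β} : L.IsBx β s ((H880.RP.thinL L.lev c h0 h1).bx β s) where
  j := rfl
  N := rfl
  a := rfl
  al := rfl
  be := rfl
  c := h1 s β
  sub := L.bx_sub s β

theorem IsBx.stp {β : Bool} {s : K.S} {X : BX 3} (hX : L.IsBx β s X) :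
    stp X.N X.al X.be = L.om s β := by
  rw [hX.N, hX.al, hX.be]
  rfl

theorem IsBx.tgt {β : Bool} {s : K.S} {X : BX 3} (hX : L.IsBx β s X) {e : ℝ} (he : 0 < e)
    (he8 : e ≤ δ s / 8) : Tgt X.N X.al X.be X.al (_root_.P073.H236.stp X.N X.al X.be) e := by
  refine Tgt.full X.lvs.pos he ?_
  have h0 := L.δ0 s
  have h3 := L.om_ge s β
  rw [hX.stp]
  linarith

/-- positions of the targets -/
theorem key_om (s : K.S) (β : Bool) {k : ℕ} (hk : k ≤ L.N s) : (k:ℝ) * δ s ≤ k * L.om s β ∧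
    k * L.om s β ≤ k * δ s + μ s / 4 := by
  have h1 := L.num s β
  have h2 := L.Ns s β
  have h3 := L.om_ge s β
  have hk' : (k:ℝ) ≤ L.N s := by exact_mod_cast hk
  constructor
  · exact mul_le_mul_of_nonneg_left h3 (Nat.cast_nonneg _)
  · have h5 : (k:ℝ) * (L.om s β - δ s) ≤ L.N s * (L.om s β - δ s) :=
      mul_le_mul_of_nonneg_right hk' (by linarith)
    have h6 : (L.N s : ℝ) * (L.om s β - δ s) = wl G s β - L.N s * δ s := by
      rw [mul_sub, h2]
    linarith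

/-- **the displacement** of the staircase of the box `X` -/
theorem IsBx.disp {β : Bool} {s : K.S} {X : BX 3} (hX : L.IsBx β s X) {e : ℝ} (he : 0 < e)
    (he8 : e ≤ δ s / 8) (t : ℝ) :
    |_root_.P073.H236.sm X.N X.a X.c X.al X.be X.al (_root_.P073.H236.stp X.N X.al X.be) e t - t|
      ≤ μ s + Bg s := by
  have h0 := L.δ0 s
  have hB := L.Bg0 s
  have hμ := L.δμ s
  have h3 := L.om_ge s β
  have h3' := L.om_le_two s β
  have hc := hX.c
  have hc0 := X.lvs.c0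
  refine abs_sm_sub_self_le X.lvs (by linarith) (fun k hk => ?_) (fun k hk => ?_) t
  · rw [hX.N] at hk
    obtain ⟨e1, e2⟩ := abs_le.1 ((L.lv s β).disp k hk)
    have e4 := L.key_om s β hk.le
    rw [hX.stp, hX.al, hX.a, abs_le]
    constructor <;> linarith [e4.1, e4.2]
  · rw [hX.N] at hk
    obtain ⟨e1, e2⟩ := abs_le.1 ((L.lv s β).disp k hk)
    have e4 := L.key_om s β hk.le
    rw [hX.stp, hX.al, hX.a, abs_le]
    constructor <;> linarith [e4.1, e4.2]

/-- **the displacement away from the windows** -/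
theorem IsBx.disp_out {β : Bool} {s : K.S} {X : BX 3} (hX : L.IsBx β s X) {e : ℝ} (he : 0 < e)
    (he8 : e ≤ δ s / 8) {t : ℝ} (ht : t ∉ Wn s β) :
    |_root_.P073.H236.sm X.N X.a X.c X.al X.be X.al (_root_.P073.H236.stp X.N X.al X.be) e t - t|
      ≤ μ s := by
  have h0 := L.δ0 s
  have hμ := L.δμ s
  have h3 := L.om_ge s β
  have h3' := L.om_le_two s β
  have hT := hX.tgt L he he8
  have hmono := (sm_strictMono X.lvs hT).monotone
  rcases le_or_gt t X.al with h4 | h4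
  · rw [sm_out X.lvs (Or.inl h4), sub_self, abs_zero]; linarith
  rcases le_or_gt X.be t with h5 | h5
  · rw [sm_out X.lvs (Or.inr h5), sub_self, abs_zero]; linarith
  have h4' := h4
  have h5' := h5
  rw [hX.al] at h4'
  rw [hX.be] at h5'
  obtain ⟨k, hk, hk1, hk2, hk3⟩ := (L.lv s β).cnt t h4'.le h5'.le ht
  have e4 := L.key_om s β hk
  obtain ⟨e5, e6⟩ := abs_le.1 hk3
  have hflat : ∀ i < L.N s, _root_.P073.H236.sm X.N X.a X.c X.al X.be X.al
      (_root_.P073.H236.stp X.N X.al X.be) e (L.a s β i) = X.al + (i + 1 / 2) * L.om s β := by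
    intro i hi
    have hi' : i < X.N := by rw [hX.N]; exact hi
    have h6 := sm_flat (t₀ := X.al) (om := _root_.P073.H236.stp X.N X.al X.be) (e := e) X.lvs hi'
      (t := X.a i) (by rw [sub_self, abs_zero]; exact X.lvs.c0.le)
    have h7 : X.a i = L.a s β i := by rw [hX.a]
    rw [h7] at h6
    rw [h6, hX.stp]
    have := X.lvs.c0
    field_simp
    ring
  have hlow : X.al + ((k:ℝ) - 1) * L.om s β ≤ _root_.P073.H236.sm X.N X.a X.c X.al X.be X.al
      (_root_.P073.H236.stp X.N X.al X.be) e t := by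
    rcases Nat.eq_zero_or_pos k with hk0 | hk0
    · have h6 := hmono h4.le
      rw [sm_out X.lvs (Or.inl le_rfl)] at h6
      rw [hk0]
      push_cast
      linarith
    · obtain ⟨i, rfl⟩ : ∃ i, k = i + 1 := ⟨k - 1, by omega⟩
      have h6 := hmono (hk1 i (by omega))
      rw [hflat i (by omega)] at h6
      push_cast
      linarith
  have hupp : _root_.P073.H236.sm X.N X.a X.c X.al X.be X.al
      (_root_.P073.H236.stp X.N X.al X.be) e t ≤ X.al + ((k:ℝ) + 1) * L.om s β := by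
    rcases Nat.lt_or_ge k (L.N s) with hkN | hkN
    · have h6 := hmono (hk2 k hkN le_rfl).le
      rw [hflat k hkN] at h6
      linarith
    · have hkN' : k = L.N s := le_antisymm hk hkN
      have h6 := hmono h5.le
      rw [sm_out X.lvs (Or.inr le_rfl)] at h6
      have h7 := L.Ns s β
      have h8 : X.be = X.al + L.N s * L.om s β := by
        rw [h7, hX.al, hX.be]; unfold wl; ring
      rw [hkN']
      linarith
  rw [hX.al] at hlow hupp
  have h9 := hX.al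
  rw [h9, abs_le]
  constructor <;> linarith [e4.1, e4.2]

/-- **the family of staircases of round P for `K3C`** -/
noncomputable def bfamX {S₀ : Set K.S} (β : Bool) (X : S₀ → BX 3) (hX : ∀ s : S₀, L.IsBx β s.1 (X s))
    (e : S₀ → ℝ) (he : ∀ s, 0 < e s) (he8 : ∀ s : S₀, e s ≤ δ s.1 / 8) : BFam 3 S₀ Λ where
  B := X
  e := e
  D := fun s => μ s.1 + Bg s.1
  he := he
  heo := fun s => by
    have h1 := L.om_ge s.1 β
    have h2 := he8 s
    have h3 := L.δ0 s.1
    rw [(hX s).stp]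
    linarith
  hD := fun s t => (hX s).disp L (he s) (he8 s) t
  sub := fun s => (hX s).sub.trans (PK_sub G s.1)
  lf := fun z hz => by
    obtain ⟨U, hU, hf⟩ := lf_PK G z hz
    refine ⟨U, hU, (hf.preimage Subtype.val_injective.injOn).subset ?_⟩
    rintro s ⟨x, hx, hxU⟩
    exact ⟨x, (hX s).sub hx, hxU⟩
  dis := fun s s' hne => Set.disjoint_left.2 fun y hy hy' =>
    hne (Subtype.ext (PK_unique ((hX s).sub (interior_subset hy)) ((hX s').sub hy')))

theorem bfamX_om {S₀ : Set K.S} {β : Bool} {X : S₀ → BX 3} {hX : ∀ s : S₀, L.IsBx β s.1 (X s)}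
    {e : S₀ → ℝ} {he : ∀ s, 0 < e s} {he8 : ∀ s : S₀, e s ≤ δ s.1 / 8} (s : S₀) :
    (L.bfamX β X hX e he he8).om s = L.om s.1 β := (hX s).stp

/-- the displacement off the windows -/
theorem bfamX_out {S₀ : Set K.S} {β : Bool} {X : S₀ → BX 3} {hX : ∀ s : S₀, L.IsBx β s.1 (X s)}
    {e : S₀ → ℝ} {he : ∀ s, 0 < e s} {he8 : ∀ s : S₀, e s ≤ δ s.1 / 8} (s : S₀) {t : ℝ}
    (ht : t ∉ Wn s.1 β) : |(L.bfamX β X hX e he he8).σ s t - t| ≤ μ s.1 :=
  (hX s).disp_out L (he s) (he8 s) ht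

/-- the displacement, everywhere -/
theorem bfamX_all {S₀ : Set K.S} {β : Bool} {X : S₀ → BX 3} {hX : ∀ s : S₀, L.IsBx β s.1 (X s)}
    {e : S₀ → ℝ} {he : ∀ s, 0 < e s} {he8 : ∀ s : S₀, e s ≤ δ s.1 / 8} (s : S₀) (t : ℝ) :
    |(L.bfamX β X hX e he he8).σ s t - t| ≤ μ s.1 + Bg s.1 :=
  (hX s).disp L (he s) (he8 s) t

/-- the displacement at the levels -/
theorem disp_lev (s : K.S) (β : Bool) {n : ℕ} (hn : n < L.N s) :
    |K.slo s (tg s β) + G.a s + (n + 1 / 2) * L.om s β - L.a s β n| ≤ μ s + Bg s := by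
  have h0 := L.δ0 s
  have hμ := L.δμ s
  have h3 := L.om_ge s β
  have h3' := L.om_le_two s β
  obtain ⟨e1, e2⟩ := abs_le.1 ((L.lv s β).disp n hn)
  have e4 := L.key_om s β hn.le
  rw [abs_le]
  constructor <;> linarith [e4.1, e4.2]

/-- the displacement at the levels, away from the windows -/
theorem disp_lev_out (s : K.S) (β : Bool) {n : ℕ} (hn : n < L.N s) (hW : L.a s β n ∉ Wn s β) :
    |K.slo s (tg s β) + G.a s + (n + 1 / 2) * L.om s β - L.a s β n| ≤ μ s := by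
  have h0 := L.δ0 s
  have hμ := L.δμ s
  have h3 := L.om_ge s β
  have h3' := L.om_le_two s β
  have hlo := (L.lv s β).ge n hn
  have hhi := (L.lv s β).le n hn
  obtain ⟨k, hk, hk1, hk2, hk3⟩ := (L.lv s β).cnt (L.a s β n) (by linarith) (by linarith) hW
  have hkn : k = n + 1 := by
    refine le_antisymm ?_ ?_
    · by_contra hcon
      push Not at hcon
      have h5 := hk1 (n + 1) (by omega)
      have h6 := (L.lv s β).gap n (by omega)
      linarith
    · by_contra hcon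
      push Not at hcon
      exact absurd (hk2 n hn (by omega)) (lt_irrefl _)
  obtain ⟨e5, e6⟩ := abs_le.1 hk3
  have e4 := L.key_om s β hn.le
  rw [hkn] at e5 e6
  push_cast at e5 e6
  rw [abs_le]
  constructor <;> linarith [e4.1, e4.2]

end thinner

end PLw

end Vale.Agent.P073.H687
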