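import Vale.Agent.P073.H244.PWe2
import Vale.Agent.P073.H581.T5d
import Vale.Agent.P073.H239.Sharp

/-!
# P073, H669: **[CNT-P]** the number of crossing points of an edge in a plate, sharp

`cnt_side`: the steps times the number of crossing points of `h2` with all levels of the plate are at
most `(1 + c)` times the variation of the tangential coordinates of `h` on the edge.
-/

open Set Metric Topology Filter
open scoped ENNReal

namespace Vale.Agent.P073.H669.PLv

open _root_.P073 _root_.P073.Net _root_.P073.PA691 _root_.P073.H236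
open _root_.P073.H579 (EAct AkP CrsPt omX laE)
open _root_.P073.H345 (tg tg_ne tg_ne_not tg_cases PK PB_sub_PK PLev)
open _root_.P073.Croft (Crs levs onS cross varIn)
open Vale.Agent.P073.St (V)
open Vale.Agent.P073.H471 Vale.Agent.P073.H267
open Vale.Agent.P073.H805 (ROut)
open Vale.Agent.P073.H73 (Mesh onSeg)
open Vale.Agent.P073.H193 (Edges)

variable {Ω Λ : Set V} {v : V} {K : BoxCx Λ v} {S : Rad K} {W : Wid K S} {B : Boxes W}
  {G : Geo B} {M : Mesh Ω} {E : Edges M} {h h1 h2 : ConHomeo Ω Λ} {Pr : Set M.ι} {Act : Set M.κ}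
  {sl : TBx K → Finset (ℝ × ℝ)} {η : ℝ} {τ : Type*} {A : τ → Set V} {C : Set ℝ}
  {εE : E.ε → ℝ} {μ δ : K.S → ℝ}

/-- the numbers: `(1 + c / 4) (1 - 2 (c / 16))⁻¹ ≤ 1 + c` -/
theorem num_le {c η r : ℝ} (hc0 : 0 ≤ c) (hc1 : c ≤ 1) (hr0 : 0 ≤ r) (hr : r ≤ c / 4)
    (hη0 : 0 ≤ η) (hη : η ≤ c / 16) : (1 + r) * (1 - 2 * η)⁻¹ ≤ 1 + c := by
  have h1 : 0 < 1 - 2 * η := by linarith
  rw [← div_eq_mul_inv, div_le_iff₀ h1]
  nlinarith [mul_nonneg hc0 hη0, mul_le_mul_of_nonneg_left hη hc0]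

/-- the tangential directions -/
theorem erase_eq (s : K.S) : (Finset.univ.erase (K.nrm s) : Finset (Fin 3)) =
    {tg s true, tg s false} := by
  ext j
  rw [Finset.mem_erase, Finset.mem_insert, Finset.mem_singleton]
  constructor
  · rintro ⟨h, -⟩
    exact tg_cases s true h
  · rintro (h | h) <;> rw [h]
    · exact ⟨tg_ne s true, Finset.mem_univ _⟩
    · exact ⟨tg_ne s false, Finset.mem_univ _⟩

theorem tv_eq (g : V → V) (e : V × V) (s : K.S) :
    H239.tv g e (Finset.univ.erase (K.nrm s)) =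
      eVariationOn (fun t => onSeg g e t (tg s true)) (Icc 0 1) +
        eVariationOn (fun t => onSeg g e t (tg s false)) (Icc 0 1) := by
  unfold H239.tv
  rw [erase_eq, Finset.sum_pair (show tg s true ≠ tg s false from tg_ne_not s true)]

theorem tv_congr {g g' : V → V} {e : V × V} (hg : EqOn g g' (segment ℝ e.1 e.2))
    (A : Finset (Fin 3)) : H239.tv g e A = H239.tv g' e A := by
  unfold H239.tv
  refine Finset.sum_congr rfl fun j _ => ?_
  refine eVariationOn.congr fun t ht => ?_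
  have h1 : e.1 + t • (e.2 - e.1) ∈ segment ℝ e.1 e.2 := Croft.onS_mem ht
  show g (e.1 + t • (e.2 - e.1)) j = g' (e.1 + t • (e.2 - e.1)) j
  rw [hg h1]

variable (L : PLv G E h1 Pr sl η A C εE μ δ)

/-- **[CNT-P]**, in terms of `h1` -/
theorem cnt_side1 (O : ROut G M h1 h2 Pr Act L.lev.lv E) {s : K.S} {e : E.ε}
    (he : EAct E (AkP G M h1 Act) s e) {c : ℝ} (hc0 : 0 ≤ c) (hc1 : c ≤ 1)
    (hη : η ≤ c / 16) (hμ : ∀ β, μ s ≤ c / 4 * wl G s β) (β : Bool) :
    {x | x ∈ E.seg e ∧ ∃ l, h2.toFun x l ∈ L.lev.lv s l}.Finite ∧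
    ENNReal.ofReal (L.om s β) *
        (({x | x ∈ E.seg e ∧ ∃ l, h2.toFun x l ∈ L.lev.lv s l}.ncard : ℕ) : ℝ≥0∞) ≤
      ENNReal.ofReal (1 + c) * H239.tv h1.toFun (E.a e, E.b e) (Finset.univ.erase (K.nrm s)) +
        ENNReal.ofReal (4 * εE e) := by
  classical
  obtain ⟨k, hk, hek⟩ := id he
  obtain ⟨hA, x₀, hx₀, hs₀⟩ := hk
  obtain ⟨-, hf2, -⟩ := O.edge k hA s x₀ hx₀ hs₀ e hek
  rw [L.lev.lvs_lv s] at hf2
  refine ⟨hf2, ?_⟩
  have hcard := L.lev.encard_crs (P := fun q => PK G q.1) O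
    (fun s _ => PB_sub_PK (by norm_num) s) he hf2.toFinset (fun x hx => by
      have := hf2.mem_toFinset.1 hx
      exact ⟨this.1, this.2⟩)
  rw [hf2.coe_toFinset] at hcard
  have hcnt : (({x | x ∈ E.seg e ∧ ∃ l, h2.toFun x l ∈ L.lev.lv s l}.ncard : ℕ) : ℝ≥0∞) ≤
      cnt (L.lev.crP E h1 (fun q => PK G q.1) e (s, true)) +
        cnt (L.lev.crP E h1 (fun q => PK G q.1) e (s, false)) := by
    rw [← hf2.cast_ncard_eq] at hcard
    unfold cnt
    exact_mod_cast hcard
  have hr0 : 0 ≤ c / 4 := by linarith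
  have hr1 : c / 4 ≤ 1 := by linarith
  have hq : ConicalOn (onS h1.toFun (E.a e) (E.b e)) (Icc 0 1) :=
    Croft.conicalOn_onS h1.conical (E.seg_sub_Ω e)
  have hnum := num_le hc0 hc1 hr0 le_rfl L.η0.le hη
  -- one direction
  have hone : ∀ β', ENNReal.ofReal (L.om s β) *
      cnt (L.lev.crP E h1 (fun q => PK G q.1) e (s, β')) ≤
      ENNReal.ofReal (1 + c) *
        eVariationOn (fun t => onSeg h1.toFun (E.a e, E.b e) t (tg s β')) (Icc 0 1) +
      ENNReal.ofReal (2 * εE e) := by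
    intro β'
    have h3 := L.wtP_le e s β' hr0 hr1 (hμ β')
    have h4 : varIn (onS h1.toFun (E.a e) (E.b e)) (tg s β') (PK G s) 0 1 ≤
        eVariationOn (fun t => onSeg h1.toFun (E.a e, E.b e) t (tg s β')) (Icc 0 1) :=
      H581.varIn_le_evar zero_le_one hq (tg s β') (PK_convex G s)
    rw [L.om_eq s β β']
    refine (show _ ≤ _ from h3).trans ?_
    rw [mul_add, ← mul_assoc, ← ENNReal.ofReal_mul (by linarith), ← ENNReal.ofReal_mul (by linarith)]
    refine add_le_add (mul_le_mul' (ENNReal.ofReal_le_ofReal hnum) h4) ?_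
    rcases le_total 0 (εE e) with h5 | h5
    · exact ENNReal.ofReal_le_ofReal (by nlinarith)
    · rw [ENNReal.ofReal_of_nonpos (by nlinarith)]
      exact bot_le
  calc ENNReal.ofReal (L.om s β) * (({x | x ∈ E.seg e ∧ ∃ l, h2.toFun x l ∈ L.lev.lv s l}.ncard : ℕ) : ℝ≥0∞)
      ≤ ENNReal.ofReal (L.om s β) * (cnt (L.lev.crP E h1 (fun q => PK G q.1) e (s, true)) +
          cnt (L.lev.crP E h1 (fun q => PK G q.1) e (s, false))) := mul_le_mul_right hcnt _
    _ = ENNReal.ofReal (L.om s β) * cnt (L.lev.crP E h1 (fun q => PK G q.1) e (s, true)) +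
          ENNReal.ofReal (L.om s β) * cnt (L.lev.crP E h1 (fun q => PK G q.1) e (s, false)) :=
        mul_add _ _ _
    _ ≤ _ := add_le_add (hone true) (hone false)
    _ = ENNReal.ofReal (1 + c) *
          H239.tv h1.toFun (E.a e, E.b e) (Finset.univ.erase (K.nrm s)) +
          (ENNReal.ofReal (2 * εE e) + ENNReal.ofReal (2 * εE e)) := by
        rw [tv_eq, mul_add]
        exact add_add_add_comm _ _ _ _
    _ ≤ _ := by
        gcongr
        rcases le_total 0 (εE e) with h5 | h5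
        · rw [← ENNReal.ofReal_add (by linarith) (by linarith)]
          exact ENNReal.ofReal_le_ofReal (by linarith)
        · rw [ENNReal.ofReal_of_nonpos (by linarith), add_zero]
          exact bot_le

/-- **[CNT-P]**: the edge misses the boxes of round T, `h1 = h` on it -/
theorem cnt_side (O : ROut G M h1 h2 Pr Act L.lev.lv E) {s : K.S} {e : E.ε}
    (he : EAct E (AkP G M h1 Act) s e) (hoff : EqOn h1.toFun h.toFun (E.seg e))
    {c : ℝ} (hc0 : 0 ≤ c) (hc1 : c ≤ 1)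
    (hη : η ≤ c / 16) (hμ : ∀ β, μ s ≤ c / 4 * wl G s β) (β : Bool) :
    {x | x ∈ E.seg e ∧ ∃ l, h2.toFun x l ∈ L.lev.lv s l}.Finite ∧
    ENNReal.ofReal (L.om s β) *
        (({x | x ∈ E.seg e ∧ ∃ l, h2.toFun x l ∈ L.lev.lv s l}.ncard : ℕ) : ℝ≥0∞) ≤
      ENNReal.ofReal (1 + c) * H239.tv h.toFun (E.a e, E.b e) (Finset.univ.erase (K.nrm s)) +
        ENNReal.ofReal (4 * εE e) := by
  have h3 := L.cnt_side1 O he hc0 hc1 hη hμ β
  rwa [tv_congr (e := (E.a e, E.b e)) hoff] at h3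

end Vale.Agent.P073.H669.PLv
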