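import Vale.Agent.P073.H669.PLevB

/-!
# P073, H669: **[P-LEV]**, part 3: the levels of round P in the forms of H345, H805, H236

`PLv.lev : PLev G`, `PLv.win`, `PLv.hns`, `PLv.band`, `PLv.reg1`, `PLv.reg2`, `PLv.disp`,
`PLv.bfam`, `PLv.stp_le`, `PLv.stp_eq`, `PLv.cnt_sum`.
-/

open Set Metric Topology Filter
open scoped ENNReal

namespace Vale.Agent.P073.H669

open _root_.P073 _root_.P073.TR _root_.P073.Net _root_.P073.PA691
open _root_.P073.PR720 (LF)
open Vale.Agent.P073.St (V)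
open Vale.Agent.P073.H471 (Rad Wid Boxes Near lf_ss ss_subset)
open Vale.Agent.P073.H267
open Vale.Agent.P073.H73 (Mesh)
open Vale.Agent.P073.H193 (Edges)
open _root_.P073.Croft (Cells Crs levs Generic onS cross varIn TransAt SepL)
open _root_.P073.H345 (tg tg_ne tg_ne_not tg_cases bt bt_tg tg_bt PK PB_sub_PK PK_sub_ss PK_unique
  PLev)
open _root_.P073.H236 (BX Lvs NoSl BFam stp abs_sm_sub_self_le)
open _root_.P073.H805 (Reg Plate pFam lf_U)
open Vale.Agent.P073.H805 (t1 t2 t1_ne t2_ne t1_ne_t2 t_cases mFam mFam_cone mFam_fin plc plc_cases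
  plc_box plc_dir plc_tan plc_lf pl plh Gam)

variable {Ω Λ : Set V} {v : V} {K : BoxCx Λ v} {S : Rad K} {W : Wid K S} {B : Boxes W}
  {G : Geo B} {M : Mesh Ω} {E : Edges M} {h : ConHomeo Ω Λ} {Pr : Set M.ι}
  {sl : TBx K → Finset (ℝ × ℝ)} {η : ℝ} {τ : Type*} {A : τ → Set V} {C : Set ℝ}
  {εE : E.ε → ℝ} {μ δ : K.S → ℝ}

namespace PLv

variable (L : PLv G E h Pr sl η A C εE μ δ)

theorem lt_a (s : K.S) (β : Bool) (n : ℕ) :
    L.x s β n + δ s / 4 < L.a s β n ∧ L.a s β n < L.x s β n + 3 / 4 * δ s :=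
  (L.cells s β).lt_a (L.δ0 s) L.η4 n

/-- **345's levels** -/
noncomputable def lev : PLev G where
  N := fun s _ => L.N s
  a := L.a
  c := fun s _ => δ s / 8
  lvs := fun s β => by
    have h0 := L.δ0 s
    have hN := L.pos s
    refine ⟨hN, by linarith, ?_, fun k hk => ?_, ?_⟩
    · have h1 := L.lt_a s β 0
      have h2 := (L.cells s β).ge 0 (hN.trans_le (L.N_le s β))
      linarith [h1.1]
    · have h1 := L.lt_a s β k
      have h2 := L.lt_a s β (k + 1)
      have h3 := (L.cells s β).succ k (hk.trans_le (L.N_le s β))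
      linarith [h1.2, h2.1]
    · have h1 := L.lt_a s β (L.N s - 1)
      have h2 := (L.cells s β).le (L.N s - 1)
        ((Nat.sub_lt hN one_pos).trans_le (L.N_le s β))
      linarith [h1.2]

theorem lev_N (s : K.S) (β : Bool) : L.lev.N s β = L.N s := rfl

theorem lev_c (s : K.S) (β : Bool) : L.lev.c s β = δ s / 8 := rfl

theorem mem_lv {s : K.S} {l : Fin 3} {t : ℝ} (ht : t ∈ L.lev.lv s l) :
    ∃ β, tg s β = l ∧ ∃ n < L.N s, L.a s β n = t := by
  obtain ⟨h1, n, h2, h3⟩ := PLev.mem_lv.1 ht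
  exact ⟨bt s l, tg_bt s h1, n, h2, h3⟩

theorem mem_lv_iff {s : K.S} {β : Bool} {t : ℝ} :
    t ∈ L.lev.lv s (tg s β) ↔ ∃ n < L.N s, L.a s β n = t := by
  rw [PLev.mem_lv, bt_tg]
  exact ⟨fun h => h.2, fun h => ⟨tg_ne s β, h⟩⟩

theorem mem_levs {s : K.S} {β : Bool} {t : ℝ} :
    t ∈ levs (L.N s) (L.a s β) ↔ t ∈ L.lev.lv s (tg s β) := by
  rw [mem_lv_iff]
  constructor
  · rintro ⟨k, hk, h1⟩; exact ⟨k, hk, h1.symm⟩
  · rintro ⟨k, hk, h1⟩; exact ⟨k, hk, h1.symm⟩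

/-- the window -/
theorem win (s : K.S) (l : Fin 3) (_ : l ≠ K.nrm s) : ∀ t ∈ L.lev.lv s l,
    K.slo s l + G.a s ≤ t ∧ t ≤ K.shi s l - G.a s := by
  intro t ht
  obtain ⟨β, rfl, n, hn, rfl⟩ := L.mem_lv ht
  have h1 := L.lt_a s β n
  have h2 := (L.cells s β).ge n (hn.trans_le (L.N_le s β))
  have h3 := (L.cells s β).le n (hn.trans_le (L.N_le s β))
  have h4 := L.δ0 s
  constructor <;> linarith [h1.1, h1.2]

/-- **(BAND)** -/
theorem band (s : K.S) (β : Bool) {n : ℕ} (hn : n < L.N s) {b : TBx K} (hb : Rel s (tg s β) b)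
    {r : ℝ} (hr : |r - L.a s β n| ≤ 2 * (δ s / 8)) : NoSl (sl b) r := by
  intro p hp hmem
  have h1 := L.lt_a s β n
  have h2 := (L.cells s β).sliver n (hn.trans_le (L.N_le s β)) p (mem_plT.2 ⟨b, hb, hp⟩)
  have h3 := abs_le.1 hr
  have h4 := hmem.1
  have h5 := hmem.2
  rcases h2 with h2 | h2
  · linarith [h1.1, h1.2, h3.1, h3.2]
  · linarith [h1.1, h1.2, h3.1, h3.2]

/-- (BAND), for the levels of 345 -/
theorem band' (s : K.S) (β : Bool) {n : ℕ} (hn : n < L.lev.N s β) {b : TBx K}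
    (hb : Rel s (tg s β) b) {r : ℝ} (hr : |r - L.lev.a s β n| ≤ 2 * L.lev.c s β) :
    NoSl (sl b) r := L.band s β hn hb hr

/-- the levels are in no sliver -/
theorem hns (s : K.S) (l : Fin 3) (_ : l ≠ K.nrm s) : ∀ t ∈ L.lev.lv s l, ∀ b : TBx K,
    Rel s l b → NoSl (sl b) t := by
  intro t ht b hb
  obtain ⟨β, rfl, n, hn, rfl⟩ := L.mem_lv ht
  have h4 := L.δ0 s
  exact L.band s β hn hb (by rw [sub_self, abs_zero]; linarith)

/-- the levels avoid the countable set -/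
theorem notMem (s : K.S) (β : Bool) (n : ℕ) : L.a s β n ∉ C := by
  obtain ⟨r, hr⟩ := (L.cells s β).rat n
  rw [hr]
  exact L.gen.notMem _ r

theorem lv_notMem {s : K.S} {l : Fin 3} {t : ℝ} (ht : t ∈ L.lev.lv s l) : t ∉ C := by
  obtain ⟨β, -, n, -, rfl⟩ := L.mem_lv ht
  exact L.notMem s β n

theorem rat {s : K.S} {l : Fin 3} {t : ℝ} (ht : t ∈ L.lev.lv s l) : ∃ r : ℚ, t = L.θ l + r := by
  obtain ⟨β, rfl, n, -, rfl⟩ := L.mem_lv ht
  exact (L.cells s β).rat n

/-- regularity for the large family -/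
theorem regA {s : K.S} {l : Fin 3} {x : V} (hx : x ∈ Ω) (hl : h.toFun x l ∈ L.lev.lv s l) :
    Reg (fun y => h.toFun y l) (famP G M E h Pr A) x := by
  obtain ⟨r, hr⟩ := L.rat hl
  exact L.gen.reg1 hx hr

theorem regA2 {s s' : K.S} {l l' : Fin 3} (hll : l ≠ l') {x : V} (hx : x ∈ Ω)
    (hl : h.toFun x l ∈ L.lev.lv s l) (hl' : h.toFun x l' ∈ L.lev.lv s' l') :
    Reg (fun y => (h.toFun y l, h.toFun y l')) (famP G M E h Pr A) x := by
  obtain ⟨r, hr⟩ := L.rat hl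
  obtain ⟨r', hr'⟩ := L.rat hl'
  exact L.gen.reg2 hx hll hr hr'

/-- **the field `reg1` of 805's `RIn`** -/
theorem reg1 : ∀ s l, l ≠ K.nrm s → ∀ x ∈ Ω, h.toFun x l ∈ L.lev.lv s l →
    Reg (fun y => h.toFun y l) (pFam h (mFam M E) (plc G L.lev.lv h Pr)) x := by
  intro s l _ x hx hxl
  exact Croft.Reg.sub (L.regA hx hxl) fun g => ⟨Sum.inl g, pFam_plc _ _ g⟩

/-- **the field `reg2` of 805's `RIn`** -/
theorem reg2 : ∀ s, ∀ x ∈ Ω, h.toFun x (t1 (K.nrm s)) ∈ L.lev.lv s (t1 (K.nrm s)) →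
    h.toFun x (t2 (K.nrm s)) ∈ L.lev.lv s (t2 (K.nrm s)) →
    Reg (fun y => (h.toFun y (t1 (K.nrm s)), h.toFun y (t2 (K.nrm s))))
      (pFam h (mFam M E) (plc G L.lev.lv h Pr)) x := by
  intro s x hx h1 h2
  exact Croft.Reg.sub (L.regA2 (t1_ne_t2 _) hx h1 h2) fun g => ⟨Sum.inl g, pFam_plc _ _ g⟩

/-! ### the staircases -/

/-- the step -/
noncomputable def om (s : K.S) (β : Bool) : ℝ :=
  stp (L.N s) (K.slo s (tg s β) + G.a s) (K.shi s (tg s β) - G.a s)

theorem om_eq_omP (s : K.S) (β : Bool) (t : ℝ) : L.lev.omP s (tg s β) t = L.om s β :=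
  PLev.omP_tg _ _ _ _

/-- the step is the same in both directions -/
theorem om_eq (s : K.S) (β β' : Bool) : L.om s β = L.om s β' := by
  unfold om stp
  have h1 := L.sq s β β'
  unfold wl at h1
  rw [h1]

theorem omP_eq (s : K.S) {j j' : Fin 3} (hj : j ≠ K.nrm s) (hj' : j' ≠ K.nrm s) (t t' : ℝ) :
    L.lev.omP s j t = L.lev.omP s j' t' := by
  obtain ⟨β, rfl⟩ : ∃ β, j = tg s β := ⟨bt s j, (tg_bt s hj).symm⟩
  obtain ⟨β', rfl⟩ : ∃ β, j' = tg s β := ⟨bt s j', (tg_bt s hj').symm⟩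
  rw [om_eq_omP, om_eq_omP, L.om_eq s β β']

theorem N0 (s : K.S) : (0:ℝ) < L.N s := by exact_mod_cast L.pos s

theorem Ns (s : K.S) (β : Bool) : (L.N s : ℝ) * L.om s β = wl G s β := by
  have := L.N0 s
  unfold om stp wl
  rw [mul_div_cancel₀ _ this.ne']

theorem Nδ_le (s : K.S) (β : Bool) : (L.N s : ℝ) * δ s ≤ wl G s β := by
  have h1 := (L.cells s β).num_le
  have h2 : (L.N s : ℝ) ≤ L.N' s β := by exact_mod_cast L.N_le s β
  have h3 := L.δ0 s
  unfold wl
  nlinarith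

theorem om_ge (s : K.S) (β : Bool) : δ s ≤ L.om s β := by
  have h1 := L.Nδ_le s β
  have h2 := L.Ns s β
  have h3 := L.N0 s
  by_contra hcon
  push Not at hcon
  have := mul_lt_mul_of_pos_left hcon h3
  linarith

theorem om_pos (s : K.S) (β : Bool) : 0 < L.om s β := (L.δ0 s).trans_le (L.om_ge s β)

/-- **the step is at most `(1 + r) δ`** if the displacement is at most `r` times the window -/
theorem om_le (s : K.S) (β : Bool) {r : ℝ} (hr0 : 0 ≤ r) (hr1 : r ≤ 1)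
    (hr : μ s ≤ r * wl G s β) : L.om s β ≤ (1 + r) * δ s := by
  have h1 := L.num s β
  have h2 := L.Ns s β
  have h3 := L.N0 s
  have hw : 0 < wl G s β := by have := wl_pos G s β; have := G.a_pos s; linarith
  -- (1 - r / 2) wl ≤ N δ
  have h4 : (1 - r / 2) * wl G s β ≤ L.N s * δ s := by nlinarith
  -- wl ≤ (1 + r) (1 - r / 2) wl
  have h5 : 1 ≤ (1 + r) * (1 - r / 2) := by nlinarith
  have h6 : (L.N s : ℝ) * L.om s β ≤ L.N s * ((1 + r) * δ s) := by
    calc (L.N s : ℝ) * L.om s β = wl G s β := h2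
      _ ≤ (1 + r) * ((1 - r / 2) * wl G s β) := by nlinarith
      _ ≤ (1 + r) * (L.N s * δ s) := mul_le_mul_of_nonneg_left h4 (by linarith)
      _ = _ := by ring
  exact le_of_mul_le_mul_left h6 h3

theorem om_le_two (s : K.S) (β : Bool) : L.om s β ≤ 2 * δ s := by
  have h1 := L.μw s
  have h2 := wl_pos G s β
  have h3 := G.a_pos s
  have := L.om_le s β zero_le_one le_rfl (by linarith)
  linarith

/-- **the displacement** -/
theorem disp (s : K.S) (β : Bool) {e : ℝ} (he : 0 < e) (he8 : e ≤ δ s / 8) (t : ℝ) :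
    |_root_.P073.H236.sm (L.N s) (L.a s β) (δ s / 8) (K.slo s (tg s β) + G.a s) (K.shi s (tg s β) - G.a s)
      (K.slo s (tg s β) + G.a s) (L.om s β) e t - t| ≤ μ s := by
  have h0 := L.δ0 s
  have hμ := L.δμ s
  have h1 := L.num s β
  have h2 := L.Ns s β
  have h3 := L.om_ge s β
  have h3' := L.om_le_two s β
  have key : ∀ k : ℕ, k ≤ L.N s → (k:ℝ) * δ s ≤ k * L.om s β ∧
      k * L.om s β ≤ k * δ s + μ s / 2 := by
    intro k hk
    have hk' : (k:ℝ) ≤ L.N s := by exact_mod_cast hk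
    constructor
    · exact mul_le_mul_of_nonneg_left h3 (Nat.cast_nonneg _)
    · have h5 : (k:ℝ) * (L.om s β - δ s) ≤ L.N s * (L.om s β - δ s) :=
        mul_le_mul_of_nonneg_right hk' (by linarith)
      have h6 : (L.N s : ℝ) * (L.om s β - δ s) = wl G s β - L.N s * δ s := by
        rw [mul_sub, h2]
      linarith
  refine abs_sm_sub_self_le (L.lev.lvs s β) (by linarith) (fun k hk => ?_) (fun k hk => ?_) t
  · have e1 := L.lt_a s β k
    have e2 := (L.cells s β).disp_nonneg k (hk.trans_le (L.N_le s β))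
    have e3 := L.shift s β k hk
    have e4 := key k hk.le
    change |K.slo s (tg s β) + G.a s + k * L.om s β + e - (L.a s β k - δ s / 8)| ≤ μ s
    rw [abs_le]
    constructor <;> linarith [e1.1, e1.2, e4.1, e4.2]
  · have e1 := L.lt_a s β k
    have e2 := (L.cells s β).disp_nonneg k (hk.trans_le (L.N_le s β))
    have e3 := L.shift s β k hk
    have e4 := key k hk.le
    change |K.slo s (tg s β) + G.a s + (k + 1) * L.om s β - e - (L.a s β k + δ s / 8)| ≤ μ s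
    rw [abs_le]
    constructor <;> linarith [e1.1, e1.2, e4.1, e4.2]

theorem bx_sub (s : K.S) (β : Bool) : (L.lev.bx β s).K ⊆ PK G s := fun _ hy =>
  (PLev.mem_bxK.1 hy).1

/-- **the two families of staircases of round P** -/
noncomputable def bfam (e : K.S → ℝ) (he : ∀ s, 0 < e s) (he8 : ∀ s, e s ≤ δ s / 8) (β : Bool) :
    BFam 3 K.S Λ where
  B := L.lev.bx β
  e := e
  D := μ
  he := he
  heo := fun s => by
    have h1 := L.om_ge s β
    have h2 := he8 s
    have h3 := L.δ0 s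
    show 2 * e s < L.om s β
    linarith
  hD := fun s t => L.disp s β (he s) (he8 s) t
  sub := fun s => (L.bx_sub s β).trans (PK_sub G s)
  lf := fun z hz => by
    obtain ⟨U, hU, hf⟩ := lf_PK G z hz
    refine ⟨U, hU, hf.subset ?_⟩
    rintro s ⟨x, hx, hxU⟩
    exact ⟨x, L.bx_sub s β hx, hxU⟩
  dis := fun s s' hne => Set.disjoint_left.2 fun y hy hy' =>
    hne (PK_unique (L.bx_sub s β (interior_subset hy)) (L.bx_sub s' β hy'))

theorem bfam_B (e : K.S → ℝ) (he : ∀ s, 0 < e s) (he8 : ∀ s, e s ≤ δ s / 8) (β : Bool) :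
    (L.bfam e he he8 β).B = L.lev.bx β := rfl

theorem bfam_om (e : K.S → ℝ) (he : ∀ s, 0 < e s) (he8 : ∀ s, e s ≤ δ s / 8) (β : Bool)
    (s : K.S) : (L.bfam e he he8 β).om s = L.om s β := rfl

/-! ### crossings -/

/-- **the crossing numbers** against the variation of one coordinate in the plate -/
theorem cnt_one (e : E.ε) (s : K.S) (β : Bool) : ENNReal.ofReal (δ s) *
        cnt (cross (onS h.toFun (E.a e) (E.b e)) (tg s β)
          (L.lev.lv s (tg s β) : Set ℝ) (PK G s)) ≤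
      ENNReal.ofReal (1 - 2 * η)⁻¹ *
        varIn (onS h.toFun (E.a e) (E.b e)) (tg s β) (PK G s) 0 1 +
        ENNReal.ofReal (εE e) := by
  have h1 : (L.lev.lv s (tg s β) : Set ℝ) = levs (L.N s) (L.a s β) := by
    ext t
    rw [Finset.mem_coe, mem_levs]
  rw [h1]
  exact (L.crs e).one (s, β)

/-- finitely many, transversal crossings -/
theorem cross_fin (e : E.ε) (s : K.S) (β : Bool) :
    (cross (onS h.toFun (E.a e) (E.b e)) (tg s β) (L.lev.lv s (tg s β) : Set ℝ)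
      (PK G s)).Finite := by
  have h1 : (L.lev.lv s (tg s β) : Set ℝ) = levs (L.N s) (L.a s β) := by
    ext t
    rw [Finset.mem_coe, mem_levs]
  rw [h1]
  exact (L.crs e).fin (s, β)

theorem cross_trans (e : E.ε) (s : K.S) (β : Bool) :
    ∀ t ∈ cross (onS h.toFun (E.a e) (E.b e)) (tg s β) (L.lev.lv s (tg s β) : Set ℝ)
      (PK G s), TransAt (onS h.toFun (E.a e) (E.b e)) (tg s β) t := by
  have h1 : (L.lev.lv s (tg s β) : Set ℝ) = levs (L.N s) (L.a s β) := by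
    ext t
    rw [Finset.mem_coe, mem_levs]
  rw [h1]
  exact (L.crs e).trans (s, β)

/-- **all crossings of one edge** against its length -/
theorem cnt_sum (e : E.ε) : ∑' q : K.S × Bool, ENNReal.ofReal (δ q.1) *
        cnt (cross (onS h.toFun (E.a e) (E.b e)) (tg q.1 q.2)
          (L.lev.lv q.1 (tg q.1 q.2) : Set ℝ) (PK G q.1)) ≤
      ENNReal.ofReal (1 - 2 * η)⁻¹ * (2 * len (onS h.toFun (E.a e) (E.b e)) (Icc 0 1)) +
        ENNReal.ofReal (εE e) := by
  have h0 : ∀ q : K.S × Bool, (L.lev.lv q.1 (tg q.1 q.2) : Set ℝ) =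
      levs (L.N q.1) (L.a q.1 q.2) := by
    intro q
    ext t
    rw [Finset.mem_coe, mem_levs]
  simp_rw [h0]
  have h1 := (L.crs e).sum_le_len (m := 2) (Croft.conicalOn_onS h.conical (E.seg_sub_Ω e))
    (fun q => PK_convex G q.1) (fun y => by exact_mod_cast encard_PK G y)
  exact_mod_cast h1

/-- the same, with the steps as weights -/
theorem cnt_sum_om (e : E.ε) : ∑' q : K.S × Bool, ENNReal.ofReal (L.om q.1 q.2) *
        cnt (cross (onS h.toFun (E.a e) (E.b e)) (tg q.1 q.2)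
          (L.lev.lv q.1 (tg q.1 q.2) : Set ℝ) (PK G q.1)) ≤
      2 * (ENNReal.ofReal (1 - 2 * η)⁻¹ * (2 * len (onS h.toFun (E.a e) (E.b e)) (Icc 0 1)) +
        ENNReal.ofReal (εE e)) := by
  refine le_trans ?_ (mul_le_mul_right (L.cnt_sum e) 2)
  rw [← ENNReal.tsum_mul_left]
  refine ENNReal.tsum_le_tsum fun q => ?_
  rw [← mul_assoc]
  refine mul_le_mul_left ?_ _
  have h1 : ENNReal.ofReal (L.om q.1 q.2) ≤ ENNReal.ofReal (2 * δ q.1) :=
    ENNReal.ofReal_le_ofReal (L.om_le_two q.1 q.2)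
  refine h1.trans (le_of_eq ?_)
  rw [ENNReal.ofReal_mul (by norm_num)]
  norm_num

end PLv

end Vale.Agent.P073.H669
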