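import Vale.Agent.P073.H669.TLevC
import Vale.Agent.P073.H196.RegFin

/-!
# P073, H669: **[RT-LEV]** the levels of round T for `K3C`

`RTPre`: the choices before the spacings: the critical values `cr b` of the coordinate `b.ax` on the
compact set `X b`, the half width `w b` of the fat slivers at the critical values, finitely many
macroscopic intervals `I b` of regular values.  `RTPre.T`: the slivers, fat at `cr b`, points at `V₀ b`.
`exists_rtpre`, `RTPre.exists_lev`: the levels, `RTPre.mem_I`: the cell of every level is contained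
in one of the intervals `I b`.
-/

open Set Metric Topology Filter
open scoped ENNReal

namespace Vale.Agent.P073.H669

open _root_.P073 _root_.P073.TR _root_.P073.Net _root_.P073.PA691
open _root_.P073.PR720 (LF)
open Vale.Agent.P073.St (V)
open Vale.Agent.P073.H471 Vale.Agent.P073.H267 Vale.Agent.P073.H267.Geo
open Vale.Agent.P073.H73 (Mesh)
open Vale.Agent.P073.H193 (Edges)
open Vale.Agent.P073.H238 (oT)
open _root_.P073.Croft (Cells)
open _root_.P073.H236 (dsp)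
open _root_.P073.H805 (Reg)

/-! ### macroscopic intervals -/

/-- the intervals between the slivers of half width `w` at the points of `cr` -/
theorem exists_macro (cr : Finset ℝ) {w lo hi : ℝ} (hw : 0 < w) :
    ∃ I : Finset (ℝ × ℝ), (∀ p ∈ I, lo ≤ p.1 ∧ p.1 ≤ p.2 ∧ p.2 ≤ hi ∧
        ∀ t ∈ Icc (p.1 - w / 2) (p.2 + w / 2), t ∉ cr) ∧
      ∀ x y, lo ≤ x → x ≤ y → y ≤ hi → (∀ t ∈ cr, y ≤ t - w ∨ t + w ≤ x) →
        ∃ p ∈ I, Icc x y ⊆ Icc p.1 p.2 := by
  classical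
  set A : Finset ℝ := insert (lo - w) (cr.filter fun t => lo - w ≤ t) with hA
  set A' : Finset ℝ := insert (hi + w) (cr.filter fun t => t ≤ hi + w) with hA'
  set I : Finset (ℝ × ℝ) := (((A ×ˢ A').filter fun q => q.1 + w ≤ q.2 - w ∧
    ∀ t ∈ cr, ¬ (q.1 < t ∧ t < q.2))).image fun q => (q.1 + w, q.2 - w) with hI
  have hAlo : ∀ a ∈ A, lo - w ≤ a := by
    intro a ha
    rcases Finset.mem_insert.1 ha with rfl | h
    · exact le_rfl
    · exact (Finset.mem_filter.1 h).2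
  have hA'hi : ∀ a ∈ A', a ≤ hi + w := by
    intro a ha
    rcases Finset.mem_insert.1 ha with rfl | h
    · exact le_rfl
    · exact (Finset.mem_filter.1 h).2
  refine ⟨I, fun p hp => ?_, fun x y hx hxy hy hcr => ?_⟩
  · obtain ⟨q, hq, rfl⟩ := Finset.mem_image.1 hp
    obtain ⟨h1, h2, h3⟩ := Finset.mem_filter.1 hq
    obtain ⟨h4, h5⟩ := Finset.mem_product.1 h1
    have h6 := hAlo _ h4
    have h7 := hA'hi _ h5
    refine ⟨by show lo ≤ q.1 + w; linarith, h2, by show q.2 - w ≤ hi; linarith, fun t ht htc => ?_⟩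
    have h8 : q.1 + w - w / 2 ≤ t := ht.1
    have h9 : t ≤ q.2 - w + w / 2 := ht.2
    exact h3 t htc ⟨by linarith, by linarith⟩
  · have hne : (A.filter fun a => a + w ≤ x).Nonempty :=
      ⟨lo - w, Finset.mem_filter.2 ⟨Finset.mem_insert_self _ _, by linarith⟩⟩
    have hne' : (A'.filter fun a => y ≤ a - w).Nonempty :=
      ⟨hi + w, Finset.mem_filter.2 ⟨Finset.mem_insert_self _ _, by linarith⟩⟩
    set s := (A.filter fun a => a + w ≤ x).max' hne with hs
    set t := (A'.filter fun a => y ≤ a - w).min' hne' with ht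
    obtain ⟨s1, s2⟩ := Finset.mem_filter.1 (Finset.max'_mem _ hne)
    obtain ⟨t1, t2⟩ := Finset.mem_filter.1 (Finset.min'_mem _ hne')
    rw [← hs] at s1 s2
    rw [← ht] at t1 t2
    refine ⟨(s + w, t - w), Finset.mem_image.2 ⟨(s, t), Finset.mem_filter.2
      ⟨Finset.mem_product.2 ⟨s1, t1⟩, by show s + w ≤ t - w; linarith, ?_⟩, rfl⟩,
      Icc_subset_Icc s2 t2⟩
    rintro r hr ⟨h1, h2⟩
    have h1' : s < r := h1
    have h2' : r < t := h2
    rcases hcr r hr with h3 | h3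
    · have h4 : r ∈ A'.filter fun a => y ≤ a - w := by
        refine Finset.mem_filter.2 ⟨Finset.mem_insert_of_mem (Finset.mem_filter.2 ⟨hr, ?_⟩), h3⟩
        linarith [hA'hi t t1]
      have := Finset.min'_le _ _ h4
      rw [← ht] at this
      linarith
    · have h4 : r ∈ A.filter fun a => a + w ≤ x := by
        refine Finset.mem_filter.2 ⟨Finset.mem_insert_of_mem (Finset.mem_filter.2 ⟨hr, ?_⟩), h3⟩
        linarith [hAlo s s1]
      have := Finset.le_max' _ _ h4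
      rw [← hs] at this
      linarith

/-! ### the slivers -/

variable {Ω Λ : Set V} {v : V} {K : BoxCx Λ v} {S : Rad K} {W : Wid K S} {B : Boxes W}

open Classical in
/-- slivers of half width `w b` at the points of `cr b`, and points at `V₀ b` -/
noncomputable def rtT (cr : TBx K → Finset ℝ) (w : TBx K → ℝ) (V₀ : TBx K → Finset ℝ)
    (b : TBx K) : Finset (ℝ × ℝ) :=
  ((cr b).image fun t => (t - w b, t + w b)) ∪ pts V₀ b

section rtT

variable {cr : TBx K → Finset ℝ} {w : TBx K → ℝ} {V₀ : TBx K → Finset ℝ}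

theorem fat_mem {b : TBx K} {t : ℝ} (ht : t ∈ cr b) : (t - w b, t + w b) ∈ rtT cr w V₀ b := by
  classical
  exact Finset.mem_union.2 (Or.inl (Finset.mem_image.2 ⟨t, ht, rfl⟩))

theorem pt_mem {b : TBx K} {t : ℝ} (ht : t ∈ V₀ b) : (t, t) ∈ rtT cr w V₀ b := by
  classical
  exact Finset.mem_union.2 (Or.inr (Finset.mem_image.2 ⟨t, ht, rfl⟩))

theorem rtT_le (hw : ∀ b, 0 < w b) (b : TBx K) : ∀ p ∈ rtT cr w V₀ b, p.1 ≤ p.2 := by
  classical
  intro p hp
  rcases Finset.mem_union.1 hp with h | h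
  · obtain ⟨t, -, rfl⟩ := Finset.mem_image.1 h
    have := hw b
    show t - w b ≤ t + w b
    linarith
  · exact pts_le V₀ b p h

theorem rtT_sum (hw : ∀ b, 0 < w b) (b : TBx K) :
    ∑ p ∈ rtT cr w V₀ b, (p.2 - p.1) ≤ 2 * w b * (cr b).card := by
  classical
  have h1 := Finset.sum_union_inter (s₁ := (cr b).image fun t => (t - w b, t + w b))
    (s₂ := pts V₀ b) (f := fun p : ℝ × ℝ => p.2 - p.1)
  have h3 : 0 ≤ ∑ p ∈ ((cr b).image fun t => (t - w b, t + w b)) ∩ pts V₀ b, (p.2 - p.1) :=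
    Finset.sum_nonneg fun p hp => by
      have := pts_le V₀ b p (Finset.mem_inter.1 hp).2
      linarith
  have h4 : ∑ p ∈ (cr b).image (fun t => (t - w b, t + w b)), (p.2 - p.1) ≤
      2 * w b * (cr b).card := by
    have h5 : ∑ p ∈ (cr b).image (fun t => (t - w b, t + w b)), (p.2 - p.1) =
        ∑ p ∈ (cr b).image (fun t => (t - w b, t + w b)), 2 * w b := by
      refine Finset.sum_congr rfl fun p hp => ?_
      obtain ⟨t, -, rfl⟩ := Finset.mem_image.1 hp
      ring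
    rw [h5, Finset.sum_const, nsmul_eq_mul, mul_comm]
    refine mul_le_mul_of_nonneg_left ?_ (by have := hw b; linarith)
    exact_mod_cast Finset.card_image_le
  rw [pts_sum] at h1
  unfold rtT
  linarith

end rtT

/-! ### the choices before the spacings -/

/-- **the choices before the spacings** -/
structure RTPre (G : Geo B) (h : ConHomeo Ω Λ) (X : TBx K → Set V) {τ' : Type*} (Fm : τ' → Set V)
    (V₀ : TBx K → Finset ℝ) (σ : TBx K → ℝ) where
  /-- the critical values -/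
  cr : TBx K → Finset ℝ
  /-- half width of the slivers at the critical values -/
  w : TBx K → ℝ
  /-- the macroscopic intervals -/
  I : TBx K → Finset (ℝ × ℝ)
  w0 : ∀ b, 0 < w b
  reg : ∀ b, ∀ x ∈ X b, h.toFun x b.ax ∉ cr b → Reg (fun y => h.toFun y b.ax) Fm x
  sum : ∀ b, ∑ p ∈ rtT cr w V₀ b, (p.2 - p.1) ≤ σ b
  I_win : ∀ b, ∀ p ∈ I b, G.tlo true b b.ax ≤ p.1 ∧ p.1 ≤ p.2 ∧ p.2 ≤ G.thi true b b.ax
  I_reg : ∀ b, ∀ p ∈ I b, ∀ x ∈ X b, h.toFun x b.ax ∈ Icc (p.1 - w b / 2) (p.2 + w b / 2) →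
    Reg (fun y => h.toFun y b.ax) Fm x
  I_sub : ∀ b, ∀ x y, G.tlo true b b.ax ≤ x → x ≤ y → y ≤ G.thi true b b.ax →
    (∀ t ∈ cr b, y ≤ t - w b ∨ t + w b ≤ x) → ∃ p ∈ I b, Icc x y ⊆ Icc p.1 p.2

/-- **[RT-LEV]**, first part -/
theorem exists_rtpre (hΩ : IsOpen Ω) (G : Geo B) (h : ConHomeo Ω Λ) {X : TBx K → Set V}
    (hX : ∀ b, IsCompact (X b)) (hXΩ : ∀ b, X b ⊆ Ω) {τ' : Type*} {Fm : τ' → Set V}
    (hFm : ∀ t, ∀ x ∈ Ω, LocConeAt (Fm t) x)
    (hlf : ∀ x ∈ Ω, ∃ U ∈ 𝓝 x, {t | (Fm t ∩ U).Nonempty}.Finite) (V₀ : TBx K → Finset ℝ)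
    {σ : TBx K → ℝ} (hσ : ∀ b, 0 < σ b) : Nonempty (RTPre G h X Fm V₀ σ) := by
  have key : ∀ b, ∃ cr : Finset ℝ, ∀ x ∈ X b, h.toFun x b.ax ∉ cr →
      Reg (fun y => h.toFun y b.ax) Fm x := by
    intro b
    obtain ⟨Bs, hB, hreg⟩ := Croft.exists_finite_reg_lf (M := Fm) hΩ
      ((conicalOn_coord b.ax).comp h.conical (fun _ _ => mem_univ _) h.cont)
      ((continuous_apply b.ax).comp_continuousOn h.cont) hFm (hX b) (hXΩ b) hlf
    refine ⟨hB.toFinset, fun x hx hxB => hreg x hx fun h1 => hxB (hB.mem_toFinset.2 h1)⟩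
  choose cr hcr using key
  set w : TBx K → ℝ := fun b => σ b / (2 * (cr b).card + 1) with hw
  have hw0 : ∀ b, 0 < w b := fun b => div_pos (hσ b) (by positivity)
  choose I hI1 hI2 using fun b => exists_macro (cr b) (lo := G.tlo true b b.ax)
    (hi := G.thi true b b.ax) (hw0 b)
  refine ⟨⟨cr, w, I, hw0, hcr, fun b => (rtT_sum hw0 b).trans ?_,
    fun b p hp => ⟨(hI1 b p hp).1, (hI1 b p hp).2.1, (hI1 b p hp).2.2.1⟩,
    fun b p hp x hx hxI => hcr b x hx ((hI1 b p hp).2.2.2 _ hxI), fun b => hI2 b⟩⟩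
  have h1 : w b * (2 * (cr b).card + 1) = σ b := div_mul_cancel₀ _ (by positivity)
  nlinarith [hw0 b]

namespace RTPre

variable {G : Geo B} {h : ConHomeo Ω Λ} {X : TBx K → Set V} {τ' : Type*} {Fm : τ' → Set V}
  {V₀ : TBx K → Finset ℝ} {σ : TBx K → ℝ} (P : RTPre G h X Fm V₀ σ)

/-- the slivers -/
noncomputable def T : TBx K → Finset (ℝ × ℝ) := rtT P.cr P.w V₀

theorem T_le (b : TBx K) : ∀ p ∈ P.T b, p.1 ≤ p.2 := rtT_le P.w0 b

/-- **[RT-LEV]**, second part: the spacings are chosen last -/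
theorem exists_lev (hΩ : IsOpen Ω) {M : Mesh Ω} (E : Edges M) {ω : TBx K → ℝ}
    (ω0 : ∀ b, 0 < ω b) (ωo : ∀ b, ω b ≤ oT G b) (hσ : ∀ b, σ b ≤ oT G b) (hσ0 : ∀ b, 0 < σ b)
    {τ : Type*} {A : τ → Set V} (hA : ∀ t, ∀ x ∈ Ω, LocConeAt (A t) x)
    (hAlf : ∀ x ∈ Ω, ∃ U ∈ 𝓝 x, {t | (A t ∩ U).Nonempty}.Finite)
    {εE : E.ε → ℝ} (hε : ∀ e, 0 < εE e) {C : Set ℝ} (hC : C.Countable) {η : ℝ} (hη : 0 < η)
    (hη4 : η ≤ 1 / 4) {dmax : TBx K → ℝ} (hd : ∀ b, 0 < dmax b) :
    ∃ δ : TBx K → ℝ, (∀ b, δ b ≤ dmax b) ∧ (∀ b, dsp (P.T b) (δ b) ≤ 2 * σ b) ∧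
      Nonempty (TLv G E h ω P.T η A C εE δ) := by
  have hd' : ∀ b, 0 < min (dmax b) (σ b / (2 * (P.T b).card + 1)) := fun b =>
    lt_min (hd b) (div_pos (hσ0 b) (by positivity))
  obtain ⟨δ, h1, h2⟩ := exists_tlv hΩ G E h ω0 ωo hA hAlf hε hC hη hη4 hd' P.T P.T_le
    (fun b => by
      have h3 := win G b
      have h4 := ωo b
      have h5 := ω0 b
      have h6 := P.sum b
      have h7 := hσ b
      show ∑ p ∈ rtT P.cr P.w V₀ b, (p.2 - p.1) < _
      linarith)
  refine ⟨δ, fun b => (h1 b).trans (min_le_left _ _), fun b => ?_, h2⟩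
  have h3 : δ b ≤ σ b / (2 * (P.T b).card + 1) := (h1 b).trans (min_le_right _ _)
  rw [le_div_iff₀ (by positivity)] at h3
  have h4 := P.sum b
  unfold dsp
  have h5 : ∑ p ∈ P.T b, (p.2 - p.1) ≤ σ b := h4
  linarith

section lev

variable {M : Mesh Ω} {E : Edges M} {ω : TBx K → ℝ} {η : ℝ} {τ : Type*} {A : τ → Set V}
  {C : Set ℝ} {εE : E.ε → ℝ} {δ : TBx K → ℝ} (L : TLv G E h ω P.T η A C εE δ)

/-- **the levels are far from the critical values** -/
theorem far_cr {b : TBx K} {t : ℝ} (ht : t ∈ P.cr b) {k : ℕ} (hk : k < L.N b) :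
    P.w b + δ b / 4 < |t - L.a b k| := by
  have h1 := (L.cells b).lt_a (L.δ0 b) L.η4 k
  have h2 := L.δ0 b
  have h0 := P.w0 b
  rcases (L.cells b).sliver k hk _ (fat_mem (V₀ := V₀) (w := P.w) ht) with h3 | h3
  · have h4 : L.x b k + δ b ≤ t - P.w b := h3
    rw [abs_of_pos (by linarith [h1.2])]
    linarith [h1.2]
  · have h4 : t + P.w b ≤ L.x b k := h3
    rw [abs_of_neg (by linarith [h1.1])]
    linarith [h1.1]

/-- **the levels are far from the points of `V₀`** -/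
theorem far_pt {b : TBx K} {t : ℝ} (ht : t ∈ V₀ b) {k : ℕ} (hk : k < L.N b) :
    δ b / 4 < |t - L.a b k| :=
  L.far (pt_mem (cr := P.cr) (w := P.w) ht) hk

/-- **the cell of every level lies in a macroscopic interval of regular values** -/
theorem mem_I {b : TBx K} {k : ℕ} (hk : k < L.N b) :
    ∃ p ∈ P.I b, Icc (L.a b k - δ b / 4) (L.a b k + δ b / 4) ⊆ Icc p.1 p.2 := by
  have h1 := (L.cells b).lt_a (L.δ0 b) L.η4 k
  have h2 := L.δ0 b
  have hω := L.ω0 b
  have h3 := (L.cells b).ge k hk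
  have h4 := (L.cells b).le k hk
  refine P.I_sub b _ _ (by linarith [h1.1]) (by linarith) (by linarith [h1.2]) fun t ht => ?_
  have h5 := (L.cells b).sliver k hk _ (fat_mem (V₀ := V₀) (w := P.w) ht)
  rcases h5 with h5 | h5
  · left
    have h6 : L.x b k + δ b ≤ t - P.w b := h5
    linarith [h1.2]
  · right
    have h6 : t + P.w b ≤ L.x b k := h5
    linarith [h1.1]

/-- the values in the cell of a level are regular on `X b` -/
theorem reg_cell {b : TBx K} {k : ℕ} (hk : k < L.N b) {x : V} (hx : x ∈ X b)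
    (hl : |h.toFun x b.ax - L.a b k| ≤ δ b / 4) : Reg (fun y => h.toFun y b.ax) Fm x := by
  refine P.reg b x hx fun hc => ?_
  have h1 := P.far_cr L hc hk
  have h2 := P.w0 b
  linarith

end lev

end RTPre

/-! ### the coordinates of the vertices of the protected cells -/

section verts

variable {M : Mesh Ω}

/-- the vertices of the protected cells near the box `b` -/
def pVs (G : Geo B) (E : Edges M) (h : ConHomeo Ω Λ) (Pr : Set M.ι) (b : TBx K) : Set V :=
  {x | x ∈ E.verts ∧ ∃ i ∈ Pr, x ∈ M.Q i ∧ (h.toFun '' M.Q i ∩ G.TB false b).Nonempty}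

theorem pVs_fin (G : Geo B) (E : Edges M) (h : ConHomeo Ω Λ) (Pr : Set M.ι) (b : TBx K) :
    (pVs G E h Pr b).Finite := by
  have h1 : {i | (h.toFun '' M.Q i ∩ G.TB false b).Nonempty}.Finite :=
    Croft.finite_image_inter h (fun i => M.sub i) (fun X hX hXc => M.fin X hX hXc)
      (show IsCompact (G.TB false b) from isCompact_Icc) (TB_sub b)
  refine (h1.biUnion (t := fun i => {x | x ∈ E.verts ∧ x ∈ M.Q i}) fun i _ => ?_).subset ?_
  · exact E.verts_finite (M.sub i) (M.poly i).cpt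
  · rintro x ⟨hx, i, -, hxi, hm⟩
    exact mem_biUnion (x := i) hm ⟨hx, hxi⟩

open Classical in
/-- **the coordinates of these vertices** -/
noncomputable def pV (G : Geo B) (E : Edges M) (h : ConHomeo Ω Λ) (Pr : Set M.ι) (b : TBx K) :
    Finset ℝ := (pVs_fin G E h Pr b).toFinset.image fun x => h.toFun x b.ax

theorem mem_pV {G : Geo B} {E : Edges M} {h : ConHomeo Ω Λ} {Pr : Set M.ι} {b : TBx K} {x : V}
    (hx : x ∈ E.verts) {i : M.ι} (hi : i ∈ Pr) (hxi : x ∈ M.Q i)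
    (hm : (h.toFun '' M.Q i ∩ G.TB false b).Nonempty) : h.toFun x b.ax ∈ pV G E h Pr b := by
  classical
  exact Finset.mem_image.2 ⟨x, (pVs_fin G E h Pr b).mem_toFinset.2 ⟨hx, i, hi, hxi, hm⟩, rfl⟩

end verts

end Vale.Agent.P073.H669
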