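import Vale.Agent.P073.H669.PLevA

/-!
# P073, H669: **[P-LEV]** the levels of round P

`PLv`: levels in both tangential directions of all squares, the same number `N s` and the same
spacing `δ s` in the two directions.  `exists_plv`.
-/

open Set Metric Topology Filter
open scoped ENNReal

namespace Vale.Agent.P073.H669

open _root_.P073 _root_.P073.TR _root_.P073.Net _root_.P073.PA691
open _root_.P073.PR720 (LF)
open Vale.Agent.P073.St (V)
open Vale.Agent.P073.H471 (Rad Wid Boxes Near lf_ss ss_subset)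
open Vale.Agent.P073.H267
open Vale.Agent.P073.H73 (Mesh)
open Vale.Agent.P073.H193 (Edges)
open _root_.P073.Croft (Cells Crs levs Generic onS cross varIn TransAt SepL)
open _root_.P073.H345 (tg tg_ne tg_ne_not tg_cases bt bt_tg tg_bt PK PB_sub_PK PK_sub_ss PK_unique
  PLev)
open _root_.P073.H236 (BX Lvs NoSl BFam stp)
open _root_.P073.H805 (Reg Plate pFam lf_U)
open Vale.Agent.P073.H805 (t1 t2 t1_ne t2_ne t1_ne_t2 t_cases mFam mFam_cone mFam_fin plc plc_cases
  plc_box plc_dir plc_tan plc_lf pl plh Gam)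

variable {Ω Λ : Set V} {v : V} {K : BoxCx Λ v} {S : Rad K} {W : Wid K S} {B : Boxes W}

/-! ### the family of 805 -/

section fam

variable {M : Mesh Ω} {E : Edges M} {h : ConHomeo Ω Λ} {Pr : Set M.ι} {G : Geo B}

theorem plc_lo (L L' : K.S → Fin 3 → Finset ℝ) (c : Gam K h Pr) :
    (plc G L h Pr c).lo = (plc G L' h Pr c).lo := by
  unfold plc
  split_ifs <;> rfl

theorem plc_hi (L L' : K.S → Fin 3 → Finset ℝ) (c : Gam K h Pr) :
    (plc G L h Pr c).hi = (plc G L' h Pr c).hi := by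
  unfold plc
  split_ifs <;> rfl

theorem pFam_plc (L L' : K.S → Fin 3 → Finset ℝ) (g : (M.κ ⊕ (M.ι ⊕ E.ε)) ⊕ (Gam K h Pr × Bool)) :
    pFam h (mFam M E) (plc G L h Pr) g = pFam h (mFam M E) (plc G L' h Pr) g := by
  rcases g with g | ⟨c, b⟩
  · rfl
  · cases b
    · show (plc G L h Pr c).B h = (plc G L' h Pr c).B h
      unfold Plate.B
      rw [plc_lo L L', plc_hi L L']
    · show (plc G L h Pr c).U h = (plc G L' h Pr c).U h
      unfold Plate.U
      rw [plc_lo L L', plc_hi L L']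

theorem plc0_ok (c : Gam K h Pr) : (plc G (fun _ _ => ∅) h Pr c).Ok Λ := by
  obtain ⟨e1, e2, e3, e4, e5⟩ := plc_dir (G := G) (L := fun _ _ => ∅) c
  have hp := Geo.p_pos (G := G) c.1
  have hτ := B.τ_pos c.1
  have hpa := Geo.p_a (G := G) c.1
  have hau := G.a_u c.1
  refine ⟨fun l => ?_, (plc_box c).trans (Geo.PB_sub (by norm_num) c.1), ?_, ?_, ?_, ?_⟩
  · by_cases hl : l = K.nrm c.1
    · rcases plc_cases (G := G) (L := fun _ _ => ∅) c with ⟨h1, -⟩ | ⟨β, h1, -⟩
      · rw [h1, hl]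
        show G.plo 1 c.1 (K.nrm c.1) < G.phi 1 c.1 (K.nrm c.1)
        simp only [Geo.plo, Geo.phi, if_true]
        linarith
      · rw [h1, hl]
        show G.plo' 1 c.1 β (K.nrm c.1) < G.phi' 1 c.1 β (K.nrm c.1)
        cases β <;> simp [Geo.plo', Geo.phi', hτ]
    · obtain ⟨h1, h2⟩ := plc_tan (G := G) (L := fun _ _ => ∅) c hl
      rw [h1, h2]
      have := G.size hl
      linarith
  · rw [e1, e2]; exact t1_ne_t2 _
  · rw [e5]; linarith
  · intro k hk
    rw [e3] at hk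
    exact absurd hk (Finset.notMem_empty k)
  · intro k hk
    rw [e4] at hk
    exact absurd hk (Finset.notMem_empty k)

theorem pFam_cone (g : (M.κ ⊕ (M.ι ⊕ E.ε)) ⊕ (Gam K h Pr × Bool)) :
    ∀ x ∈ Ω, LocConeAt (pFam h (mFam M E) (plc G (fun _ _ => ∅) h Pr) g) x := by
  intro x hx
  have hb : ∀ c : Gam K h Pr, ConBall 3 ((plc G (fun _ _ => ∅) h Pr c).U h)
      ((plc G (fun _ _ => ∅) h Pr c).B h) := fun c =>
    (conBall_Icc_pi three_ne_zero (plc0_ok c).lt).image h.symm (plc0_ok c).sub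
  match g with
  | Sum.inl g => exact mFam_cone g x
  | Sum.inr (c, true) => exact (hb c).locCone x
  | Sum.inr (c, false) => exact (hb c).locCone_bdry x

theorem pFam_lf (hΩ : IsOpen Ω) : ∀ x ∈ Ω, ∃ O ∈ 𝓝 x,
    {g | (pFam h (mFam M E) (plc G (fun _ _ => ∅) h Pr) g ∩ O).Nonempty}.Finite := by
  intro x hx
  obtain ⟨O, hO, hf⟩ := mFam_fin hΩ M E x hx
  obtain ⟨O', hO', hf'⟩ := lf_U hΩ (fun c => plc0_ok (G := G) (h := h) (Pr := Pr) c)
    (plc_lf G (fun _ _ => ∅) h Pr) x hx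
  refine ⟨O ∩ O', inter_mem hO hO', ((hf.image Sum.inl).union
    ((hf'.prod (finite_univ : (univ : Set Bool).Finite)).image Sum.inr)).subset ?_⟩
  rintro (g | ⟨c, b⟩) ⟨y, hy, hyO, hyO'⟩
  · exact Or.inl ⟨g, ⟨y, hy, hyO⟩, rfl⟩
  · refine Or.inr ⟨(c, b), ⟨⟨y, ?_, hyO'⟩, mem_univ _⟩, rfl⟩
    cases b
    · exact Plate.B_sub hy
    · exact hy

/-- the family of 805 and a further family -/
def famP (G : Geo B) (M : Mesh Ω) (E : Edges M) (h : ConHomeo Ω Λ) (Pr : Set M.ι) {τ : Type*}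
    (A : τ → Set V) : ((M.κ ⊕ (M.ι ⊕ E.ε)) ⊕ (Gam K h Pr × Bool)) ⊕ τ → Set V :=
  Sum.elim (pFam h (mFam M E) (plc G (fun _ _ => ∅) h Pr)) A

theorem famP_cone {τ : Type*} {A : τ → Set V} (hA : ∀ t, ∀ x ∈ Ω, LocConeAt (A t) x)
    (g : ((M.κ ⊕ (M.ι ⊕ E.ε)) ⊕ (Gam K h Pr × Bool)) ⊕ τ) :
    ∀ x ∈ Ω, LocConeAt (famP G M E h Pr A g) x := by
  rcases g with g | t
  · exact pFam_cone g
  · exact hA t

theorem famP_lf (hΩ : IsOpen Ω) {τ : Type*} {A : τ → Set V}
    (hA : ∀ x ∈ Ω, ∃ U ∈ 𝓝 x, {t | (A t ∩ U).Nonempty}.Finite) :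
    ∀ x ∈ Ω, ∃ O ∈ 𝓝 x, {g | (famP G M E h Pr A g ∩ O).Nonempty}.Finite := by
  intro x hx
  obtain ⟨O, hO, h1⟩ := pFam_lf (G := G) (M := M) (E := E) (h := h) (Pr := Pr) hΩ x hx
  obtain ⟨U, hU, h2⟩ := hA x hx
  refine ⟨O ∩ U, inter_mem hO hU, ((h1.image Sum.inl).union (h2.image Sum.inr)).subset ?_⟩
  rintro (g | t) ⟨y, hy, hyO⟩
  · exact Or.inl ⟨g, ⟨y, hy, hyO.1⟩, rfl⟩
  · exact Or.inr ⟨t, ⟨y, hy, hyO.2⟩, rfl⟩

end fam

/-! ### the regions -/

theorem PK_eq (G : Geo B) (s : K.S) : PK G s =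
    Icc (fun j => if j = K.nrm s then K.slo s j - 3 / 2 * B.τ s else K.slo s j + 3 / 4 * G.p s)
      (fun j => if j = K.nrm s then K.slo s j + 3 / 2 * B.τ s
        else K.shi s j - 3 / 4 * G.p s) := by
  ext y
  constructor
  · rintro ⟨h1, h2⟩
    have h2' := abs_le.1 h2
    constructor
    · intro j
      show (if j = K.nrm s then K.slo s j - 3 / 2 * B.τ s else K.slo s j + 3 / 4 * G.p s) ≤ y j
      split_ifs with hj
      · rw [hj]; linarith [h2'.1]
      · exact (h1 j hj).1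
    · intro j
      show y j ≤ (if j = K.nrm s then K.slo s j + 3 / 2 * B.τ s else K.shi s j - 3 / 4 * G.p s)
      split_ifs with hj
      · rw [hj]; linarith [h2'.2]
      · exact (h1 j hj).2
  · rintro ⟨h1, h2⟩
    refine ⟨fun j hj => ?_, ?_⟩
    · have h3 := h1 j
      have h4 := h2 j
      simp only [if_neg hj] at h3 h4
      exact ⟨h3, h4⟩
    · have h3 := h1 (K.nrm s)
      have h4 := h2 (K.nrm s)
      simp only [if_true] at h3 h4
      rw [abs_le]
      constructor <;> linarith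

theorem PK_convex (G : Geo B) (s : K.S) : Convex ℝ (PK G s) := by
  rw [PK_eq]; exact convex_Icc _ _

theorem PK_compact (G : Geo B) (s : K.S) : IsCompact (PK G s) := by
  rw [PK_eq]; exact isCompact_Icc

theorem PK_sub (G : Geo B) (s : K.S) : PK G s ⊆ Λ := fun _ hy =>
  ss_subset (W := W) s (PK_sub_ss s hy)

theorem lf_PK (G : Geo B) : LF (fun s => PK G s) Λ := by
  intro z hz
  obtain ⟨U, hU, h⟩ := lf_ss W z hz
  refine ⟨U, hU, h.subset ?_⟩
  rintro s ⟨x, hx, hxU⟩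
  exact ⟨x, PK_sub_ss s hx, hxU⟩

theorem PK_nonempty (G : Geo B) (s : K.S) : (PK G s).Nonempty := by
  rw [PK_eq]
  refine nonempty_Icc.2 fun j => ?_
  show (if j = K.nrm s then K.slo s j - 3 / 2 * B.τ s else K.slo s j + 3 / 4 * G.p s) ≤
    (if j = K.nrm s then K.slo s j + 3 / 2 * B.τ s else K.shi s j - 3 / 4 * G.p s)
  have hτ := B.τ_pos s
  split_ifs with hj
  · linarith
  · have h1 := G.size hj
    have h2 := Geo.p_a (G := G) s
    have h3 := G.a_u s
    have h4 := Geo.p_pos (G := G) s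
    linarith

/-- at most two regions at a point -/
theorem encard_PK (G : Geo B) (y : V) : {q : K.S × Bool | y ∈ PK G q.1}.encard ≤ (2 : ℕ) := by
  classical
  by_cases hne : ∃ s, y ∈ PK G s
  · obtain ⟨s, hs⟩ := hne
    have h1 : {q : K.S × Bool | y ∈ PK G q.1} ⊆ {(s, true), (s, false)} := by
      rintro ⟨s', β⟩ hq
      have : s' = s := PK_unique hq hs
      subst this
      cases β
      · exact Or.inr rfl
      · exact Or.inl rfl
    refine (encard_le_encard h1).trans ?_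
    exact (encard_insert_le _ _).trans (by rw [encard_singleton]; norm_num)
  · have : {q : K.S × Bool | y ∈ PK G q.1} = ∅ := by
      rw [Set.eq_empty_iff_forall_notMem]
      rintro ⟨s', β⟩ hq
      exact hne ⟨s', hq⟩
    rw [this]
    simp

/-- the length of the window -/
noncomputable def wl (G : Geo B) (s : K.S) (β : Bool) : ℝ :=
  K.shi s (tg s β) - G.a s - (K.slo s (tg s β) + G.a s)

theorem wl_pos (G : Geo B) (s : K.S) (β : Bool) : 63 * G.a s < wl G s β := by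
  have h1 := G.size (tg_ne s β)
  have h2 := G.a_u s
  have h3 := G.a_pos s
  unfold wl
  linarith

/-! ### the levels -/

/-- **the levels of round P** -/
structure PLv (G : Geo B) {M : Mesh Ω} (E : Edges M) (h : ConHomeo Ω Λ) (Pr : Set M.ι)
    (sl : TBx K → Finset (ℝ × ℝ)) (η : ℝ) {τ : Type*} (A : τ → Set V) (C : Set ℝ)
    (εE : E.ε → ℝ) (μ δ : K.S → ℝ) where
  /-- the offset -/
  θ : Fin 3 → ℝ
  /-- number of levels, in both directions -/
  N : K.S → ℕ
  N' : K.S → Bool → ℕ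
  /-- the cells -/
  x : K.S → Bool → ℕ → ℝ
  /-- the levels -/
  a : K.S → Bool → ℕ → ℝ
  δ0 : ∀ s, 0 < δ s
  η0 : 0 < η
  η4 : η ≤ 1 / 4
  μw : ∀ s, μ s ≤ G.a s
  δμ : ∀ s, 8 * δ s ≤ μ s
  sq : ∀ s β β', wl G s β = wl G s β'
  pos : ∀ s, 0 < N s
  N_le : ∀ s β, N s ≤ N' s β
  cells : ∀ s β, Cells (K.slo s (tg s β) + G.a s) (K.shi s (tg s β) - G.a s) (θ (tg s β))
    (δ s) η (plT sl s (tg s β)) (N' s β) (x s β) (a s β)
  /-- few levels are lost -/
  num : ∀ s β, wl G s β ≤ N s * δ s + μ s / 2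
  /-- the cells are shifted by a small amount -/
  shift : ∀ s β, ∀ n < N s, x s β n ≤ K.slo s (tg s β) + G.a s + n * δ s + μ s / 2
  gen : Generic h.toFun (famP G M E h Pr A) Ω C θ
  crs : ∀ e, Crs h.toFun (E.a e) (E.b e) (fun q : K.S × Bool => tg q.1 q.2)
    (fun q => PK G q.1) (fun q => δ q.1) (fun q => levs (N q.1) (a q.1 q.2))
    (1 - 2 * η)⁻¹ (εE e)

theorem exists_plv (hΩ : IsOpen Ω) (G : Geo B) {M : Mesh Ω} (E : Edges M) (h : ConHomeo Ω Λ)
    (Pr : Set M.ι) (hsq : ∀ s : K.S, K.shi s (tg s false) - K.slo s (tg s false) =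
      K.shi s (tg s true) - K.slo s (tg s true)) {sl : TBx K → Finset (ℝ × ℝ)}
    (hsl : ∀ b, ∀ p ∈ sl b, p.1 ≤ p.2) {μ : K.S → ℝ} (hμ : ∀ s, 0 < μ s)
    (hμa : ∀ s, μ s ≤ G.a s)
    (hsum : ∀ s β, ∑ p ∈ plT sl s (tg s β), (p.2 - p.1) ≤ μ s / 4) {τ : Type*} {A : τ → Set V}
    (hA : ∀ t, ∀ x ∈ Ω, LocConeAt (A t) x)
    (hAlf : ∀ x ∈ Ω, ∃ U ∈ 𝓝 x, {t | (A t ∩ U).Nonempty}.Finite)
    {εE : E.ε → ℝ} (hε : ∀ e, 0 < εE e) {C : Set ℝ} (hC : C.Countable) {η : ℝ} (hη : 0 < η)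
    (hη4 : η ≤ 1 / 4) {dmax : K.S → ℝ} (hd : ∀ s, 0 < dmax s) :
    ∃ δ : K.S → ℝ, (∀ s, δ s ≤ dmax s) ∧ Nonempty (PLv G E h Pr sl η A C εE μ δ) := by
  classical
  have hcount : Countable K.S := Croft.countable_of_lf (P := fun s => PK G s)
    (fun s => PK_nonempty G s) (fun s => PK_sub G s) (lf_PK G)
  have hseg : ∀ e, segment ℝ (E.a e) (E.b e) ⊆ Ω := fun e => E.seg_sub_Ω e
  have h2η : 0 < 1 - 2 * η := by linarith
  have hK : 1 ≤ (1 - 2 * η)⁻¹ := (one_le_inv₀ h2η).2 (by linarith)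
  obtain ⟨θ, -, hgen, δ₀, hδ₀, H⟩ := Croft.exists_croft (κ := K.S × Bool) h hΩ
    (M := famP G M E h Pr A) (fun m => famP_cone hA m) (famP_lf hΩ hAlf) hseg
    (P := fun q => PK G q.1) (fun q => PK_convex G q.1)
    (fun e => ((Croft.finite_inter_image h (lf_PK G) (E.isCompact_seg e) (hseg e)).prod
      (Set.toFinite (univ : Set Bool))).subset fun q hq => ⟨hq, mem_univ _⟩)
    (fun q => Croft.finite_image_inter h hseg (fun X hX hXc => E.fin X hX hXc)
      (PK_compact G q.1) (PK_sub G q.1)) (fun q => tg q.1 q.2) hε hC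
    isOpen_univ univ_nonempty hK
  -- the spacings
  set cd : K.S → ℝ := fun s => ((plT sl s (tg s false)).card : ℝ) +
    ((plT sl s (tg s true)).card : ℝ) with hcd
  have hcd0 : ∀ s β, ((plT sl s (tg s β)).card : ℝ) ≤ cd s := fun s β => by
    have h1 : (0:ℝ) ≤ ((plT sl s (tg s false)).card : ℝ) := Nat.cast_nonneg _
    have h2 : (0:ℝ) ≤ ((plT sl s (tg s true)).card : ℝ) := Nat.cast_nonneg _
    simp only [hcd]
    cases β <;> linarith
  have hcdn : ∀ s, 0 ≤ cd s := fun s => (Nat.cast_nonneg _).trans (hcd0 s true)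
  set δ : K.S → ℝ := fun s => min (min (δ₀ (s, false)) (δ₀ (s, true))) (min (dmax s)
    (μ s / 4 / (2 * cd s + 2))) with hδ
  have hδ0 : ∀ s, 0 < δ s := fun s => lt_min (lt_min (hδ₀ _) (hδ₀ _))
    (lt_min (hd s) (div_pos (by linarith [hμ s]) (by linarith [hcdn s])))
  have hδf : ∀ q : K.S × Bool, δ q.1 ≤ δ₀ q := by
    rintro ⟨s, f⟩
    cases f
    · exact (min_le_left _ _).trans (min_le_left _ _)
    · exact (min_le_left _ _).trans (min_le_right _ _)
  have hδm : ∀ s, δ s ≤ dmax s := fun s => (min_le_right _ _).trans (min_le_left _ _)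
  have hδμ : ∀ s, (2 * cd s + 2) * δ s ≤ μ s / 4 := fun s => by
    have h1 : δ s ≤ μ s / 4 / (2 * cd s + 2) := (min_le_right _ _).trans (min_le_right _ _)
    rw [le_div_iff₀ (by linarith [hcdn s])] at h1
    linarith
  have hlh : ∀ (s : K.S) (β : Bool),
      K.slo s (tg s β) + G.a s ≤ K.shi s (tg s β) - G.a s := fun s β => by
    have h1 := wl_pos G s β
    have h2 := G.a_pos s
    unfold wl at h1
    linarith
  choose N' x a hc using fun (s : K.S) (β : Bool) =>
    Croft.exists_cells (θ (tg s β)) (hlh s β) (hδ0 s) hη (plT sl s (tg s β))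
      (plT_le hsl s (tg s β))
  -- the displacement
  have hdsp : ∀ s β, ∑ p ∈ plT sl s (tg s β), (p.2 - p.1) +
      (2 * (plT sl s (tg s β)).card + 1) * δ s ≤ μ s / 2 := fun s β => by
    have h1 := hsum s β
    have h2 := hδμ s
    have h3 : (2 * ((plT sl s (tg s β)).card : ℝ) + 1) * δ s ≤ (2 * cd s + 2) * δ s :=
      mul_le_mul_of_nonneg_right (by linarith [hcd0 s β]) (hδ0 s).le
    linarith
  have hwl : ∀ (s : K.S) (β β' : Bool), wl G s β = wl G s β' := by
    have h1 : ∀ s : K.S, wl G s false = wl G s true := fun s => by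
      have := hsq s
      unfold wl
      linarith
    intro s β β'
    cases β <;> cases β'
    · rfl
    · exact h1 s
    · exact (h1 s).symm
    · rfl
  have hnum : ∀ s β, wl G s β ≤ (N' s β) * δ s + μ s / 2 := fun s β => by
    have h1 := (hc s β).le_num
    have h2 := hdsp s β
    unfold wl
    linarith
  set N : K.S → ℕ := fun s => min (N' s false) (N' s true) with hN
  have hNle : ∀ s β, N s ≤ N' s β := fun s β => by
    cases β
    · exact min_le_left _ _
    · exact min_le_right _ _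
  have hnumN : ∀ s β, wl G s β ≤ N s * δ s + μ s / 2 := fun s β => by
    rcases min_choice (N' s false) (N' s true) with h1 | h1
    · have h2 : N s = N' s false := h1
      rw [h2, hwl s β false]
      exact hnum s false
    · have h2 : N s = N' s true := h1
      rw [h2, hwl s β true]
      exact hnum s true
  have hpos : ∀ s, 0 < N s := by
    intro s
    rcases Nat.eq_zero_or_pos (N s) with h0 | h0
    · exfalso
      have h1 := hnumN s true
      rw [h0] at h1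
      have h2 := wl_pos G s true
      have h3 := G.a_pos s
      have h4 := hμa s
      push_cast at h1
      linarith
    · exact h0
  have hL : ∀ s β, levs (N s) (a s β) ⊆ levs (N' s β) (a s β) := by
    rintro s β t ⟨k, hk, rfl⟩
    exact ⟨k, hk.trans_le (hNle s β), rfl⟩
  have Hc := H (fun q => δ q.1) (fun q => levs (N q.1) (a q.1 q.2)) (fun q => hδ0 q.1) hδf
    (fun q => by
      have h1 := (hc q.1 q.2).sepL (hδ0 q.1) hη4
      have e : δ q.1 / (1 - 2 * η)⁻¹ = (1 - 2 * η) * δ q.1 := by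
        rw [div_inv_eq_mul]; ring
      show SepL (δ q.1 / (1 - 2 * η)⁻¹) _
      rw [e]
      exact fun t ht t' ht' => h1 t (hL _ _ ht) t' (hL _ _ ht')) (fun q t ht => by
      obtain ⟨k, -, rfl⟩ := ht
      exact (hc q.1 q.2).rat k)
  refine ⟨δ, hδm, ⟨⟨θ, N, N', x, a, hδ0, hη, hη4, hμa, fun s => ?_, hwl, hpos, hNle, hc, hnumN,
    fun s β n hn => ?_, hgen, Hc⟩⟩⟩
  · have h1 := hδμ s
    have h2 : 2 * δ s ≤ (2 * cd s + 2) * δ s :=
      mul_le_mul_of_nonneg_right (by linarith [hcdn s]) (hδ0 s).le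
    linarith
  · have h1 := (hc s β).disp_le n (hn.trans_le (hNle s β))
    have h2 := hdsp s β
    have h3 := hδ0 s
    linarith

end Vale.Agent.P073.H669
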