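import Vale.Agent.P073.H669.Base

/-!
# P073, block A15-PRE, [PRE-C]: the refined partition and the partition for `NetIn2`

`Ref`: data of the refined partition `I`; `Ref.part_inet`; classification of the cubes, minimal
squares and minimal edges of `I`.
-/

namespace Vale.Agent.P073.H669

open MeasureTheory Set Filter Topology Metric Vale.Agent.P073.St Vale.Agent.P073.AB
open Vale.Agent.P073.AB.P86 Vale.Agent.P073.AB.S308
open _root_.P073.Net (dyc dyo)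
open _root_.P073.Net.NC (exists_mem fine_sub fine_sub')
open Vale.Agent.P073.H333 (lay gap core out base inet)
open Vale.Agent.P073.H193 (refine_cases q_eq dyo_sub exists_sub specRefine)
open Vale.Agent.P073.H194 (refine Big face_sub)
open Vale.Agent.P073.H73 (MinEdge)
open Gr (mem_edge edge_subset_dyc)

variable {Ω : Set V} {v : V} {n k₁ k₀ : ℕ} {J : Finset (Fin 3 → ℤ)} {z : Fin 3 → ℤ} {x : V}
  {B : Set Idx} {nf : Idx → ℕ}

/-- data of the refined partition -/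
structure Ref (Ω : Set V) (v : V) (n k₁ k₀ : ℕ) (J : Finset (Fin 3 → ℤ)) (B : Set Idx)
    (nf : Idx → ℕ) : Prop where
  fine : Fine Ω v n k₁ k₀ J
  big : Big v (base Ω v n k₁ k₀ J) (lay v n k₁ k₀ J ∪ gap v n k₁ J) B nf
  lt : ∀ b ∈ B, ∀ q ∈ out Ω v n k₁ k₀ J ∪ core v n k₁ J, dyc v b.1 b.2 ⊆ dyo v q.1 q.2 →
    b.1 < nf q

/-- the refined partition -/
def rI (Ω : Set V) (v : V) (n k₁ k₀ : ℕ) (J : Finset (Fin 3 → ℤ)) (B : Set Idx) (nf : Idx → ℕ) :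
    Set Idx :=
  refine v (base Ω v n k₁ k₀ J) (lay v n k₁ k₀ J ∪ gap v n k₁ J) B nf

/-- the fine cubes -/
def IsFine (Ω : Set V) (v : V) (n k₁ k₀ : ℕ) (J : Finset (Fin 3 → ℤ)) (B : Set Idx)
    (nf : Idx → ℕ) (r : Idx) : Prop :=
  r ∈ rI Ω v n k₁ k₀ J B nf ∧ r ∉ lay v n k₁ k₀ J ∪ gap v n k₁ J ∧ r ∉ B

/-- the kinds of the cubes of `I` -/
theorem Ref.cases (H : Ref Ω v n k₁ k₀ J B nf) {r : Idx} (hr : r ∈ rI Ω v n k₁ k₀ J B nf) :
    (r ∈ lay v n k₁ k₀ J ∨ r ∈ gap v n k₁ J) ∨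
    (r ∈ B ∧ ∃ q ∈ out Ω v n k₁ k₀ J ∪ core v n k₁ J, dyc v r.1 r.2 ⊆ dyo v q.1 q.2 ∧
      r.1 < nf q) ∨
    (IsFine Ω v n k₁ k₀ J B nf r ∧ ∃ q ∈ out Ω v n k₁ k₀ J ∪ core v n k₁ J,
      dyc v r.1 r.2 ⊆ dyc v q.1 q.2 ∧ r.1 = nf q) := by
  by_cases h1 : r ∈ lay v n k₁ k₀ J ∪ gap v n k₁ J
  · exact Or.inl h1
  by_cases h2 : r ∈ B
  · obtain ⟨q, hq, h3, -⟩ := H.big.big r h2
    rw [H.fine.diff_eq] at hq
    exact Or.inr (Or.inl ⟨h2, q, hq, h3, H.lt r h2 q hq h3⟩)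
  · rcases refine_cases H.big hr with h | ⟨q, hq, h3, h4 | h4⟩
    · exact absurd h h1
    · exact absurd h4.1 h2
    · rw [H.fine.diff_eq] at hq
      exact Or.inr (Or.inr ⟨⟨hr, h1, h2⟩, q, hq, h3, h4.1⟩)

theorem Ref.part (H : Ref Ω v n k₁ k₀ J B nf) (hΩ : IsOpen Ω) :
    Part Ω v (rI Ω v n k₁ k₀ J B nf) :=
  specRefine Ω v _ _ B nf hΩ H.fine.part_base H.big

/-- every cube of `I` is contained in a cube of the base partition -/
theorem Ref.sub_base (H : Ref Ω v n k₁ k₀ J B nf) {r : Idx} (hr : r ∈ rI Ω v n k₁ k₀ J B nf) :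
    ∃ q ∈ base Ω v n k₁ k₀ J, dyc v r.1 r.2 ⊆ dyc v q.1 q.2 := by
  rcases refine_cases H.big hr with h | ⟨q, hq, h3, -⟩
  · exact ⟨r, H.big.sub h, Subset.rfl⟩
  · exact ⟨q, hq.1, h3⟩

/-- **(Q5)** a cube of `I` which meets an open good cell is contained in it -/
theorem Ref.sub_of_meet (H : Ref Ω v n k₁ k₀ J B nf) {r : Idx}
    (hr : r ∈ rI Ω v n k₁ k₀ J B nf) (hz : z ∈ J) (hx : x ∈ dyc v r.1 r.2)
    (hx' : x ∈ dyo v n z) : dyc v r.1 r.2 ⊆ dyc v n z := by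
  obtain ⟨q, hq, hs⟩ := H.sub_base hr
  rcases base_cases hq with h | ⟨z', hz', h, -⟩
  · exact absurd hx' (Set.disjoint_left.1 (H.fine.out_disj h hz) (hs hx))
  · by_cases hzz : z' = z
    · subst hzz; exact hs.trans h
    · exact absurd hx' (Set.disjoint_left.1 (dyo_dyc_disj hzz) (h (hs hx)))

/-- a cube of `I` which is in no good cell does not meet the open good cells -/
theorem Ref.disj_dyo (H : Ref Ω v n k₁ k₀ J B nf) {r : Idx}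
    (hr : r ∈ rI Ω v n k₁ k₀ J B nf) (hn : ¬ dyc v r.1 r.2 ⊆ dyc v n z) (hz : z ∈ J) :
    Disjoint (dyc v r.1 r.2) (dyo v n z) := by
  rw [Set.disjoint_left]
  exact fun x hx hx' => hn (H.sub_of_meet hr hz hx hx')

/-- **(Q5)** position of the fine cubes -/
theorem Ref.fine_cases (H : Ref Ω v n k₁ k₀ J B nf) {r : Idx}
    (hr : IsFine Ω v n k₁ k₀ J B nf r) :
    (∃ q ∈ out Ω v n k₁ k₀ J, dyc v r.1 r.2 ⊆ dyc v q.1 q.2 ∧ r.1 = nf q) ∨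
      ∃ z ∈ J, dyc v r.1 r.2 ⊆ boxR v n k₁ z ∧
        ∃ q ∈ core v n k₁ J, dyc v r.1 r.2 ⊆ dyc v q.1 q.2 ∧ r.1 = nf q := by
  rcases H.cases hr.1 with h | ⟨h, -⟩ | ⟨-, q, hq, h3, h4⟩
  · exact absurd h hr.2.1
  · exact absurd h hr.2.2
  · rcases hq with hq | hq
    · exact Or.inl ⟨q, hq, h3, h4⟩
    · obtain ⟨h5, z, hz, h6⟩ := hq
      exact Or.inr ⟨z, hz, h3.trans h6, q, ⟨h5, z, hz, h6⟩, h3, h4⟩

/-- a fine cube in a cube of `out` does not meet the open good cells -/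
theorem Ref.fine_disj (H : Ref Ω v n k₁ k₀ J B nf) {r q : Idx} (hq : q ∈ out Ω v n k₁ k₀ J)
    (h : dyc v r.1 r.2 ⊆ dyc v q.1 q.2) (hz : z ∈ J) : Disjoint (dyc v r.1 r.2) (dyo v n z) :=
  (H.fine.out_disj hq hz).mono_left h

/-- the tiles in the good cells belong to `inet` -/
theorem Ref.tile_mem_inet {I : Set Idx} {q : Idx} (hq : q ∈ tiles Ω (n + k₁ + k₀) v) (hz : z ∈ J)
    (h : dyc v q.1 q.2 ⊆ dyc v n z) : q ∈ inet Ω v n k₁ k₀ J I := Or.inl ⟨hq, z, hz, h⟩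

/-- **(Q5)** the partition for `NetIn2` -/
theorem Ref.part_inet (H : Ref Ω v n k₁ k₀ J B nf) (hΩ : IsOpen Ω) :
    Part Ω v (inet Ω v n k₁ k₀ J (rI Ω v n k₁ k₀ J B nf)) := by
  have hT := H.fine.part
  have hI := H.part hΩ
  have mix : ∀ q ∈ tiles Ω (n + k₁ + k₀) v, ∀ z ∈ J, dyc v q.1 q.2 ⊆ dyc v n z →
      ∀ r ∈ rI Ω v n k₁ k₀ J B nf, (∀ z ∈ J, ¬ dyc v r.1 r.2 ⊆ dyc v n z) →
      Disjoint (dyo v q.1 q.2) (dyc v r.1 r.2) := by
    intro q _ z hz hqz r hr hrz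
    exact ((H.disj_dyo hr (hrz z hz) hz).symm.mono_left (dyo_sub hqz))
  refine ⟨?_, ?_, ?_, ?_⟩
  · rintro q (⟨hq, -⟩ | ⟨hq, -⟩)
    · exact hT.sub q hq
    · exact hI.sub q hq
  · intro x hx
    obtain ⟨r, hr, hxr⟩ := hI.cover x hx
    by_cases hc : ∀ z ∈ J, ¬ dyc v r.1 r.2 ⊆ dyc v n z
    · exact ⟨r, Or.inr ⟨hr, hc⟩, hxr⟩
    · push Not at hc
      obtain ⟨z, hz, hsub⟩ := hc
      obtain ⟨w, hw, hw'⟩ := exists_sub (v := v) (q := (n, z)) (n := n + k₁ + k₀)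
        (show n ≤ n + k₁ + k₀ by omega) (hsub hxr)
      exact ⟨(n + k₁ + k₀, w), Or.inl ⟨H.fine.mem_tiles hz rfl hw', z, hz, hw'⟩, hw⟩
  · rintro q (⟨hq, z, hz, hqz⟩ | ⟨hq, hq1⟩) q' (⟨hq', z', hz', hqz'⟩ | ⟨hq', hq1'⟩) hne
    · exact hT.disj q hq q' hq' hne
    · exact mix q hq z hz hqz q' hq' hq1'
    · have h1 := (mix q' hq' z' hz' hqz' q hq hq1).mono_right (dyo_sub_dyc (v := v))
      have h2 := h1.closure_left (H333.isOpen_dyo v q.1 q.2)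
      rw [H333.closure_dyo] at h2
      exact h2.symm
    · exact hI.disj q hq q' hq' hne
  · intro K hK hKc
    refine ((hT.fin K hK hKc).union (hI.fin K hK hKc)).subset ?_
    rintro q ⟨⟨hq, -⟩ | ⟨hq, -⟩, h4⟩
    · exact Or.inl ⟨hq, h4⟩
    · exact Or.inr ⟨hq, h4⟩

/-! ### Squares -/

theorem lay_disj {q : Idx} (h : q ∈ lay v n k₁ k₀ J) : q.1 = n + k₁ + k₀ ∧
    ∃ z ∈ J, dyc v q.1 q.2 ⊆ dyc v n z ∧ Disjoint (dyc v q.1 q.2) (interior (boxB v n k₁ z)) := by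
  obtain ⟨h1, z, hz, h2, h3⟩ := h
  exact ⟨h1, z, hz, h2, disj_int_boxB (by omega) h3⟩

theorem gap_disj {q : Idx} (h : q ∈ gap v n k₁ J) : q.1 = n + k₁ ∧
    ∃ z ∈ J, dyc v q.1 q.2 ⊆ boxB v n k₁ z ∧
      Disjoint (dyc v q.1 q.2) (interior (boxR v n k₁ z)) := by
  obtain ⟨h1, z, hz, h2, h3⟩ := h
  exact ⟨h1, z, hz, h2, disj_int_boxR h1.ge h3⟩

/-- **(Q1)** the minimal squares -/
theorem Ref.minSq (H : Ref Ω v n k₁ k₀ J B nf) (hΩ : IsOpen Ω) {s : Idx × Fin 3}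
    (hs : MinSq v (rI Ω v n k₁ k₀ J B nf) s) :
    (∃ r, IsFine Ω v n k₁ k₀ J B nf r ∧ FaceOf s r) ∨
    (s.1.1 = n + k₁ + k₀ ∧ ∃ z ∈ J, squ v s ⊆ dyc v n z ∧
      Disjoint (squ v s) (interior (boxB v n k₁ z))) ∨
    (s.1.1 = n + k₁ ∧ ∃ z ∈ J, squ v s ⊆ boxB v n k₁ z ∧
      Disjoint (squ v s) (interior (boxR v n k₁ z))) := by
  obtain ⟨r, hr, hf⟩ := hs.1
  rcases H.cases hr with (h | h) | ⟨hB, q, hq, h3, h4⟩ | ⟨h, -⟩
  · obtain ⟨h1, z, hz, h2, h3⟩ := lay_disj h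
    exact Or.inr (Or.inl ⟨hf.1.trans h1, z, hz, (face_sub hf).trans h2,
      h3.mono_left (face_sub hf)⟩)
  · obtain ⟨h1, z, hz, h2, h3⟩ := gap_disj h
    exact Or.inr (Or.inr ⟨hf.1.trans h1, z, hz, (face_sub hf).trans h2,
      h3.mono_left (face_sub hf)⟩)
  · exfalso
    rw [← H.fine.diff_eq] at hq
    have h5 := H194.gen_ge hΩ H.fine.part_base H.big hs hq
      ((face_sub hf).trans (h3.trans dyo_sub_dyc))
    rw [hf.1] at h5
    omega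
  · exact Or.inl ⟨r, h, hf⟩

/-! ### Edges -/

/-- the edges of the big cells are not minimal -/
theorem Ref.big_edge (H : Ref Ω v n k₁ k₀ J B nf) {b q : Idx} (hb : b ∈ B)
    (hq : q ∈ out Ω v n k₁ k₀ J ∪ core v n k₁ J) (hbq : dyc v b.1 b.2 ⊆ dyo v q.1 q.2)
    (hlt : b.1 < nf q) {e : Idx × Fin 3} (he : EdgeOf e b) :
    ∃ e' : Idx × Fin 3, (∃ r ∈ rI Ω v n k₁ k₀ J B nf, EdgeOf e' r) ∧ e.1.1 < e'.1.1 ∧
      edge v e' ⊆ edge v e := by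
  have hq' := hq
  rw [← H.fine.diff_eq] at hq'
  have hqn : q.1 ≤ nf q := H.big.gen q hq'
  obtain ⟨⟨m, w⟩, k⟩ := e
  obtain ⟨hm, hk, hj⟩ := he
  simp only at hm hk hj
  subst hm
  obtain ⟨d, hd⟩ := Nat.exists_eq_add_of_le hlt.le
  have hd2 : (0:ℝ) < 2 ^ d := by positivity
  have hb2 : (0:ℝ) < 2 ^ b.1 := by positivity
  have hN2 : (2:ℝ) ^ nf q = 2 ^ b.1 * 2 ^ d := by rw [hd, pow_add]
  have hN0 : (0:ℝ) < 2 ^ nf q := by positivity
  have hscale : ∀ a : ℤ, ((2 ^ d * a : ℤ) : ℝ) / 2 ^ nf q = a / 2 ^ b.1 := by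
    intro a
    rw [hN2]; push_cast
    field_simp
  obtain ⟨j₀, hj₀⟩ := _root_.exists_ne k
  set w' : Fin 3 → ℤ := fun i => 2 ^ d * w i with hw'
  set r' : Fin 3 → ℤ := fun i => if i = j₀ then (if w j₀ = b.2 j₀ then 2 ^ d * w j₀ - 1 else
    2 ^ d * w j₀) else 2 ^ d * w i with hr'
  have hr'k : ∀ i, i ≠ j₀ → r' i = w' i := fun i hi => by simp only [hr', if_neg hi, hw']
  have hr'j : ∀ i, w' i = r' i ∨ w' i = r' i + 1 := by
    intro i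
    by_cases hi : i = j₀
    · subst hi
      simp only [hr', if_pos rfl, hw']
      by_cases h : w i = b.2 i
      · right; rw [if_pos h]; ring
      · left; rw [if_neg h]
    · left; exact (hr'k i hi).symm
  have hedge : EdgeOf ((nf q, w'), k) (nf q, r') :=
    ⟨rfl, (hr'k k hj₀.symm).symm, fun i _ => hr'j i⟩
  -- the corner
  set p : V := pt v b.1 w with hp
  have hpe : p ∈ edge v ((b.1, w), k) := left_mem_segment ℝ _ _
  have hpb : p ∈ dyc v b.1 b.2 := edge_subset_dyc (q := b) ⟨rfl, hk, hj⟩ hpe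
  have hpr : p ∈ dyc v (nf q) r' := by
    intro i
    have h1 : p i = v i + ((w' i : ℤ) : ℝ) / 2 ^ nf q := by
      simp only [hw', hp, pt]
      rw [hscale]
    have h2 : (0:ℝ) < 1 / 2 ^ nf q := by positivity
    rw [h1, div_add_one]
    rcases hr'j i with h | h
    · rw [h]; constructor <;> linarith
    · rw [h]; push_cast; rw [div_add_one]; constructor <;> linarith
  refine ⟨((nf q, w'), k), ⟨(nf q, r'), ?_, hedge⟩, hlt, ?_⟩
  · refine Or.inr ⟨q, hq', rfl, sub_of_dyo hqn hpr (hbq hpb), fun b' hb' hsub => ?_⟩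
    by_cases hbb : b' = b
    · subst hbb
      have h1 := hsub (dyo_sub_dyc (cen_mem v (nf q) r')) j₀
      have h2 : cen v (nf q) r' j₀ = v j₀ + (r' j₀ + 1 / 2) / 2 ^ nf q := rfl
      rw [h2] at h1
      have h3 := hscale (w j₀)
      have h4 : (0:ℝ) < 1 / 2 / 2 ^ nf q := by positivity
      by_cases h : w j₀ = b'.2 j₀
      · have h5 : ((r' j₀ : ℤ) : ℝ) = ((2 ^ d * w j₀ : ℤ) : ℝ) - 1 := by
          simp only [hr', if_pos rfl]
          rw [if_pos h]; push_cast; ring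
        have h6 : ((r' j₀ : ℤ) + 1 / 2 : ℝ) / 2 ^ nf q = w j₀ / 2 ^ b'.1 - 1 / 2 / 2 ^ nf q := by
          rw [h5, ← h3]; ring
        rw [h6, ← h] at h1
        linarith [h1.1]
      · have h7 : w j₀ = b'.2 j₀ + 1 := (hj j₀ hj₀).resolve_left h
        have h5 : ((r' j₀ : ℤ) : ℝ) = ((2 ^ d * w j₀ : ℤ) : ℝ) := by
          simp only [hr', if_pos rfl]
          rw [if_neg h]
        have h6 : ((r' j₀ : ℤ) + 1 / 2 : ℝ) / 2 ^ nf q = w j₀ / 2 ^ b'.1 + 1 / 2 / 2 ^ nf q := by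
          rw [h5, ← h3]; ring
        rw [h6, h7] at h1
        push_cast at h1
        linarith [h1.2]
    · exact Set.disjoint_left.1 (H.big.disj b' hb' b hb hbb) (hsub hpr) hpb
  · intro y hy
    rw [mem_edge] at hy ⊢
    obtain ⟨h1, h2, h3⟩ := hy
    simp only at h1 h2 h3 ⊢
    have e1 : ∀ i, ((w' i : ℤ) : ℝ) / 2 ^ nf q = w i / 2 ^ b.1 := fun i => by
      simp only [hw']; exact hscale (w i)
    refine ⟨fun j hj => ?_, ?_, ?_⟩
    · rw [h1 j hj, e1]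
    · rw [← e1]; exact h2
    · refine h3.trans ?_
      rw [div_add_one, div_add_one, e1]
      have : (1:ℝ) / 2 ^ nf q ≤ 1 / 2 ^ b.1 := by
        rw [one_div_le_one_div hN0 hb2]
        exact pow_le_pow_right₀ (by norm_num) hlt.le
      linarith

/-- **(Q2)** the minimal edges -/
theorem Ref.minEdge (H : Ref Ω v n k₁ k₀ J B nf) {e : Idx × Fin 3}
    (he : MinEdge v (rI Ω v n k₁ k₀ J B nf) e) :
    (∃ r, IsFine Ω v n k₁ k₀ J B nf r ∧ EdgeOf e r) ∨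
    (e.1.1 = n + k₁ + k₀ ∧ ∃ z ∈ J, edge v e ⊆ dyc v n z ∧
      Disjoint (edge v e) (interior (boxB v n k₁ z))) ∨
    (e.1.1 = n + k₁ ∧ ∃ z ∈ J, edge v e ⊆ boxB v n k₁ z ∧
      Disjoint (edge v e) (interior (boxR v n k₁ z))) := by
  obtain ⟨r, hr, hf⟩ := he.1
  rcases H.cases hr with (h | h) | ⟨hB, q, hq, h3, h4⟩ | ⟨h, -⟩
  · obtain ⟨h1, z, hz, h2, h3⟩ := lay_disj h
    exact Or.inr (Or.inl ⟨hf.1.trans h1, z, hz, (edge_subset_dyc hf).trans h2,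
      h3.mono_left (edge_subset_dyc hf)⟩)
  · obtain ⟨h1, z, hz, h2, h3⟩ := gap_disj h
    exact Or.inr (Or.inr ⟨hf.1.trans h1, z, hz, (edge_subset_dyc hf).trans h2,
      h3.mono_left (edge_subset_dyc hf)⟩)
  · obtain ⟨e', h5, h6, h7⟩ := H.big_edge hB hq h3 h4 hf
    exact absurd h7 (he.2 e' h5 h6)
  · exact Or.inl ⟨r, h, hf⟩

/-- **(Q3)** the edges of `I` and the partition for `NetIn2` -/
theorem Ref.edge_inet (H : Ref Ω v n k₁ k₀ J B nf) {e : Idx × Fin 3} {r : Idx}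
    (hr : r ∈ rI Ω v n k₁ k₀ J B nf) (he : EdgeOf e r) :
    ((∃ r ∈ inet Ω v n k₁ k₀ J (rI Ω v n k₁ k₀ J B nf), EdgeOf e r) ∧
      ∀ z ∈ J, Disjoint (edge v e) (interior (boxB v n k₁ z))) ∨
    (∃ z ∈ J, edge v e ⊆ boxR v n k₁ z) ∨
    (e.1.1 = n + k₁ ∧ ∃ z ∈ J, edge v e ⊆ boxB v n k₁ z ∧
      Disjoint (edge v e) (interior (boxR v n k₁ z))) := by
  have hes := edge_subset_dyc (v := v) he
  have hBo : ∀ z, interior (boxB v n k₁ z) ⊆ dyo v n z := fun z =>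
    interior_subset.trans (boxB_sub_dyo z)
  by_cases hc : ∀ z ∈ J, ¬ dyc v r.1 r.2 ⊆ dyc v n z
  · exact Or.inl ⟨⟨r, Or.inr ⟨hr, hc⟩, he⟩, fun z hz =>
      (H.disj_dyo hr (hc z hz) hz).mono hes (hBo z)⟩
  push Not at hc
  obtain ⟨z, hz, hrz⟩ := hc
  have core' : ∀ q ∈ out Ω v n k₁ k₀ J ∪ core v n k₁ J, dyc v r.1 r.2 ⊆ dyc v q.1 q.2 →
      ∃ z ∈ J, edge v e ⊆ boxR v n k₁ z := by
    rintro q (hq | ⟨-, z', hz', h2⟩) hs
    · exfalso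
      exact Set.disjoint_left.1 (H.fine.out_disj hq hz)
        (hs (dyo_sub_dyc (cen_mem v r.1 r.2))) (dyo_sub hrz (cen_mem v r.1 r.2))
    · exact ⟨z', hz', hes.trans (hs.trans h2)⟩
  rcases H.cases hr with (h | h) | ⟨hB, q, hq, h3, -⟩ | ⟨-, q, hq, h3, -⟩
  · obtain ⟨h1, z', hz', h2, h3⟩ := lay_disj h
    refine Or.inl ⟨⟨r, Or.inl ⟨H.fine.mem_tiles hz' h1 h2, z', hz', h2⟩, he⟩, fun z'' hz'' => ?_⟩
    by_cases hzz : z' = z''
    · subst hzz; exact h3.mono_left hes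
    · exact (dyo_dyc_disj hzz).mono (hes.trans h2) (hBo z'')
  · obtain ⟨h1, z', hz', h2, h3⟩ := gap_disj h
    exact Or.inr (Or.inr ⟨he.1.trans h1, z', hz', hes.trans h2, h3.mono_left hes⟩)
  · exact Or.inr (Or.inl (core' q hq (h3.trans dyo_sub_dyc)))
  · exact Or.inr (Or.inl (core' q hq h3))

end Vale.Agent.P073.H669
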