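import Vale.Agent.P073.H669.TLevB
import Vale.Agent.P073.H236.HFam

/-!
# P073, H669: **[T-LEV]**, part 3: mesh coordinates as slivers, staircases with small displacement
-/

open Set Metric Topology Filter
open scoped ENNReal

namespace Vale.Agent.P073.H669

open _root_.P073 _root_.P073.TR _root_.P073.Net _root_.P073.PA691
open _root_.P073.PR720 (LF)
open Vale.Agent.P073.St (V)
open Vale.Agent.P073.H471 Vale.Agent.P073.H267 Vale.Agent.P073.H267.Geo
open Vale.Agent.P073.H73 (Mesh)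
open Vale.Agent.P073.H193 (Edges)
open Vale.Agent.P073.H238 (oT)
open _root_.P073.H236 (BX Lvs BFam stp dsp HX HFam L1)

variable {Ω Λ : Set V} {v : V} {K : BoxCx Λ v} {S : Rad K} {W : Wid K S} {B : Boxes W}
  {G : Geo B} {M : Mesh Ω} {E : Edges M} {h h' : ConHomeo Ω Λ} {ω : TBx K → ℝ}
  {T : TBx K → Finset (ℝ × ℝ)} {η : ℝ} {τ : Type*} {A : τ → Set V} {C : Set ℝ} {εE : E.ε → ℝ}
  {δ : TBx K → ℝ}

/-- the points of `V` as slivers -/
noncomputable def pts (V₀ : TBx K → Finset ℝ) (b : TBx K) : Finset (ℝ × ℝ) :=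
  (V₀ b).image fun v => (v, v)

theorem pts_le (V₀ : TBx K → Finset ℝ) (b : TBx K) : ∀ p ∈ pts V₀ b, p.1 ≤ p.2 := by
  intro p hp
  obtain ⟨v, -, rfl⟩ := Finset.mem_image.1 hp
  exact le_rfl

theorem pts_sum (V₀ : TBx K → Finset ℝ) (b : TBx K) : ∑ p ∈ pts V₀ b, (p.2 - p.1) = 0 := by
  refine Finset.sum_eq_zero fun p hp => ?_
  obtain ⟨v, -, rfl⟩ := Finset.mem_image.1 hp
  exact sub_self _

/-- the displacement for point slivers -/
theorem dsp_pts (V₀ : TBx K → Finset ℝ) (b : TBx K) (d : ℝ) :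
    dsp (pts V₀ b) d = (2 * (pts V₀ b).card + 1) * d := by
  unfold dsp
  rw [pts_sum, zero_add]

/-- the slivers are allowed in `exists_tlv` -/
theorem pts_lt (G : Geo B) (V₀ : TBx K → Finset ℝ) {ω : TBx K → ℝ} (ω0 : ∀ b, 0 < ω b)
    (ωo : ∀ b, ω b ≤ oT G b) (b : TBx K) : ∑ p ∈ pts V₀ b, (p.2 - p.1) <
      G.thi true b b.ax - 30 * ω b - (G.tlo true b b.ax + 30 * ω b) := by
  rw [pts_sum]
  have h1 := win G b
  have h2 := ω0 b
  have h3 := ωo b
  linarith

namespace TLv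

variable (L : TLv G E h ω T η A C εE δ)

/-- the levels are far from the point slivers -/
theorem far {b : TBx K} {v₀ : ℝ} (hv : (v₀, v₀) ∈ T b) {k : ℕ} (hk : k < L.N b) :
    δ b / 4 < |v₀ - L.a b k| := by
  have h1 := (L.cells b).lt_a (L.δ0 b) L.η4 k
  have h2 := L.δ0 b
  rcases (L.cells b).sliver k hk _ hv with h3 | h3
  · have h4 : L.x b k + δ b ≤ v₀ := h3
    rw [abs_of_pos (by linarith [h1.2])]
    linarith [h1.2]
  · have h4 : v₀ ≤ L.x b k := h3
    rw [abs_of_neg (by linarith [h1.1])]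
    linarith [h1.1]

theorem far_pts {V₀ : TBx K → Finset ℝ} (L : TLv G E h ω (pts V₀) η A C εE δ) {b : TBx K}
    {v₀ : ℝ} (hv : v₀ ∈ V₀ b) {k : ℕ} (hk : k < L.N b) : δ b / 4 < |v₀ - L.a b k| :=
  L.far (Finset.mem_image.2 ⟨v₀, hv, rfl⟩) hk

/-- slivers of positive length: the flats of the levels miss them -/
theorem far_sliver {b : TBx K} {p : ℝ × ℝ} (hp : p ∈ T b) {k : ℕ} (hk : k < L.N b) {t : ℝ}
    (ht : t ∈ Icc p.1 p.2) : δ b / 4 < |t - L.a b k| := by
  have h1 := (L.cells b).lt_a (L.δ0 b) L.η4 k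
  have h2 := L.δ0 b
  rcases (L.cells b).sliver k hk _ hp with h3 | h3
  · rw [abs_of_pos (by linarith [h1.2, ht.1])]
    linarith [h1.2, ht.1]
  · rw [abs_of_neg (by linarith [h1.1, ht.2])]
    linarith [h1.1, ht.2]

section

variable {c : TBx K → ℝ} (hc0 : ∀ b, 0 < c b) (hc : ∀ b, c b ≤ δ b / 8)

include L in
theorem dsp_nonneg (b : TBx K) : 0 ≤ dsp (T b) (δ b) := by
  have h1 := (L.cells b).disp_nonneg 0 (L.pos b)
  have h2 := (L.cells b).disp_le 0 (L.pos b)
  have h3 := L.δ0 b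
  unfold dsp
  have h4 : (2 * ((T b).card : ℝ) + 1) * δ b = 2 * (T b).card * δ b + δ b := by ring
  rw [h4]
  linarith

include hc0 hc in
/-- **staircases with small displacement**: the targets are uniform cells of length `δ b` from
`tlo true b b.ax + 30 ω b` on, the end pieces are not filled -/
theorem l1' {e : ℝ} {b : TBx K} (he : 0 < e) (he2 : 2 * e < δ b) :
    L1 (G.tlo true b b.ax) (G.thi true b b.ax)
      (_root_.P073.H236.sm (L.N b) (L.a b) (c b) (G.tlo true b b.ax) (G.thi true b b.ax)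
        (G.tlo true b b.ax + 30 * ω b) (δ b) e)
      (_root_.P073.H236.smi (L.N b) (L.a b) (c b) (G.tlo true b b.ax) (G.thi true b b.ax)
        (G.tlo true b b.ax + 30 * ω b) (δ b) e) :=
  L1.of_sm ((L.lev236 c hc0 hc).lvs b) (_root_.P073.H236.Tgt.of_cells (L.cells b) he he2
    (by linarith [L.ω0 b]) (by linarith [L.ω0 b]))

include hc0 hc in
theorem disp' {e : ℝ} {b : TBx K} (he : 0 < e) (he2 : 2 * e < δ b) (t : ℝ) :
    |_root_.P073.H236.sm (L.N b) (L.a b) (c b) (G.tlo true b b.ax) (G.thi true b b.ax)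
      (G.tlo true b b.ax + 30 * ω b) (δ b) e t - t| ≤ dsp (T b) (δ b) :=
  _root_.P073.H236.abs_sm_sub_self_le_dsp (L.cells b) (L.δ0 b) L.η4 (hc0 b) (hc b)
    ((L.lev236 c hc0 hc).lvs b) he he2 (L.dsp_nonneg b) t

/-- the family of these staircases -/
noncomputable def hfam (e : TBx K → ℝ) (he : ∀ b, 0 < e b) (he2 : ∀ b, 2 * e b < δ b) :
    HFam 3 (TBx K) Λ where
  X := fun b =>
    { j := b.ax
      al := G.tlo true b b.ax
      be := G.thi true b b.ax
      k := _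
      k' := _
      l1 := L.l1' hc0 hc (he b) (he2 b)
      hab := (L.bxQ c hc0 hc b).al_lt_be.le
      lo := (L.bxQ c hc0 hc b).lo
      hi := (L.bxQ c hc0 hc b).hi
      r := (L.bxQ c hc0 hc b).r
      hr := (L.bxQ c hc0 hc b).hr
      D := dsp (T b) (δ b)
      hD := L.disp' hc0 hc (he b) (he2 b) }
  sub := fun b => (L.K_sub hc0 hc b).trans (TB_sub b)
  lf := fun z hz => by
    obtain ⟨U, hU, hf⟩ := lf_TB G z hz
    refine ⟨U, hU, hf.subset ?_⟩
    rintro b ⟨x, hx, hxU⟩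
    exact ⟨x, L.K_sub hc0 hc b hx, hxU⟩
  dis := fun b b' hne => (disjoint_TB (G := G) hne).mono (interior_mono (L.K_sub hc0 hc b))
    (L.K_sub hc0 hc b')

end

end TLv

end Vale.Agent.P073.H669
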