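import Vale.Agent.P073.H669.RTLev
import Vale.Agent.P073.H605.MBU

/-!
# P073, H669: **[GAM-LEV]** product structures of the bands of all levels of round T

`Cht h C j t η`: product structures of the band `[t - η, t + η]` of the coordinate `j` of `h` on `C`.
`GamOk`: the properties of these structures.  `exists_gamLev`: one constant `Lb b` for every box, and
one bound `dmax b` for the spacing, such that all levels have a product structure.  `gamF`: the form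
`Γ : G₀ → ℕ → V × ℝ → V`.
-/

open Set Metric Topology Filter
open scoped ENNReal

namespace Vale.Agent.P073.H669

open _root_.P073 _root_.P073.TR _root_.P073.Net _root_.P073.PA691
open Vale.Agent.P073.St (V)
open Vale.Agent.P073.H471 Vale.Agent.P073.H267 Vale.Agent.P073.H267.Geo
open Vale.Agent.P073.H73 (Mesh)
open Vale.Agent.P073.H193 (Edges)
open Vale.Agent.P073.H238 (oT)
open _root_.P073.H936 (lev band bnd)
open _root_.P073.H805 (Reg)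
open _root_.P073.H605 (Retr exists_mbU)

variable {Ω Λ : Set V}

/-- the type of the product structures of a band -/
abbrev Cht (h : ConHomeo Ω Λ) (C : Set V) (j : Fin 3) (t η : ℝ) : Type :=
  ConHomeo (lev C (fun x => h.toFun x j) t ×ˢ Icc (-1:ℝ) 1) (band C (fun x => h.toFun x j) t η)

/-- **the properties of a product structure**; `L` is the Lipschitz constant on the sets `Q ∈ Qs` -/
structure GamOk (h : ConHomeo Ω Λ) (C : Set V) (j : Fin 3) {ι : Type*} (Mf : ι → Set V)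
    (Qs : Set (Set V)) (L t η : ℝ) (Γ : Cht h C j t η) : Prop where
  level : ∀ z ∈ lev C (fun x => h.toFun x j) t, ∀ s ∈ Icc (-1:ℝ) 1,
    h.toFun (Γ.toFun (z, s)) j = t + η * s
  zero : ∀ z ∈ lev C (fun x => h.toFun x j) t, Γ.toFun (z, 0) = z
  inv : ∀ i, ∀ z ∈ lev C (fun x => h.toFun x j) t, ∀ s ∈ Icc (-1:ℝ) 1,
    (Γ.toFun (z, s) ∈ Mf i ↔ z ∈ Mf i)
  lip : ∀ Q ∈ Qs, ∀ x ∈ band C (fun x => h.toFun x j) t η, x ∈ Q → ∀ᶠ y in 𝓝[Q] x,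
    ∀ s ∈ Icc (-1:ℝ) 1, y ∈ band C (fun x => h.toFun x j) t η →
      ‖Γ.toFun ((Γ.invFun y).1, s) - Γ.toFun ((Γ.invFun x).1, s)‖ ≤ L * ‖y - x‖
  fib : ∀ z ∈ lev C (fun x => h.toFun x j) t, ∀ s ∈ Icc (-1:ℝ) 1,
    ∀ s' ∈ Icc (-1:ℝ) 1, ‖Γ.toFun (z, s) - Γ.toFun (z, s')‖ ≤ L * (η * |s - s'|)

theorem GamOk.mono {h : ConHomeo Ω Λ} {C : Set V} {j : Fin 3} {ι : Type*} {Mf : ι → Set V}
    {Qs : Set (Set V)} {L L' t η : ℝ} {Γ : Cht h C j t η} (hη : 0 ≤ η)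
    (H : GamOk h C j Mf Qs L t η Γ) (hL : L ≤ L') : GamOk h C j Mf Qs L' t η Γ where
  level := H.level
  zero := H.zero
  inv := H.inv
  lip := fun Q hQ x hx hxQ => by
    filter_upwards [H.lip Q hQ x hx hxQ] with y hy s hs hyb
    exact (hy s hs hyb).trans (mul_le_mul_of_nonneg_right hL (norm_nonneg _))
  fib := fun z hz s hs s' hs' => (H.fib z hz s hs s' hs').trans
    (mul_le_mul_of_nonneg_right hL (mul_nonneg hη (abs_nonneg _)))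

/-- H605's theorem, for a set with a retraction -/
theorem exists_gamOk {h : ConHomeo Ω Λ} {C : Set V} {j : Fin 3} {ι : Type*} {Mf : ι → Set V}
    {Qs : Set (Set V)} (hC : IsCompact C) (hCΩ : C ⊆ Ω) (hCc : ConicalSet C) (i₀ : ι)
    (hi₀ : Mf i₀ = C) {r : V → V} (hr : Retr C r) (hQ : ∀ Q ∈ Qs, Q ⊆ C) {p : ℝ × ℝ} {w : ℝ}
    (hw : 0 < w) (hp : p.1 ≤ p.2)
    (hreg : ∀ x ∈ C, h.toFun x j ∈ Icc (p.1 - w / 2) (p.2 + w / 2) →
      Reg (fun y => h.toFun y j) Mf x) :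
    ∃ L : ℝ, 0 ≤ L ∧ ∀ t η, 0 < η → p.1 ≤ t - η → t + η ≤ p.2 →
      ∃ Γ : Cht h C j t η, GamOk h C j Mf Qs L t η Γ := by
  have hu : ContinuousOn (fun x => h.toFun x j) C :=
    (continuous_apply j).comp_continuousOn (h.cont.mono hCΩ)
  have huc : ConicalOn (fun x => h.toFun x j) C :=
    (conicalOn_coord j).comp (h.conical.mono hCc hCΩ) (fun _ _ => mem_univ _) (h.cont.mono hCΩ)
  obtain ⟨L, hL, H⟩ := exists_mbU hC i₀ hi₀ hu huc hr (a := p.1 - w / 2) (b := p.2 + w / 2)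
    (a' := p.1) (b' := p.2) (by linarith) hp (by linarith)
    (fun x hx => hreg x hx.1 hx.2)
  refine ⟨L, hL, fun t η hη h1 h2 => ?_⟩
  obtain ⟨Γ, g1, g2, g3, g4, g5⟩ := H t η hη h1 h2
  exact ⟨Γ, ⟨g1, g2, g3, fun Q hQ' x hx _ => nhdsWithin_mono x (hQ Q hQ') (g4 x hx), g5⟩⟩

/-- uniform continuity near a compact set -/
theorem exists_unif_r (hΩ : IsOpen Ω) (h : ConHomeo Ω Λ) {X : Set V} (hX : IsCompact X)
    (hXΩ : X ⊆ Ω) {lam : ℝ} (hl : 0 < lam) :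
    ∃ r > 0, ∀ x ∈ X, ∀ y, ‖y - x‖ ≤ r → y ∈ Ω ∧ ‖h.toFun y - h.toFun x‖ ≤ lam := by
  obtain ⟨ρ, hρ, hsub⟩ := hX.exists_cthickening_subset_open hΩ hXΩ
  have hc : IsCompact (cthickening ρ X) := hX.cthickening
  have huc := hc.uniformContinuousOn_of_continuous (h.cont.mono hsub)
  rw [Metric.uniformContinuousOn_iff] at huc
  obtain ⟨d, hd, H⟩ := huc lam hl
  refine ⟨min ρ (d / 2), lt_min hρ (by positivity), fun x hx y hy => ?_⟩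
  have hy1 : ‖y - x‖ ≤ ρ := hy.trans (min_le_left _ _)
  have hy2 : ‖y - x‖ ≤ d / 2 := hy.trans (min_le_right _ _)
  have hyc : y ∈ cthickening ρ X := mem_cthickening_of_dist_le y x ρ X hx (by
    rw [dist_eq_norm]; exact hy1)
  have hxc : x ∈ cthickening ρ X := self_subset_cthickening X hx
  refine ⟨hsub hyc, ?_⟩
  have := H y hyc x hxc (by rw [dist_eq_norm]; linarith)
  rw [dist_eq_norm] at this
  exact this.le

variable {v : V} {K : BoxCx Λ v} {S : Rad K} {W : Wid K S} {B : Boxes W} {G : Geo B}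
  {h : ConHomeo Ω Λ} {X : TBx K → Set V} {τ' : Type*} {Fm : τ' → Set V}
  {V₀ : TBx K → Finset ℝ} {σ : TBx K → ℝ}

/-- **one constant for every box** -/
theorem exists_gam (P : RTPre G h X Fm V₀ σ) (G₀ : Set (TBx K))
    (Φ : ∀ (b : TBx K) (L t η : ℝ), Cht h (X b) b.ax t η → Prop)
    (hmono : ∀ b L L' t η Γ, 0 < η → L ≤ L' → Φ b L t η Γ → Φ b L' t η Γ)
    (hΓ : ∀ b ∈ G₀, ∀ p ∈ P.I b, ∃ L : ℝ, 0 ≤ L ∧ ∀ t η, 0 < η → p.1 ≤ t - η → t + η ≤ p.2 →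
      ∃ Γ : Cht h (X b) b.ax t η, Φ b L t η Γ) :
    ∃ Lb : TBx K → ℝ, (∀ b, 0 ≤ Lb b) ∧ ∀ b ∈ G₀, ∀ p ∈ P.I b, ∀ t η, 0 < η → p.1 ≤ t - η →
      t + η ≤ p.2 → ∃ Γ : Cht h (X b) b.ax t η, Φ b (Lb b) t η Γ := by
  classical
  have key : ∀ b (p : ℝ × ℝ), ∃ L : ℝ, 0 ≤ L ∧ (b ∈ G₀ → p ∈ P.I b →
      ∀ t η, 0 < η → p.1 ≤ t - η → t + η ≤ p.2 → ∃ Γ : Cht h (X b) b.ax t η, Φ b L t η Γ) := by
    intro b p
    by_cases hb : b ∈ G₀ ∧ p ∈ P.I b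
    · obtain ⟨L, hL, H⟩ := hΓ b hb.1 p hb.2
      exact ⟨L, hL, fun _ _ => H⟩
    · exact ⟨0, le_rfl, fun h1 h2 => absurd ⟨h1, h2⟩ hb⟩
  choose L hL H using key
  refine ⟨fun b => ∑ p ∈ P.I b, L b p, fun b => Finset.sum_nonneg fun p _ => hL b p,
    fun b hb p hp t η hη h1 h2 => ?_⟩
  obtain ⟨Γ, hΓ'⟩ := H b p hb hp t η hη h1 h2
  exact ⟨Γ, hmono b _ _ t η Γ hη
    (Finset.single_le_sum (f := fun p => L b p) (fun p _ => hL b p) hp) hΓ'⟩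

/-- **[GAM-LEV]**: the constants `Lb`, the bound `dmax` of the spacing; then product structures for
all levels -/
theorem exists_gamLev (hΩ : IsOpen Ω) (P : RTPre G h X Fm V₀ σ) (hX : ∀ b, IsCompact (X b))
    (hXΩ : ∀ b, X b ⊆ Ω) (G₀ : Set (TBx K))
    (Φ : ∀ (b : TBx K) (L t η : ℝ), Cht h (X b) b.ax t η → Prop)
    (hmono : ∀ b L L' t η Γ, 0 < η → L ≤ L' → Φ b L t η Γ → Φ b L' t η Γ)
    (hfib : ∀ b ∈ G₀, ∀ L t η Γ, Φ b L t η Γ → ∀ z ∈ lev (X b) (fun x => h.toFun x b.ax) t,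
      ∀ s ∈ Icc (-1:ℝ) 1, ∀ s' ∈ Icc (-1:ℝ) 1,
        ‖Γ.toFun (z, s) - Γ.toFun (z, s')‖ ≤ L * (η * |s - s'|))
    (hΓ : ∀ b ∈ G₀, ∀ p ∈ P.I b, ∃ L : ℝ, 0 ≤ L ∧ ∀ t η, 0 < η → p.1 ≤ t - η → t + η ≤ p.2 →
      ∃ Γ : Cht h (X b) b.ax t η, Φ b L t η Γ) {lam : TBx K → ℝ} (hlam : ∀ b, 0 < lam b) :
    ∃ Lb dmax : TBx K → ℝ, (∀ b, 0 ≤ Lb b) ∧ (∀ b, 0 < dmax b) ∧
      (∀ b ∈ G₀, ∀ t η Γ, 0 < η → η ≤ dmax b → Φ b (Lb b) t η Γ →
        ∀ z ∈ lev (X b) (fun x => h.toFun x b.ax) t, ∀ s ∈ Icc (-1:ℝ) 1, ∀ s' ∈ Icc (-1:ℝ) 1,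
          ‖Γ.toFun (z, s) - Γ.toFun (z, s')‖ ≤ lam b ∧
          ‖h.toFun (Γ.toFun (z, s)) - h.toFun (Γ.toFun (z, s'))‖ ≤ lam b) ∧
      ∀ {M : Mesh Ω} {E : Edges M} {ω : TBx K → ℝ} {η₁ : ℝ} {τ : Type*} {A : τ → Set V}
        {C : Set ℝ} {εE : E.ε → ℝ} {δ : TBx K → ℝ} (L : TLv G E h ω P.T η₁ A C εE δ)
        (η : TBx K → ℝ), (∀ b, 0 < η b) → (∀ b, η b ≤ δ b / 4) →
        ∃ Γ : ∀ (b : G₀) (m : Fin (L.N b.1)), Cht h (X b.1) b.1.ax (L.a b.1 m) (η b.1),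
          ∀ (b : G₀) (m : Fin (L.N b.1)), Φ b.1 (Lb b.1) (L.a b.1 m) (η b.1) (Γ b m) := by
  obtain ⟨Lb, hLb, H⟩ := exists_gam P G₀ Φ hmono hΓ
  choose r hr0 hr using fun b => exists_unif_r hΩ h (hX b) (hXΩ b) (hlam b)
  refine ⟨Lb, fun b => min (r b) (lam b) / (2 * (Lb b + 1)), hLb,
    fun b => div_pos (lt_min (hr0 b) (hlam b)) (by have := hLb b; positivity), ?_, ?_⟩
  · intro b hb t η Γ hη hηd hΦ z hz s hs s' hs'
    have h1 := hfib b hb _ _ _ _ hΦ z hz s hs s' hs'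
    have h2 : η * (2 * (Lb b + 1)) ≤ min (r b) (lam b) := by
      rwa [le_div_iff₀ (by have := hLb b; positivity)] at hηd
    have h3 : |s - s'| ≤ 2 := by
      rw [abs_le]; constructor <;> linarith [hs.1, hs.2, hs'.1, hs'.2]
    have h4 : Lb b * (η * |s - s'|) ≤ min (r b) (lam b) := by
      have h5 : η * |s - s'| ≤ η * 2 := mul_le_mul_of_nonneg_left h3 hη.le
      have h6 := mul_le_mul_of_nonneg_left h5 (hLb b)
      nlinarith [hLb b]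
    have h5 : ‖Γ.toFun (z, s) - Γ.toFun (z, s')‖ ≤ min (r b) (lam b) := h1.trans h4
    have h6 : Γ.toFun (z, s') ∈ X b := (Γ.mapsTo ⟨hz, hs'⟩).1
    exact ⟨h5.trans (min_le_right _ _), (hr b _ h6 _ (h5.trans (min_le_left _ _))).2⟩
  · intro M E ω η₁ τ A C εE δ L η hη hηδ
    have key : ∀ (b : G₀) (m : Fin (L.N b.1)), ∃ Γ : Cht h (X b.1) b.1.ax (L.a b.1 m) (η b.1),
        Φ b.1 (Lb b.1) (L.a b.1 m) (η b.1) Γ := by
      intro b m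
      obtain ⟨p, hp, hsub⟩ := P.mem_I L m.2
      have h0 := hη b.1
      have h1 := hηδ b.1
      have h2 := hsub (show L.a b.1 m - η b.1 ∈ Icc (L.a b.1 m - δ b.1 / 4)
        (L.a b.1 m + δ b.1 / 4) from ⟨by linarith, by linarith⟩)
      have h3 := hsub (show L.a b.1 m + η b.1 ∈ Icc (L.a b.1 m - δ b.1 / 4)
        (L.a b.1 m + δ b.1 / 4) from ⟨by linarith, by linarith⟩)
      exact H b.1 b.2 p hp _ _ h0 h2.1 h3.2
    choose Γ hΓ' using key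
    exact ⟨Γ, hΓ'⟩

/-! ### the form of H244 -/

section fn

variable {M : Mesh Ω} {E : Edges M} {ω : TBx K → ℝ} {η₁ : ℝ} {τ : Type*} {A : τ → Set V}
  {T : TBx K → Finset (ℝ × ℝ)} {C : Set ℝ} {εE : E.ε → ℝ} {δ : TBx K → ℝ}
  (L : TLv G E h ω T η₁ A C εE δ) {G₀ : Set (TBx K)} {η : TBx K → ℝ}
  (Γ : ∀ (b : G₀) (m : Fin (L.N b.1)), Cht h (X b.1) b.1.ax (L.a b.1 m) (η b.1))

/-- the product structures, as a function of `ℕ` -/
noncomputable def gamF (b : G₀) (m : ℕ) (p : V × ℝ) : V :=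
  if hm : m < L.N b.1 then (Γ b ⟨m, hm⟩).toFun p else p.1

theorem gamF_eq {b : G₀} {m : ℕ} (hm : m < L.N b.1) (p : V × ℝ) :
    gamF L Γ b m p = (Γ b ⟨m, hm⟩).toFun p := dif_pos hm

variable {b : G₀} {m : ℕ} (hm : m < L.N b.1) {z : V}
  (hz : z ∈ lev (X b.1) (fun x => h.toFun x b.1.ax) (L.a b.1 m))

include hm hz

theorem gamF_cont : ContinuousOn (fun s => gamF L Γ b m (z, s)) (Icc (-1) 1) := by
  have h1 : (fun s => gamF L Γ b m (z, s)) = fun s => (Γ b ⟨m, hm⟩).toFun (z, s) := by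
    funext s
    exact gamF_eq L Γ hm _
  rw [h1]
  exact (Γ b ⟨m, hm⟩).cont.comp (by fun_prop) fun s hs => ⟨hz, hs⟩

theorem gamF_mem {s : ℝ} (hs : s ∈ Icc (-1:ℝ) 1) : gamF L Γ b m (z, s) ∈ X b.1 := by
  rw [gamF_eq L Γ hm]
  exact ((Γ b ⟨m, hm⟩).mapsTo ⟨hz, hs⟩).1

theorem gamF_inj {z' : V} (hz' : z' ∈ lev (X b.1) (fun x => h.toFun x b.1.ax) (L.a b.1 m))
    {s s' : ℝ} (hs : s ∈ Icc (-1:ℝ) 1) (hs' : s' ∈ Icc (-1:ℝ) 1)
    (he : gamF L Γ b m (z, s) = gamF L Γ b m (z', s')) : z = z' ∧ s = s' := by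
  rw [gamF_eq L Γ hm, gamF_eq L Γ hm] at he
  have a1 : (z, s) ∈ lev (X b.1) (fun x => h.toFun x b.1.ax) (L.a b.1 m) ×ˢ Icc (-1:ℝ) 1 :=
    ⟨hz, hs⟩
  have a2 : (z', s') ∈ lev (X b.1) (fun x => h.toFun x b.1.ax) (L.a b.1 m) ×ˢ Icc (-1:ℝ) 1 :=
    ⟨hz', hs'⟩
  have h1 := (Γ b ⟨m, hm⟩).injOn a1 a2 he
  exact ⟨congrArg Prod.fst h1, congrArg Prod.snd h1⟩

variable {ι : TBx K → Type*} {Mf : ∀ b, ι b → Set V} {Qs : TBx K → Set (Set V)}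
  {Lb : TBx K → ℝ}
  (hok : ∀ (b : G₀) (m : Fin (L.N b.1)), GamOk h (X b.1) b.1.ax (Mf b.1) (Qs b.1) (Lb b.1) (L.a b.1 m) (η b.1) (Γ b m))

include hok

theorem gamF_zero : gamF L Γ b m (z, 0) = z := by
  rw [gamF_eq L Γ hm]
  exact (hok b ⟨m, hm⟩).zero z hz

theorem gamF_lev {s : ℝ} (hs : s ∈ Icc (-1:ℝ) 1) :
    h.toFun (gamF L Γ b m (z, s)) b.1.ax = L.a b.1 m + η b.1 * s := by
  rw [gamF_eq L Γ hm]
  exact (hok b ⟨m, hm⟩).level z hz s hs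

theorem gamF_inv {s : ℝ} (hs : s ∈ Icc (-1:ℝ) 1) (i : ι b.1) :
    gamF L Γ b m (z, s) ∈ Mf b.1 i ↔ z ∈ Mf b.1 i := by
  rw [gamF_eq L Γ hm]
  exact (hok b ⟨m, hm⟩).inv i z hz s hs

theorem gamF_fib {s s' : ℝ} (hs : s ∈ Icc (-1:ℝ) 1) (hs' : s' ∈ Icc (-1:ℝ) 1) :
    ‖gamF L Γ b m (z, s) - gamF L Γ b m (z, s')‖ ≤ Lb b.1 * (η b.1 * |s - s'|) := by
  rw [gamF_eq L Γ hm, gamF_eq L Γ hm]
  exact (hok b ⟨m, hm⟩).fib z hz s hs s' hs'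

end fn

/-- the bands of half width `η ≤ δ / 4` are disjoint -/
theorem band_disj {M : Mesh Ω} {E : Edges M} {ω : TBx K → ℝ} {η₁ : ℝ} {τ : Type*} {A : τ → Set V}
    {T : TBx K → Finset (ℝ × ℝ)} {C : Set ℝ} {εE : E.ε → ℝ} {δ : TBx K → ℝ}
    (L : TLv G E h ω T η₁ A C εE δ) {b : TBx K} {η : ℝ} (hη : η ≤ δ b / 4) {m m' : ℕ}
    (hm : m < L.N b) (hm' : m' < L.N b) (hne : m ≠ m') {t : ℝ} (ht : |t - L.a b m| ≤ η) :
    ¬ |t - L.a b m'| ≤ η := by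
  have key : ∀ k l : ℕ, k < l → l < L.N b → L.a b k + δ b / 2 < L.a b l := by
    intro k l hkl hl
    have h0 := L.δ0 b
    have h1 := (L.cells b).lt_a h0 L.η4 k
    have h2 := (L.cells b).lt_a h0 L.η4 l
    have h3 : L.x b k + δ b ≤ L.x b l := (L.cells b).add_le h0 hkl hl
    linarith [h1.2, h2.1]
  intro h2
  have h3 := abs_le.1 ht
  have h4 := abs_le.1 h2
  rcases lt_or_gt_of_ne hne with h5 | h5
  · have := key m m' h5 hm'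
    linarith [h3.1, h3.2, h4.1, h4.2]
  · have := key m' m h5 hm
    linarith [h3.1, h3.2, h4.1, h4.2]

end Vale.Agent.P073.H669
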