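import Vale.Agent.P073.H669.GamLev
import Vale.Agent.P073.H399.GivD
import Vale.Agent.P073.H236.SA1
import Vale.Agent.P073.H579.TStageW

/-!
# P073, H669: the charts of the given cells for round T

`rtO G ω b u`: the open box, enlarged by `u ω b` across the direction.  `gvch_of`: the structure
`GVch` of H399 for the boxes `L.bxQ`, from the product structures of `exists_gamLev`.
-/

open Set Metric Topology Filter

namespace Vale.Agent.P073.H669

open _root_.P073 _root_.P073.TR _root_.P073.Net _root_.P073.PA691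
open Vale.Agent.P073.St (V)
open Vale.Agent.P073.H471 Vale.Agent.P073.H267 Vale.Agent.P073.H267.Geo
open Vale.Agent.P073.H73 (Mesh)
open Vale.Agent.P073.H193 (Edges)
open _root_.P073.H936 (lev band bnd)
open _root_.P073.H236 (rtK rtK_sub rtK_mono end_TB BX)
open _root_.P073.H345 (fam)
open _root_.P073.H399 (GVch famG uG)
open Vale.Agent.P073.H579 (TStageW skelW cell_subW)

variable {Ω Λ : Set V} {v : V} {K : BoxCx Λ v} {S : Rad K} {Wd : Wid K S} {B : Boxes Wd}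
  {G : Geo B} {M : Mesh Ω} {E : Edges M} {h h' : ConHomeo Ω Λ} {ω : TBx K → ℝ}
  {T : TBx K → Finset (ℝ × ℝ)} {ηn : ℝ} {τ : Type*} {A : τ → Set V} {C : Set ℝ} {εE : E.ε → ℝ}
  {δ : TBx K → ℝ}

/-- the open box `b`, enlarged by `u ω b` across its direction -/
def rtO (G : Geo B) (ω : TBx K → ℝ) (b : TBx K) (u : ℝ) : Set V :=
  {y | (G.tlo true b b.ax < y b.ax ∧ y b.ax < G.thi true b b.ax) ∧
    ∀ i, i ≠ b.ax → G.tlo true b i - u * ω b < y i ∧ y i < G.thi true b i + u * ω b}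

theorem isOpen_rtO (b : TBx K) (u : ℝ) : IsOpen (rtO G ω b u) := by
  refine ((isOpen_lt continuous_const (continuous_apply _)).inter
    (isOpen_lt (continuous_apply _) continuous_const)).inter ?_
  have h1 : {y : V | ∀ i, i ≠ b.ax → G.tlo true b i - u * ω b < y i ∧
      y i < G.thi true b i + u * ω b} = ⋂ i : Fin 3, ⋂ _ : i ≠ b.ax,
      {y : V | G.tlo true b i - u * ω b < y i ∧ y i < G.thi true b i + u * ω b} := by
    ext y
    simp
  change IsOpen {y : V | ∀ i, i ≠ b.ax → G.tlo true b i - u * ω b < y i ∧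
      y i < G.thi true b i + u * ω b}
  rw [h1]
  exact isOpen_iInter_of_finite fun i => isOpen_iInter_of_finite fun _ =>
    (isOpen_lt continuous_const (continuous_apply _)).inter
      (isOpen_lt (continuous_apply _) continuous_const)

theorem rtO_sub (b : TBx K) (u : ℝ) : rtO G ω b u ⊆ rtK G ω b u := fun _ hy =>
  ⟨⟨hy.1.1.le, hy.1.2.le⟩, fun i hi => ⟨(hy.2 i hi).1.le, (hy.2 i hi).2.le⟩⟩

theorem rtO_mono (h0 : ∀ b, 0 < ω b) {b : TBx K} {u u' : ℝ} (hu : u ≤ u') :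
    rtO G ω b u ⊆ rtO G ω b u' := by
  rintro y ⟨h1, h2⟩
  have h3 := mul_le_mul_of_nonneg_right hu (h0 b).le
  exact ⟨h1, fun i hi => ⟨by linarith [(h2 i hi).1], by linarith [(h2 i hi).2]⟩⟩

/-- a point near a point of `rtK` -/
theorem rtO_near {b : TBx K} {u u' d : ℝ} {y z : V} (hz : z ∈ rtK G ω b u) (hd : ‖y - z‖ ≤ d)
    (hu : u * ω b + d < u' * ω b) (h1 : G.tlo true b b.ax < y b.ax)
    (h2 : y b.ax < G.thi true b b.ax) : y ∈ rtO G ω b u' := by
  refine ⟨⟨h1, h2⟩, fun i hi => ?_⟩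
  obtain ⟨h3, h4⟩ := hz.2 i hi
  have h5 := norm_le_pi_norm (y - z) i
  rw [Pi.sub_apply, Real.norm_eq_abs] at h5
  obtain ⟨h6, h7⟩ := abs_le.1 (h5.trans hd)
  constructor <;> linarith

theorem disj_rtO (L : TLv G E h ω T ηn A C εE δ) {u : ℝ} (hu : u ≤ 100) {b b' : TBx K}
    (hne : b ≠ b') : Disjoint (rtO G ω b u) (rtO G ω b' u) := by
  rw [Set.disjoint_left]
  intro y hy hy'
  rcases end_TB hne (rtK_sub L hu (rtO_sub b u hy)) (rtK_sub L hu (rtO_sub b' u hy')) with h1 | h1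
  · exact absurd hy.1.1 (not_lt.2 h1)
  · exact absurd hy.1.2 (not_lt.2 h1)

/-- the levels are separated -/
theorem sep_lev (L : TLv G E h ω T ηn A C εE δ) {b : TBx K} {k l : ℕ} (hkl : k < l)
    (hl : l < L.N b) : L.a b k + δ b / 2 < L.a b l := by
  have h0 := L.δ0 b
  have h1 := (L.cells b).lt_a h0 L.η4 k
  have h2 := (L.cells b).lt_a h0 L.η4 l
  have h3 : L.x b k + δ b ≤ L.x b l := (L.cells b).add_le h0 hkl hl
  linarith [h1.2, h2.1]

/-- the boxes of `G₀`, in the form of H345 -/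
noncomputable abbrev bxG (L : TLv G E h ω T ηn A C εE δ) {c : TBx K → ℝ} (hc0 : ∀ b, 0 < c b)
    (hc : ∀ b, c b ≤ δ b / 8) (G₀ : Set (TBx K)) : G₀ → BX 3 := fun b => L.bxQ c hc0 hc b.1

/-- **[GAM-LEV] ⟹ `GVch`** -/
theorem gvch_of (L : TLv G E h ω T ηn A C εE δ) {c : TBx K → ℝ} (hc0 : ∀ b, 0 < c b)
    (hc : ∀ b, c b ≤ δ b / 8) {Pr W : Set M.ι} {Act₀ : Set M.κ} {G₀ : Set (TBx K)}
    (O : TStageW G M h h' Pr W Act₀ G₀ L.lev ω) {Gv : Set M.ι} {X : TBx K → Set V}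
    (hX : ∀ b, IsCompact (X b)) (hXc : ∀ b, ConicalSet (X b))
    (hG : ∀ j ∈ Gv, ∀ b ∈ G₀, ∀ x ∈ M.Q j, h.toFun x ∈ G.TB false b → j ∈ W ∧ x ∈ X b)
    {η lam : TBx K → ℝ} (hη : ∀ b, 0 < η b) (hηδ : ∀ b, η b ≤ δ b / 4)
    (hlam : ∀ b, lam b ≤ ω b / 2) (hηlam : ∀ b, η b ≤ 6 * ω b)
    {Γ : ∀ (b : G₀) (m : Fin (L.N b.1)), Cht h (X b.1) b.1.ax (L.a b.1 m) (η b.1)}
    (hlev : ∀ (b : G₀) (m : Fin (L.N b.1)), ∀ z ∈ lev (X b.1) (fun x => h.toFun x b.1.ax)
      (L.a b.1 m), ∀ s ∈ Icc (-1:ℝ) 1,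
      h.toFun ((Γ b m).toFun (z, s)) b.1.ax = L.a b.1 m + η b.1 * s)
    (hzero : ∀ (b : G₀) (m : Fin (L.N b.1)), ∀ z ∈ lev (X b.1) (fun x => h.toFun x b.1.ax)
      (L.a b.1 m), (Γ b m).toFun (z, 0) = z)
    (hinv : ∀ (b : G₀) (m : Fin (L.N b.1)) t, ∀ z ∈ lev (X b.1) (fun x => h.toFun x b.1.ax)
      (L.a b.1 m), ∀ s ∈ Icc (-1:ℝ) 1, ((Γ b m).toFun (z, s) ∈ Sum.elim M.Q (fam M E) t ↔
        z ∈ Sum.elim M.Q (fam M E) t))
    (hwin : ∀ (b : G₀) (m : Fin (L.N b.1)), ∀ z ∈ lev (X b.1) (fun x => h.toFun x b.1.ax)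
      (L.a b.1 m), ∀ s ∈ Icc (-1:ℝ) 1,
        ‖h.toFun ((Γ b m).toFun (z, s)) - h.toFun z‖ ≤ lam b.1) :
    GVch M E h h' (bxG L hc0 hc G₀) Gv (fun b => rtO G ω b.1 45) (fun b => rtO G ω b.1 60)
      (fun b => X b.1) (fun b => η b.1) Γ where
  Wo := fun b => isOpen_rtO _ _
  Ro := fun b => isOpen_rtO _ _
  KW := by
    intro b y hy h1 h2
    have h0 := L.ω0 b.1
    obtain ⟨-, h4⟩ := (L.mem_K hc0 hc).1 hy
    exact ⟨⟨h1, h2⟩, fun i hi => ⟨by linarith [(h4 i hi).1], by linarith [(h4 i hi).2]⟩⟩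
  WR := fun b => rtO_mono L.ω0 (by norm_num)
  dis := fun b b' hne => disj_rtO L (by norm_num) fun h1 => hne (Subtype.ext h1)
  keep := by
    intro j hj b x hx hxR m hm hxa
    have h1 : h'.toFun x ∈ G.TB false b.1 := rtK_sub L (by norm_num) (rtO_sub b.1 60 hxR)
    have h2 : h.toFun x ∈ G.TB false b.1 := (O.mem b.1 x (M.sub j hx)).1 h1
    exact O.keep b.1 x (cell_subW M (hG j hj b.1 b.2 x hx h2).1 hx) h1 ⟨m, hm, hxa⟩
  w0 := fun b => hη b.1
  sep := by
    intro b m hm m' hm' hlt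
    have h1 := sep_lev L hlt hm'
    have h2 := hηδ b.1
    show 2 * η b.1 < L.a b.1 m' - L.a b.1 m
    linarith
  Ccpt := fun b => hX b.1
  Ccon := fun b => hXc b.1
  Ccov := by
    intro j hj b x hx hxR
    have h1 : h'.toFun x ∈ G.TB false b.1 := rtK_sub L (by norm_num) (rtO_sub b.1 60 hxR)
    exact (hG j hj b.1 b.2 x hx ((O.mem b.1 x (M.sub j hx)).1 h1)).2
  level := fun b m z hz s hs => hlev b m z hz s hs
  zero := fun b m z hz => hzero b m z hz
  inv := by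
    intro b m t z hz s hs
    rcases t with j | t
    · exact hinv b m (Sum.inl j.1) z hz s hs
    · exact hinv b m (Sum.inr t) z hz s hs
  win := by
    intro j hj b m z hz hzj hzW s hs
    have h0 := L.ω0 b.1
    have hl := hlam b.1
    have h1 : h'.toFun z ∈ G.TB false b.1 := rtK_sub L (by norm_num) (rtO_sub b.1 45 hzW)
    have h2 : h.toFun z ∈ G.TB false b.1 := (O.mem b.1 z (M.sub j hzj)).1 h1
    have hjW := (hG j hj b.1 b.2 z hzj h2).1
    have h3 := O.near b.1 z (cell_subW M hjW hzj) h2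
    rw [dist_eq_norm] at h3
    have hΓj : (Γ b m).toFun (z, s) ∈ M.Q j := (hinv b m (Sum.inl j) z hz s hs).2 hzj
    have h4 := hwin b m z hz s hs
    have h5 := hlev b m z hz s hs
    have h6 := L.mem_win (b := b.1) (k := m) m.2
    have h7 : |η b.1 * s| ≤ 6 * ω b.1 := by
      rw [abs_mul, abs_of_pos (hη b.1)]
      exact (mul_le_of_le_one_right (hη b.1).le (abs_le.2 hs)).trans (hηlam b.1)
    obtain ⟨h8, h9⟩ := abs_le.1 h7
    -- the image of the point of the fibre under the old map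
    have hzK : h.toFun z ∈ rtK G ω b.1 51 := by
      refine ⟨?_, fun i hi => ?_⟩
      · have := mem_TB.1 h2 b.1.ax
        rw [(_root_.P073.H236.tlo_ax G).1, (_root_.P073.H236.tlo_ax G).2] at this
        exact this
      · obtain ⟨h10, h11⟩ := hzW.2 i hi
        have h12 := norm_le_pi_norm (h'.toFun z - h.toFun z) i
        rw [Pi.sub_apply, Real.norm_eq_abs] at h12
        obtain ⟨h13, h14⟩ := abs_le.1 (h12.trans h3)
        constructor <;> linarith
    have hΓK : h.toFun ((Γ b m).toFun (z, s)) ∈ rtO G ω b.1 52 := by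
      refine rtO_near hzK h4 (by linarith) ?_ ?_
      · rw [h5]; linarith
      · rw [h5]; linarith
    have hΓT : h.toFun ((Γ b m).toFun (z, s)) ∈ G.TB false b.1 :=
      rtK_sub L (by norm_num) (rtO_sub b.1 52 hΓK)
    have h15 := O.near b.1 _ (cell_subW M hjW hΓj) hΓT
    rw [dist_eq_norm] at h15
    have h16 := norm_le_pi_norm (h'.toFun ((Γ b m).toFun (z, s)) -
      h.toFun ((Γ b m).toFun (z, s))) b.1.ax
    rw [Pi.sub_apply, Real.norm_eq_abs] at h16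
    obtain ⟨h17, h18⟩ := abs_le.1 (h16.trans h15)
    rw [h5] at h17 h18
    exact rtO_near (rtO_sub b.1 52 hΓK) h15 (by linarith) (by linarith) (by linarith)

end Vale.Agent.P073.H669
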