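import Vale.Agent.P073.H669.TLev
import Vale.Agent.P073.H238.TRegB
import Vale.Agent.P073.H236.Stage3Q

/-!
# P073, H669: **[T-LEV]**, part 2: the boxes with margins, the inputs of the stages of round T
-/

open Set Metric Topology Filter
open scoped ENNReal

namespace Vale.Agent.P073.H669

open _root_.P073 _root_.P073.TR _root_.P073.Net _root_.P073.PA691
open _root_.P073.PR720 (LF)
open Vale.Agent.P073.St (V)
open Vale.Agent.P073.H471 Vale.Agent.P073.H267 Vale.Agent.P073.H267.Geo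
open Vale.Agent.P073.H73 (Mesh)
open Vale.Agent.P073.H193 (Edges)
open Vale.Agent.P073.H238 (oT marg TStage1 TAct TProt skel mesh_sub)
open _root_.P073.Croft (Cells Crs levs Generic onS cross varIn TransAt SepL)
open _root_.P073.H345 (fam Fam RegB)
open _root_.P073.H236 (BX Lvs BFam stp dsp)
open _root_.P073.H805 (Reg)

variable {Ω Λ : Set V} {v : V} {K : BoxCx Λ v} {S : Rad K} {W : Wid K S} {B : Boxes W}
  {G : Geo B} {M : Mesh Ω} {E : Edges M} {h h' : ConHomeo Ω Λ} {ω : TBx K → ℝ}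
  {T : TBx K → Finset (ℝ × ℝ)} {η : ℝ} {τ : Type*} {A : τ → Set V} {C : Set ℝ} {εE : E.ε → ℝ}
  {δ : TBx K → ℝ}

namespace TLv

variable (L : TLv G E h ω T η A C εE δ)

/-- the levels -/
def lev (b : TBx K) : Set ℝ := levs (L.N b) (L.a b)

theorem lev_fin (b : TBx K) : (L.lev b).Finite := Croft.finite_levs _ _

theorem mem_win {b : TBx K} {k : ℕ} (hk : k < L.N b) :
    G.tlo true b b.ax + 30 * ω b < L.a b k ∧ L.a b k < G.thi true b b.ax - 30 * ω b := by
  have h1 := (L.cells b).lt_a (L.δ0 b) L.η4 k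
  have h2 := (L.cells b).ge k hk
  have h3 := (L.cells b).le k hk
  constructor <;> linarith [h1.1, h1.2]

/-- regularity, everywhere -/
theorem regA {b : TBx K} {x : V} (hx : x ∈ Ω) (hl : h.toFun x b.ax ∈ L.lev b) :
    Reg (fun y => h.toFun y b.ax) (famA M E A) x := by
  obtain ⟨k, -, hk⟩ := hl
  obtain ⟨r, hr⟩ := (L.cells b).rat k
  exact L.gen.reg1 hx (hk.trans hr)

theorem reg {b : TBx K} {x : V} (hx : x ∈ Ω) (hl : h.toFun x b.ax ∈ L.lev b) :
    Reg (fun y => h.toFun y b.ax) (fam M E) x :=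
  Croft.Reg.sub (L.regA hx hl) fun k => ⟨Sum.inl k, rfl⟩

/-- the levels avoid the countable set -/
theorem notMem {b : TBx K} (k : ℕ) : L.a b k ∉ C := by
  obtain ⟨r, hr⟩ := (L.cells b).rat k
  rw [hr]
  exact L.gen.notMem _ r

/-- **H238's levels** -/
theorem lev238 (hosc : ∀ b k, ∀ x ∈ M.F k, ∀ y ∈ M.F k, h.toFun x ∈ G.TB false b →
    dist (h.toFun x) (h.toFun y) ≤ ω b) : Vale.Agent.P073.H238.TLev G M h L.lev ω where
  fin := L.lev_fin
  ω0 := L.ω0
  ωo := L.ωo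
  lev := by
    rintro b _ ⟨k, hk, rfl⟩
    have h1 := L.mem_win hk
    have h2 := L.ω0 b
    constructor <;> linarith [h1.1, h1.2]
  osc := hosc
  reg := by
    intro b k x hx _ hl
    exact Croft.Reg.sub (L.reg (mesh_sub M k hx) hl) fun _ => ⟨Sum.inl k, rfl⟩

/-- **H236's levels** -/
noncomputable def lev236 (c : TBx K → ℝ) (hc0 : ∀ b, 0 < c b) (hc : ∀ b, c b ≤ δ b / 8) :
    _root_.P073.H236.TLev G where
  N := L.N
  a := L.a
  c := c
  lvs := fun b => Lvs.of_cells (L.cells b) (L.δ0 b) L.η4 (L.pos b) (hc0 b) (hc b)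
    (by linarith [L.ω0 b]) (by linarith [L.ω0 b])

/-- **the boxes with margins**: full zone `TB true b` enlarged by `20 ω b` across the levels, fading
zone of width `20 ω b` -/
noncomputable def bxQ (c : TBx K → ℝ) (hc0 : ∀ b, 0 < c b) (hc : ∀ b, c b ≤ δ b / 8) (b : TBx K) :
    BX 3 where
  j := b.ax
  N := L.N b
  a := L.a b
  c := c b
  al := G.tlo true b b.ax
  be := G.thi true b b.ax
  lvs := (L.lev236 c hc0 hc).lvs b
  lo := fun i => G.tlo true b i - 20 * ω b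
  hi := fun i => G.thi true b i + 20 * ω b
  r := fun _ => 20 * ω b
  hr := fun _ => by have := L.ω0 b; linarith

section bx

variable {c : TBx K → ℝ} (hc0 : ∀ b, 0 < c b) (hc : ∀ b, c b ≤ δ b / 8)

theorem mem_K {b : TBx K} {y : V} : y ∈ (L.bxQ c hc0 hc b).K ↔
    (G.tlo true b b.ax ≤ y b.ax ∧ y b.ax ≤ G.thi true b b.ax) ∧
      ∀ i, i ≠ b.ax → G.tlo true b i - 40 * ω b ≤ y i ∧ y i ≤ G.thi true b i + 40 * ω b := by
  constructor
  · rintro ⟨h1, h2⟩
    refine ⟨h1, fun i hi => ?_⟩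
    obtain ⟨h3, h4⟩ := h2 i hi
    change G.tlo true b i - 20 * ω b - 20 * ω b ≤ y i at h3
    change y i ≤ G.thi true b i + 20 * ω b + 20 * ω b at h4
    constructor <;> linarith
  · rintro ⟨h1, h2⟩
    refine ⟨h1, fun i hi => ?_⟩
    obtain ⟨h3, h4⟩ := h2 i hi
    constructor
    · change G.tlo true b i - 20 * ω b - 20 * ω b ≤ y i
      linarith
    · change y i ≤ G.thi true b i + 20 * ω b + 20 * ω b
      linarith

/-- the supports are in `TB false b`, at distance `60 ω b` from its sides across the levels -/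
theorem K_marg {b : TBx K} {y : V} (hy : y ∈ (L.bxQ c hc0 hc b).K) {i : Fin 3} (hi : i ≠ b.ax) :
    G.tlo false b i + 60 * ω b ≤ y i ∧ y i ≤ G.thi false b i - 60 * ω b := by
  obtain ⟨h3, h4⟩ := ((L.mem_K hc0 hc).1 hy).2 i hi
  obtain ⟨h5, h6⟩ := marg G b hi
  have h7 := L.ωo b
  constructor <;> linarith

theorem K_sub (b : TBx K) : (L.bxQ c hc0 hc b).K ⊆ G.TB false b := by
  intro y hy
  rw [mem_TB]
  intro i
  by_cases hi : i = b.ax
  · rw [hi, (_root_.P073.H236.tlo_ax G).1, (_root_.P073.H236.tlo_ax G).2]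
    exact ((L.mem_K hc0 hc).1 hy).1
  · have h1 := L.K_marg hc0 hc hy hi
    have h2 := L.ω0 b
    constructor <;> linarith [h1.1, h1.2]

/-- the boxes are a family in the sense of `H345` -/
theorem fam345 (hΛ : IsOpen Λ) : Fam Λ (L.bxQ c hc0 hc) where
  op := hΛ
  sub := fun b => (L.K_sub hc0 hc b).trans (TB_sub b)
  dis := fun _ _ hne _ hy hy' => _root_.P073.H236.end_TB hne (L.K_sub hc0 hc _ hy)
    (L.K_sub hc0 hc _ hy')
  lf := fun z hz => by
    obtain ⟨U, hU, hf⟩ := lf_TB G z hz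
    refine ⟨U, hU, hf.subset ?_⟩
    rintro b ⟨x, hx, hxU⟩
    exact ⟨x, L.K_sub hc0 hc b hx, hxU⟩

theorem thin_bxQ {c' : TBx K → ℝ} (h0 : ∀ b, 0 < c' b) (h1 : ∀ b, c' b ≤ c b) (b : TBx K) :
    _root_.P073.H345.thin (L.bxQ c hc0 hc b) (c' b) (h0 b) (h1 b) =
      L.bxQ c' h0 (fun b => (h1 b).trans (hc b)) b := rfl

/-- **STAGE 1 ⟹ hypothesis of STAGE 2** for the boxes with margins -/
theorem regB {Pr : Set M.ι} (O : TStage1 G M h h' Pr L.lev ω)
    (hosc : ∀ b k, ∀ x ∈ M.F k, ∀ y ∈ M.F k, h.toFun x ∈ G.TB false b →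
      dist (h.toFun x) (h.toFun y) ≤ ω b) : RegB M E h' (L.bxQ c hc0 hc) := by
  rintro k b ⟨_, hK, x₀, hx₀, rfl⟩ m hm x hx hxa
  exact O.regB (L.lev238 hosc) (fun k' b' _ x' hx' hl' => L.reg (mesh_sub M k' hx') hl')
    k b ⟨x₀, hx₀, L.K_sub hc0 hc b hK⟩ x hx ⟨m, hm, hxa⟩

/-- the full zone contains the `7 ω`-neighbourhood of `TB true b` across the levels -/
theorem full_of {b : TBx K} {y : V} (hy : ∀ i, i ≠ b.ax → G.tlo true b i - 20 * ω b ≤ y i ∧
    y i ≤ G.thi true b i + 20 * ω b) : (L.bxQ c hc0 hc b).Full y := fun i hi => hy i hi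

/-- **active faces** are in the full zone of their box, and miss the supports of the others -/
theorem act {Pr : Set M.ι} (O : TStage1 G M h h' Pr L.lev ω) {b : TBx K} {k : M.κ}
    (hk : TAct G M h L.lev b k) {x : V} (hx : x ∈ M.F k) :
    (L.bxQ c hc0 hc b).Full (h'.toFun x) ∧ h'.toFun x ∈ (L.bxQ c hc0 hc b).K ∧
      (G.tlo true b b.ax + 3 * ω b < h'.toFun x b.ax ∧
        h'.toFun x b.ax < G.thi true b b.ax - 3 * ω b) ∧
      ∀ b', b' ≠ b → h'.toFun x ∉ (L.bxQ c hc0 hc b').K := by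
  obtain ⟨h1, h2, h3⟩ := O.loc b k hk x hx
  have h0 := L.ω0 b
  refine ⟨fun i hi => ?_, (L.mem_K hc0 hc).2 ⟨?_, fun i hi => ?_⟩, h2, fun b' hne hK => ?_⟩
  · obtain ⟨h4, h5⟩ := h3 i hi
    constructor
    · change G.tlo true b i - 20 * ω b ≤ h'.toFun x i; linarith
    · change h'.toFun x i ≤ G.thi true b i + 20 * ω b; linarith
  · constructor <;> linarith [h2.1, h2.2]
  · obtain ⟨h4, h5⟩ := h3 i hi
    constructor <;> linarith
  · exact (disjoint_TB (G := G) hne.symm).notMem_of_mem_left h1 (L.K_sub hc0 hc b' hK)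

/-! ### the staircases -/

/-- the step is the spacing, up to a factor close to one -/
theorem stp_ge (b : TBx K) : δ b ≤ stp (L.N b) (G.tlo true b b.ax) (G.thi true b b.ax) := by
  have h1 := (L.cells b).num_le
  have h2 := L.ω0 b
  have hN : (0:ℝ) < L.N b := by exact_mod_cast L.pos b
  unfold stp
  rw [le_div_iff₀ hN]
  nlinarith

theorem stp_le {μ : ℝ} (b : TBx K)
    (h : 60 * ω b + dsp (T b) (δ b) ≤ μ * (G.thi true b b.ax - G.tlo true b b.ax)) :
    (1 - μ) * stp (L.N b) (G.tlo true b b.ax) (G.thi true b b.ax) ≤ δ b := by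
  have h1 := (L.cells b).le_num
  have hN : (0:ℝ) < L.N b := by exact_mod_cast L.pos b
  unfold stp dsp at *
  rw [← mul_div_assoc, div_le_iff₀ hN]
  nlinarith

include hc0 hc in
/-- the displacement -/
theorem disp {D : ℝ} {b : TBx K} {e : ℝ} (he : 0 < e) (he8 : e ≤ δ b / 8)
    (hD : dsp (T b) (δ b) + δ b + 60 * ω b ≤ D) (t : ℝ) :
    |_root_.P073.H236.sm (L.N b) (L.a b) (c b) (G.tlo true b b.ax) (G.thi true b b.ax) (G.tlo true b b.ax)
      (stp (L.N b) (G.tlo true b b.ax) (G.thi true b b.ax)) e t - t| ≤ D :=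
  _root_.P073.H236.hD_of_cells (L.cells b) (L.δ0 b) L.η4 (hc b) ((L.lev236 c hc0 hc).lvs b)
    (by linarith [L.ω0 b]) (by linarith [L.ω0 b]) he he8 (by linarith) t

/-- **the family of staircases of round T** -/
noncomputable def bfam (e D : TBx K → ℝ) (he : ∀ b, 0 < e b) (he8 : ∀ b, e b ≤ δ b / 8)
    (hD : ∀ b, dsp (T b) (δ b) + δ b + 60 * ω b ≤ D b) : BFam 3 (TBx K) Λ where
  B := L.bxQ c hc0 hc
  e := e
  D := D
  he := he
  heo := fun b => by
    have h1 := L.stp_ge b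
    have h2 := he8 b
    have h3 := L.δ0 b
    show 2 * e b < stp (L.N b) (G.tlo true b b.ax) (G.thi true b b.ax)
    linarith
  hD := fun b t => L.disp hc0 hc (he b) (he8 b) (hD b) t
  sub := fun b => (L.K_sub hc0 hc b).trans (TB_sub b)
  lf := fun z hz => by
    obtain ⟨U, hU, hf⟩ := lf_TB G z hz
    refine ⟨U, hU, hf.subset ?_⟩
    rintro b ⟨x, hx, hxU⟩
    exact ⟨x, L.K_sub hc0 hc b hx, hxU⟩
  dis := fun b b' hne => (disjoint_TB (G := G) hne).mono (interior_mono (L.K_sub hc0 hc b))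
    (L.K_sub hc0 hc b')

theorem bfam_B (e D : TBx K → ℝ) (he : ∀ b, 0 < e b) (he8 : ∀ b, e b ≤ δ b / 8)
    (hD : ∀ b, dsp (T b) (δ b) + δ b + 60 * ω b ≤ D b) :
    (L.bfam hc0 hc e D he he8 hD).B = L.bxQ c hc0 hc := rfl

theorem bfam_om (e D : TBx K → ℝ) (he : ∀ b, 0 < e b) (he8 : ∀ b, e b ≤ δ b / 8)
    (hD : ∀ b, dsp (T b) (δ b) + δ b + 60 * ω b ≤ D b) (b : TBx K) :
    (L.bfam hc0 hc e D he he8 hD).om b =
      stp (L.N b) (G.tlo true b b.ax) (G.thi true b b.ax) := rfl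

/-- the full zone of the family -/
theorem fullK_iff (e D : TBx K → ℝ) (he : ∀ b, 0 < e b) (he8 : ∀ b, e b ≤ δ b / 8)
    (hD : ∀ b, dsp (T b) (δ b) + δ b + 60 * ω b ≤ D b) {b : TBx K} {y : V} :
    (L.bfam hc0 hc e D he he8 hD).FullK b y ↔
      (G.tlo true b b.ax ≤ y b.ax ∧ y b.ax ≤ G.thi true b b.ax) ∧
      ∀ i, i ≠ b.ax → G.tlo true b i - 20 * ω b ≤ y i ∧ y i ≤ G.thi true b i + 20 * ω b :=
  Iff.rfl

end bx

/-! ### crossings of `h'` -/

/-- the crossings of `h'` with the levels are crossings of `h` -/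
theorem cross_sub {Pr : Set M.ι} (O : TStage1 G M h h' Pr L.lev ω) (f : Bool) (e : E.ε)
    (b : TBx K) : cross (onS h'.toFun (E.a e) (E.b e)) b.ax (L.lev b) (G.TB f b) ⊆
      cross (onS h.toFun (E.a e) (E.b e)) b.ax (L.lev b) (G.TB f b) := by
  rintro t ⟨ht, htP, htL⟩
  obtain ⟨k, hk⟩ := E.own e
  have hx : E.a e + t • (E.b e - E.a e) ∈ M.F k := hk (Croft.onS_mem ht)
  have h1 := (O.keep b _ (mem_iUnion.2 ⟨k, hx⟩) (TB_sub_false G f b htP) htL).self_of_nhds
  unfold onS at htP htL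
  rw [h1] at htP htL
  exact ⟨ht, htP, htL⟩

/-- the germs are the same -/
theorem cross_germ {Pr : Set M.ι} (O : TStage1 G M h h' Pr L.lev ω) {f : Bool} {e : E.ε}
    {b : TBx K} {t : ℝ} (ht : t ∈ cross (onS h'.toFun (E.a e) (E.b e)) b.ax (L.lev b) (G.TB f b)) :
    ∀ᶠ s in 𝓝 t, onS h'.toFun (E.a e) (E.b e) s = onS h.toFun (E.a e) (E.b e) s := by
  obtain ⟨ht, htP, htL⟩ := ht
  obtain ⟨k, hk⟩ := E.own e
  have hx : E.a e + t • (E.b e - E.a e) ∈ M.F k := hk (Croft.onS_mem ht)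
  have h1 := O.keep b _ (mem_iUnion.2 ⟨k, hx⟩) (TB_sub_false G f b htP) htL
  have h2 : ContinuousAt (fun s : ℝ => E.a e + s • (E.b e - E.a e)) t := by fun_prop
  exact h2.eventually h1

/-- **the crossing numbers of `h'`** against the variation of `h` -/
theorem cnt_one {Pr : Set M.ι} (O : TStage1 G M h h' Pr L.lev ω) (f : Bool) (e : E.ε)
    (b : TBx K) : ENNReal.ofReal (δ b) *
        cnt (cross (onS h'.toFun (E.a e) (E.b e)) b.ax (L.lev b) (G.TB f b)) ≤
      ENNReal.ofReal (1 - 2 * η)⁻¹ * varIn (onS h.toFun (E.a e) (E.b e)) b.ax (G.TB f b) 0 1 +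
        ENNReal.ofReal (εE e) :=
  (mul_le_mul_right (Croft.cnt_mono (L.cross_sub O f e b)) _).trans ((L.crs f e).one b)

theorem cnt_sum {Pr : Set M.ι} (O : TStage1 G M h h' Pr L.lev ω) (f : Bool) (e : E.ε) :
    ∑' b, ENNReal.ofReal (δ b) *
        cnt (cross (onS h'.toFun (E.a e) (E.b e)) b.ax (L.lev b) (G.TB f b)) ≤
      ENNReal.ofReal (1 - 2 * η)⁻¹ * (2 * len (onS h.toFun (E.a e) (E.b e)) (Icc 0 1)) +
        ENNReal.ofReal (εE e) := by
  refine (ENNReal.tsum_le_tsum fun b => mul_le_mul_right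
    (Croft.cnt_mono (L.cross_sub O f e b)) _).trans ?_
  have h1 := (L.crs f e).sum_le_len (m := 2) (Croft.conicalOn_onS h.conical (E.seg_sub_Ω e))
    (fun b => convex_Icc _ _) (fun y => by exact_mod_cast encard_TB G f y)
  exact_mod_cast h1

end TLv

end Vale.Agent.P073.H669
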