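import Vale.Agent.P073.H669.PLevC
import Vale.Agent.P073.H142.PCone2

/-!
# P073, H669: **[P-LEV]**, part 6: slopes of the staircases, the form of H142
-/

open Set Metric Topology Filter
open scoped ENNReal

namespace Vale.Agent.P073.H669

open _root_.P073 _root_.P073.TR _root_.P073.Net _root_.P073.PA691
open _root_.P073.PR720 (LF)
open Vale.Agent.P073.St (V)
open Vale.Agent.P073.H471 (Rad Wid Boxes)
open Vale.Agent.P073.H267
open Vale.Agent.P073.H73 (Mesh)
open Vale.Agent.P073.H193 (Edges)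
open _root_.P073.H345 (tg tg_ne tg_ne_not bt bt_tg tg_bt PK PB_sub_PK PLev)
open _root_.P073.H236 (BX Lvs BFam stp abs_sm_sub_le)

variable {Ω Λ : Set V} {v : V} {K : BoxCx Λ v} {S : Rad K} {W : Wid K S} {B : Boxes W}
  {G : Geo B} {M : Mesh Ω} {E : Edges M} {h : ConHomeo Ω Λ} {Pr : Set M.ι}
  {sl : TBx K → Finset (ℝ × ℝ)} {η : ℝ} {τ : Type*} {A : τ → Set V} {C : Set ℝ}
  {εE : E.ε → ℝ} {μ δ : K.S → ℝ}

namespace PLv

variable (L : PLv G E h Pr sl η A C εE μ δ)

/-- the step against the width of the flats -/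
theorem om_le_c (s : K.S) (β : Bool) : L.om s β ≤ 16 * (δ s / 8) := by
  have := L.om_le_two s β
  linarith

theorem omP_le_c (s : K.S) (β : Bool) (t : ℝ) :
    L.lev.omP s (tg s β) t ≤ 16 * L.lev.c s β := by
  rw [om_eq_omP]
  exact L.om_le_c s β

/-- **345's `hLaT`** -/
theorem hLaT {La LaT : E.ε → ℝ} (h0 : ∀ e, 0 ≤ LaT e) (hLa : ∀ e, 16 * LaT e ≤ La e) :
    ∀ e s β t, L.lev.omP s (tg s β) t * LaT e ≤ L.lev.c s β * La e := by
  intro e s β t
  have h1 := L.omP_le_c s β t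
  have h2 : 0 ≤ L.lev.c s β := by
    have := L.δ0 s
    show 0 ≤ δ s / 8
    linarith
  calc L.lev.omP s (tg s β) t * LaT e ≤ 16 * L.lev.c s β * LaT e :=
        mul_le_mul_of_nonneg_right h1 (h0 e)
    _ = L.lev.c s β * (16 * LaT e) := by ring
    _ ≤ _ := mul_le_mul_of_nonneg_left (hLa e) h2

section bfam

variable {e : K.S → ℝ} (he : ∀ s, 0 < e s) (he8 : ∀ s, e s ≤ δ s / 8)

/-- **slope of the staircases** -/
theorem bfam_slope (β : Bool) (s : K.S) (t t' : ℝ) :
    |(L.bfam e he he8 β).σ s t - (L.bfam e he he8 β).σ s t'| ≤ 8 * |t - t'| := by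
  have h0 := L.δ0 s
  have hN := L.pos s
  have he' := he s
  have he8' := he8 s
  have h2 := L.om_le_two s β
  have hNs := L.Ns s β
  refine abs_sm_sub_le (L.lev.lvs s β) ((L.bfam e he he8 β).tgt s) (by norm_num) ?_ ?_ ?_ t t'
  · have h1 := L.lt_a s β 0
    have h3 := (L.cells s β).ge 0 (hN.trans_le (L.N_le s β))
    change K.slo s (tg s β) + G.a s + e s - (K.slo s (tg s β) + G.a s) ≤
      8 * (L.a s β 0 - δ s / 8 - (K.slo s (tg s β) + G.a s))
    linarith [h1.1]
  · change L.om s β ≤ 8 * (2 * (δ s / 8))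
    linarith
  · have h1 := L.lt_a s β (L.N s - 1)
    have h3 := (L.cells s β).le (L.N s - 1) ((Nat.sub_lt hN one_pos).trans_le (L.N_le s β))
    change K.shi s (tg s β) - G.a s - (K.slo s (tg s β) + G.a s + (L.N s : ℝ) * L.om s β - e s) ≤
      8 * (K.shi s (tg s β) - G.a s - (L.a s β (L.N s - 1) + δ s / 8))
    rw [hNs]
    unfold wl
    linarith [h1.2]

/-- **142's hypothesis on the slopes** -/
theorem hs16 : ∀ β s t t', |(L.bfam e he he8 β).σ s t - (L.bfam e he he8 β).σ s t'| ≤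
    16 * |t - t'| := fun β s t t' => (L.bfam_slope he he8 β s t t').trans
  (mul_le_mul_of_nonneg_right (by norm_num) (abs_nonneg _))

/-- **142's `PS`** -/
theorem ps {T : Bool → ConHomeo Λ Λ} (hT : ∀ β, (L.bfam e he he8 β).IsS (T β)) :
    _root_.P073.H142.PS L.lev (fun β => L.bfam e he he8 β) T where
  B := fun _ => rfl
  isS := hT

end bfam

end PLv

end Vale.Agent.P073.H669
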