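import Vale.Agent.P073.H669.ConeStep
import Vale.Agent.P073.Net.Defs

/-!
# P073, [T4]: the cone layer

`cone_layer`: a conical homeomorphism of the boundary of a box (union of dyadic cubes of generation
`m`) which preserves the dyadic squares extends to the box, with control of the Lipschitz constant
and equal to the identity off the first layer of dyadic cubes.
-/

open Set Metric Topology Filter

namespace P073.H669

open Vale.Agent.P073.St (V)
open P073.Net (dyc)

variable {N : Fin 3 → ℕ}

theorem mem_sk_zero {x : V} : x ∈ sk N 0 ↔ x ∈ bx N ∧ ∃ k, x k = 0 ∨ x k = N k := by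
  simp [sk]

/-- a homeomorphism of the boundary which maps every closed lattice square into itself preserves
the position with respect to the lattice -/
theorem lp_of_weak (hN : ∀ k, 1 ≤ N k) (ψ : ConHomeo (sk N 0) (sk N 0))
    (h : ∀ x ∈ sk N 0, ∀ k, ∀ n : ℤ, (x k ≤ n → ψ.toFun x k ≤ n) ∧
      ((n:ℝ) ≤ x k → (n:ℝ) ≤ ψ.toFun x k)) : LP ψ.toFun (sk N 0) := by
  have hint : ∀ x ∈ sk N 0, ∀ k, ∀ n : ℤ, x k = n → ψ.toFun x k = n := fun x hx k n hn =>
    le_antisymm ((h x hx k n).1 hn.le) ((h x hx k n).2 hn.ge)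
  -- integer coordinates of the image come from integer coordinates
  have key : ∀ x ∈ sk N 0, ∀ k, ∀ z n : ℤ, (z : ℝ) < x k → x k < z + 1 →
      ψ.toFun x k ≠ n := by
    intro x hx k z n hz hz' hyn
    set y := ψ.toFun x with hy
    have hyk : y ∈ sk N 0 := ψ.mapsTo hx
    have hyx : ψ.invFun y = x := ψ.left_inv hx
    have hyb := mem_bx.1 hyk.1
    -- nearby points
    have near : ∀ γ : ℝ → V, Continuous γ → γ 0 = y → (∀ ε ∈ Ioo (0:ℝ) 1, γ ε ∈ sk N 0) →
        ∃ ε ∈ Ioo (0:ℝ) 1, (z : ℝ) < ψ.invFun (γ ε) k ∧ ψ.invFun (γ ε) k < z + 1 := by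
      intro γ hγ h0 hm
      have hI : Ioo (0:ℝ) 1 ∈ 𝓝[>] (0:ℝ) := Ioo_mem_nhdsGT one_pos
      have h1 : Tendsto γ (𝓝[>] 0) (𝓝[sk N 0] y) := by
        refine tendsto_nhdsWithin_iff.2 ⟨?_, ?_⟩
        · have := hγ.tendsto 0
          rw [h0] at this
          exact this.mono_left nhdsWithin_le_nhds
        · filter_upwards [hI] with ε hε using hm ε hε
      have h2 : Tendsto (fun ε => ψ.invFun (γ ε)) (𝓝[>] 0) (𝓝 x) := by
        have := (ψ.cont_inv y hyk).tendsto.comp h1
        rwa [hyx] at this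
      have h3 : Tendsto (fun ε => ψ.invFun (γ ε) k) (𝓝[>] 0) (𝓝 (x k)) :=
        ((continuous_apply k).tendsto x).comp h2
      have h4 : ∀ᶠ ε in 𝓝[>] (0:ℝ), ψ.invFun (γ ε) k ∈ Ioo (z:ℝ) (z + 1) :=
        h3 (Ioo_mem_nhds hz hz')
      obtain ⟨ε, h5, h6⟩ := (h4.and hI).exists
      exact ⟨ε, h6, h5⟩
    have hzn : n = z ∨ n = z + 1 := by
      refine int_between ?_ ?_
      · rw [← hyn]; exact (h x hx k z).2 hz.le
      · rw [← hyn]
        have := (h x hx k (z + 1)).1 (by push_cast; exact hz'.le)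
        push_cast at this; exact this
    -- the image of a near point
    have img : ∀ y' ∈ sk N 0, (z : ℝ) < ψ.invFun y' k → ψ.invFun y' k < z + 1 →
        (z : ℝ) ≤ y' k ∧ y' k ≤ z + 1 := by
      intro y' hy' h1 h2
      have h3 := h _ (ψ.mapsTo_inv hy') k
      rw [ψ.right_inv hy'] at h3
      refine ⟨(h3 z).2 h1.le, ?_⟩
      have := (h3 (z + 1)).1 (by push_cast; exact h2.le)
      push_cast at this; exact this
    by_cases hface : y k = 0 ∨ y k = N k
    · -- move inside the face
      obtain ⟨ε, hε, h1, h2⟩ := near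
        (fun ε j => if j = k then y k else (1 - ε) * y j + ε * (N j / 2)) (by
          refine continuous_pi fun j => ?_
          by_cases hj : j = k
          · simp only [if_pos hj]; fun_prop
          · simp only [if_neg hj]; fun_prop) (by
          funext j
          by_cases hj : j = k
          · simp only [if_pos hj]; rw [hj]
          · simp only [if_neg hj]; ring) (by
          intro ε hε
          rw [mem_sk_zero, mem_bx]
          refine ⟨fun j => ?_, k, ?_⟩
          · by_cases hj : j = k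
            · simp only [if_pos hj]; rw [hj]; exact hyb k
            · simp only [if_neg hj]
              obtain ⟨h1, h2⟩ := hyb j
              have h3 : (0:ℝ) ≤ N j := Nat.cast_nonneg _
              constructor <;> nlinarith [hε.1, hε.2]
          · simpa using hface)
      set y' : V := fun j => if j = k then y k else (1 - ε) * y j + ε * (N j / 2) with hy'
      have hy'k : y' ∈ sk N 0 := by
        rw [mem_sk_zero, mem_bx]
        refine ⟨fun j => ?_, k, ?_⟩
        · by_cases hj : j = k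
          · simp only [hy', if_pos hj]; rw [hj]; exact hyb k
          · simp only [hy', if_neg hj]
            obtain ⟨h1, h2⟩ := hyb j
            have h3 : (0:ℝ) ≤ N j := Nat.cast_nonneg _
            constructor <;> nlinarith [hε.1, hε.2]
        · simpa [hy'] using hface
      obtain ⟨-, j, hj⟩ := mem_sk_zero.1 (ψ.mapsTo_inv hy'k)
      have hjk : j ≠ k := by
        rintro rfl
        rcases hj with hj | hj
        · rw [hj] at h1 h2
          have h3 : z < 0 := by exact_mod_cast h1
          have h4 : (0:ℤ) < z + 1 := by exact_mod_cast h2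
          omega
        · rw [hj] at h1 h2
          have h3 : z < (N j : ℤ) := by exact_mod_cast h1
          have h4 : (N j : ℤ) < z + 1 := by exact_mod_cast h2
          omega
      have hy'j : y' j = ψ.invFun y' j := by
        rcases hj with hj | hj
        · have := hint _ (ψ.mapsTo_inv hy'k) j 0 (by rw [hj]; simp)
          rw [ψ.right_inv hy'k] at this
          rw [this, hj]; simp
        · have := hint _ (ψ.mapsTo_inv hy'k) j (N j) (by rw [hj]; simp)
          rw [ψ.right_inv hy'k] at this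
          rw [this, hj]; simp
      have h3 : 0 < y' j ∧ y' j < N j := by
        simp only [hy', if_neg hjk]
        obtain ⟨h1, h2⟩ := hyb j
        have h3 : (1:ℝ) ≤ N j := by exact_mod_cast hN j
        constructor <;> nlinarith [hε.1, hε.2]
      rw [← hy'j] at hj
      rcases hj with hj | hj
      · exact h3.1.ne' hj
      · exact h3.2.ne hj
    · push Not at hface
      obtain ⟨-, l, hl⟩ := mem_sk_zero.1 hyk
      have hlk : l ≠ k := by
        rintro rfl
        rcases hl with hl | hl
        · exact hface.1 hl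
        · exact hface.2 hl
      have hn0 : 0 < n := by
        have h1 : (0:ℝ) < n := by
          rw [← hyn]; exact lt_of_le_of_ne (hyb k).1 (Ne.symm hface.1)
        exact_mod_cast h1
      have hnN : n < N k := by
        have h1 : (n:ℝ) < N k := by
          rw [← hyn]; exact lt_of_le_of_ne (hyb k).2 hface.2
        exact_mod_cast h1
      have hn1 : (1:ℝ) ≤ n := by exact_mod_cast hn0
      have hnN1 : (n:ℝ) + 1 ≤ N k := by exact_mod_cast hnN
      -- move in the direction `k`
      have mv : ∀ σ : ℝ, (σ = 1 ∨ σ = -1) →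
          ∃ ε ∈ Ioo (0:ℝ) 1, (z:ℝ) ≤ n + σ * ε ∧ n + σ * ε ≤ z + 1 := by
        intro σ hσ
        have hm : ∀ ε ∈ Ioo (0:ℝ) 1, Function.update y k (n + σ * ε) ∈ sk N 0 := by
          intro ε hε
          rw [mem_sk_zero, mem_bx]
          refine ⟨fun j => ?_, l, ?_⟩
          · by_cases hj : j = k
            · subst hj
              rw [Function.update_self]
              rcases hσ with rfl | rfl <;> constructor <;> nlinarith [hε.1, hε.2]
            · rw [Function.update_of_ne hj]; exact hyb j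
          · rw [Function.update_of_ne hlk]; exact hl
        obtain ⟨ε, hε, h1, h2⟩ := near (fun ε => Function.update y k (n + σ * ε))
          (by fun_prop) (by
            rw [mul_zero, add_zero, ← hyn, Function.update_eq_self]) hm
        have := img _ (hm ε hε) h1 h2
        rw [Function.update_self] at this
        exact ⟨ε, hε, this⟩
      rcases hzn with hzn | hzn
      · obtain ⟨ε, hε, h1, -⟩ := mv (-1) (Or.inr rfl)
        rw [hzn] at h1
        linarith [hε.1]
      · obtain ⟨ε, hε, -, h2⟩ := mv 1 (Or.inl rfl)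
        rw [hzn] at h2
        push_cast at h2
        linarith [hε.1]
  intro x hx k
  by_cases hxk : x k = ⌊x k⌋
  · have := hint x hx k _ hxk
    rw [this, hxk]; simp [Same]
  · have h1 : ((⌊x k⌋ : ℤ) : ℝ) < x k := lt_of_le_of_ne (Int.floor_le _) (Ne.symm hxk)
    have h2 : x k < ⌊x k⌋ + 1 := Int.lt_floor_add_one _
    have h3 := (h x hx k ⌊x k⌋).2 h1.le
    have h4 := (h x hx k (⌊x k⌋ + 1)).1 (by push_cast; exact h2.le)
    push_cast at h4
    refine same_of_between h1 h2 (lt_of_le_of_ne h3 (Ne.symm (key x hx k _ _ h1 h2)))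
      (lt_of_le_of_ne h4 ?_)
    have := key x hx k _ (⌊x k⌋ + 1) h1 h2
    push_cast at this; exact this

/-- homothety and translation -/
noncomputable def hom (a : V) {σ : ℝ} (hσ : σ ≠ 0) {X Y : Set V} (hX : ConicalSet X)
    (hXY : ∀ x, x ∈ X ↔ a + σ • x ∈ Y) : ConHomeo X Y where
  toFun := fun x => a + σ • x
  invFun := fun y => σ⁻¹ • (y - a)
  mapsTo := fun x hx => (hXY x).1 hx
  mapsTo_inv := fun y hy => by
    rw [hXY, smul_smul, mul_inv_cancel₀ hσ, one_smul, add_sub_cancel]; exact hy
  left_inv := fun x _ => by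
    simp only [add_sub_cancel_left]
    rw [smul_smul, inv_mul_cancel₀ hσ, one_smul]
  right_inv := fun y _ => by
    simp only
    rw [smul_smul, mul_inv_cancel₀ hσ, one_smul, add_sub_cancel]
  cont := by fun_prop
  cont_inv := by fun_prop
  conical := (conicalOn_const a hX).add ((conicalOn_id hX).const_smul σ)

theorem cone_layer {w lo hi : V} {m : ℕ} (hlo : ∀ k, ∃ a : ℤ, lo k = w k + a / 2 ^ m)
    (hhi : ∀ k, ∃ a : ℤ, hi k = w k + a / 2 ^ m) (hlt : ∀ k, lo k < hi k)
    (ψ : ConHomeo (frontier (Icc lo hi)) (frontier (Icc lo hi)))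
    (hψ : ∀ x ∈ frontier (Icc lo hi), ∀ z, x ∈ dyc w m z → ψ.toFun x ∈ dyc w m z)
    {L : ℝ} (hL : 1 ≤ L)
    (hS : ∀ z l, ∀ x ∈ frontier (Icc lo hi), x ∈ dyc w m z → ∀ y ∈ frontier (Icc lo hi),
      y ∈ dyc w m z → x l = y l → (x l = lo l ∨ x l = hi l) →
      ‖ψ.toFun x - ψ.toFun y‖ ≤ L * ‖x - y‖) :
    ∃ Ψ : ConHomeo (Icc lo hi) (Icc lo hi), EqOn Ψ.toFun ψ.toFun (frontier (Icc lo hi)) ∧
      (∀ x ∈ Icc lo hi, ∀ z, x ∈ dyc w m z → Ψ.toFun x ∈ dyc w m z) ∧
      (∀ x ∈ Icc lo hi, (∀ k, lo k + 1 / 2 ^ m ≤ x k ∧ x k + 1 / 2 ^ m ≤ hi k) →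
        Ψ.toFun x = x) ∧
      ∀ x ∈ Icc lo hi, ∀ y ∈ Icc lo hi, ‖Ψ.toFun x - Ψ.toFun y‖ ≤ 216 * L * ‖x - y‖ := by
  choose a ha using hlo
  choose b hb using hhi
  set σ : ℝ := 1 / 2 ^ m with hσ
  have hσ0 : 0 < σ := by positivity
  have hσ1 : σ * 2 ^ m = 1 := by rw [hσ]; field_simp
  have hdiv : ∀ c : ℝ, c / 2 ^ m = σ * c := fun c => by rw [hσ]; ring
  have hab : ∀ k, a k < b k := by
    intro k
    have h1 := hlt k
    rw [ha k, hb k, hdiv, hdiv] at h1
    have h2 : (a k : ℝ) < b k := by
      by_contra hge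
      push Not at hge
      nlinarith [mul_le_mul_of_nonneg_left hge hσ0.le]
    exact_mod_cast h2
  set N : Fin 3 → ℕ := fun k => (b k - a k).toNat with hN
  have hNk : ∀ k, (N k : ℤ) = b k - a k := fun k => Int.toNat_of_nonneg (by have := hab k; omega)
  have hN1 : ∀ k, 1 ≤ N k := fun k => by
    have h1 := hNk k
    have h2 := hab k
    omega
  have hNR : ∀ k, (N k : ℝ) = b k - a k := fun k => by exact_mod_cast hNk k
  have hhiN : ∀ k, hi k = lo k + σ * N k := by
    intro k
    rw [hb k, ha k, hdiv, hdiv, hNR]; ring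
  -- membership
  have hle : ∀ {s t : ℝ}, σ * s ≤ σ * t ↔ s ≤ t := fun {s t} => mul_le_mul_iff_right₀ hσ0
  have hlt' : ∀ {s t : ℝ}, σ * s < σ * t ↔ s < t := fun {s t} => mul_lt_mul_iff_right₀ hσ0
  have hmemB : ∀ u : V, u ∈ bx N ↔ lo + σ • u ∈ Icc lo hi := by
    intro u
    rw [mem_bx]
    simp only [mem_Icc, Pi.le_def, Pi.add_apply, Pi.smul_apply, smul_eq_mul, hhiN]
    constructor
    · intro h
      refine ⟨fun k => ?_, fun k => ?_⟩
      · have := mul_nonneg hσ0.le (h k).1; linarith
      · have := hle.2 (h k).2; linarith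
    · rintro ⟨h1, h2⟩ k
      constructor
      · have := h1 k
        by_contra hneg
        push Not at hneg
        have := mul_neg_of_pos_of_neg hσ0 hneg
        linarith
      · have := h2 k
        exact hle.1 (by linarith)
  have hmemF : ∀ u : V, u ∈ sk N 0 ↔ lo + σ • u ∈ frontier (Icc lo hi) := by
    intro u
    rw [frontier_Icc_pi', mem_sk_zero, hmemB]
    have e : ∀ k, (lo + σ • u) k = lo k + σ * u k := fun k => rfl
    constructor
    · rintro ⟨h1, k, hk⟩
      refine ⟨fun k => ⟨h1.1 k, h1.2 k⟩, fun h => ?_⟩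
      have h2 := h k
      rw [e, hhiN] at h2
      rcases hk with hk | hk
      · rw [hk, mul_zero, add_zero] at h2; exact lt_irrefl _ h2.1
      · rw [hk] at h2; exact lt_irrefl _ h2.2
    · rintro ⟨h1, h2⟩
      refine ⟨⟨fun k => (h1 k).1, fun k => (h1 k).2⟩, ?_⟩
      by_contra hne
      push Not at hne
      apply h2
      intro k
      obtain ⟨h3, h4⟩ := h1 k
      obtain ⟨h5, h6⟩ := hne k
      refine ⟨lt_of_le_of_ne h3 fun h => h5 ?_, lt_of_le_of_ne h4 fun h => h6 ?_⟩
      · rw [e] at h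
        have : σ * u k = 0 := by linarith
        exact (mul_eq_zero.1 this).resolve_left hσ0.ne'
      · rw [e, hhiN] at h
        have : σ * u k = σ * N k := by linarith
        exact mul_left_cancel₀ hσ0.ne' this
  have hcB : ConicalSet (bx N) := (locCone_Icc_pi _ _).conicalSet
  have hcF : ConicalSet (sk N 0) := by
    rw [sk_zero]; exact (locCone_Icc_pi _ _).frontier.conicalSet
  set A := hom lo hσ0.ne' hcB hmemB with hA
  set A0 := hom lo hσ0.ne' hcF hmemF with hA0
  -- positions
  have hdyc : ∀ u : V, ∀ z : Fin 3 → ℤ, lo + σ • u ∈ dyc w m z ↔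
      ∀ k, ((z k - a k : ℤ) : ℝ) ≤ u k ∧ u k ≤ ((z k - a k + 1 : ℤ) : ℝ) := by
    intro u z
    have e : ∀ k, (lo + σ • u) k = w k + σ * (a k + u k) := fun k => by
      show lo k + σ * u k = _
      rw [ha k, hdiv]; ring
    constructor
    · intro h k
      obtain ⟨h1, h2⟩ := h k
      rw [e, hdiv] at h1 h2
      push_cast
      constructor
      · have := hle.1 (by linarith : σ * (z k : ℝ) ≤ σ * (a k + u k)); linarith
      · have := hle.1 (by linarith : σ * (a k + u k) ≤ σ * ((z k : ℝ) + 1)); linarith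
    · intro h k
      obtain ⟨h1, h2⟩ := h k
      push_cast at h1 h2
      rw [e, hdiv, hdiv]
      constructor
      · have := hle.2 (by linarith : (z k : ℝ) ≤ a k + u k); linarith
      · have := hle.2 (by linarith : a k + u k ≤ (z k : ℝ) + 1); linarith
  set ψ' : ConHomeo (sk N 0) (sk N 0) := A0.trans (ψ.trans A0.symm) with hψ'
  have eψ : ∀ u ∈ sk N 0, lo + σ • ψ'.toFun u = ψ.toFun (lo + σ • u) := by
    intro u hu
    exact A0.right_inv (ψ.mapsTo (A0.mapsTo hu))
  have hweak : ∀ u ∈ sk N 0, ∀ k, ∀ n : ℤ, (u k ≤ n → ψ'.toFun u k ≤ n) ∧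
      ((n:ℝ) ≤ u k → (n:ℝ) ≤ ψ'.toFun u k) := by
    intro u hu k n
    have main : ∀ z : Fin 3 → ℤ, (∀ j, (z j : ℝ) ≤ u j ∧ u j ≤ z j + 1) →
        ∀ j, (z j : ℝ) ≤ ψ'.toFun u j ∧ ψ'.toFun u j ≤ z j + 1 := by
      intro z hz
      have h1 : lo + σ • u ∈ dyc w m (fun j => z j + a j) := by
        rw [hdyc]
        intro j
        push_cast
        obtain ⟨h1, h2⟩ := hz j
        constructor <;> linarith
      have h2 := hψ _ (A0.mapsTo hu) _ h1
      have h3 : lo + σ • ψ'.toFun u ∈ dyc w m (fun j => z j + a j) := by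
        rw [eψ u hu]; exact h2
      rw [hdyc] at h3
      intro j
      have h4 := h3 j
      push_cast at h4
      constructor <;> linarith [h4.1, h4.2]
    constructor
    · intro hn
      have := main (Function.update (fun j => ⌊u j⌋) k (min ⌊u k⌋ (n - 1))) (by
        intro j
        by_cases hj : j = k
        · subst hj
          rw [Function.update_self]
          constructor
          · exact (Int.cast_le.2 (min_le_left _ _)).trans (Int.floor_le _)
          · rcases le_total ⌊u j⌋ (n - 1) with h | h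
            · rw [min_eq_left h]; exact (Int.lt_floor_add_one _).le
            · rw [min_eq_right h]; push_cast; linarith
        · rw [Function.update_of_ne hj]
          exact ⟨Int.floor_le _, (Int.lt_floor_add_one _).le⟩) k
      rw [Function.update_self] at this
      have h2 : ((min ⌊u k⌋ (n - 1) : ℤ) : ℝ) ≤ n - 1 := by
        have : min ⌊u k⌋ (n - 1) ≤ n - 1 := min_le_right _ _
        exact_mod_cast this
      linarith [this.2]
    · intro hn
      have := main (fun j => ⌊u j⌋) (fun j => ⟨Int.floor_le _, (Int.lt_floor_add_one _).le⟩) k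
      have h2 : n ≤ ⌊u k⌋ := Int.le_floor.2 hn
      have h3 : (n:ℝ) ≤ ⌊u k⌋ := by exact_mod_cast h2
      exact h3.trans this.1
  have hlp := lp_of_weak hN1 ψ' hweak
  have hscale : ∀ u v : V, ‖(lo + σ • u) - (lo + σ • v)‖ = σ * ‖u - v‖ := by
    intro u v
    rw [add_sub_add_left_eq_sub, ← smul_sub, norm_smul, Real.norm_of_nonneg hσ0.le]
  have hSq : SqLip N ψ'.toFun L := by
    intro z l u hu v hv hzu hzv huv hul
    have h1 : ∀ u : V, u ∈ cell z Finset.univ → lo + σ • u ∈ dyc w m (fun j => z j + a j) := by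
      intro u hu
      rw [hdyc]
      intro j
      obtain ⟨h1, h2⟩ := (mem_cell.1 hu j).1 (Finset.mem_univ j)
      push_cast
      constructor <;> linarith
    have h2 := hS (fun j => z j + a j) l (lo + σ • u) (A0.mapsTo hu) (h1 u hzu)
      (lo + σ • v) (A0.mapsTo hv) (h1 v hzv) (by
        show lo l + σ * u l = lo l + σ * v l
        rw [huv]) (by
        show lo l + σ * u l = lo l ∨ lo l + σ * u l = hi l
        rw [hhiN]
        rcases hul with h | h
        · left; rw [h]; ring
        · right; rw [h])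
    rw [← eψ u hu, ← eψ v hv, hscale, hscale] at h2
    have h3 : σ * ‖ψ'.toFun u - ψ'.toFun v‖ ≤ σ * (L * ‖u - v‖) := by
      refine h2.trans (le_of_eq ?_); ring
    exact hle.1 h3
  obtain ⟨Ψ, g1, g2, g3, g4⟩ := cone_layer_norm hN1 ψ' hlp hL hSq
  set Φ : ConHomeo (Icc lo hi) (Icc lo hi) := A.symm.trans (Ψ.trans A) with hΦ
  have eΦ : ∀ u ∈ bx N, Φ.toFun (lo + σ • u) = lo + σ • Ψ.toFun u := by
    intro u hu
    show lo + σ • Ψ.toFun (A.invFun (A.toFun u)) = _
    rw [A.left_inv hu]
  have surj : ∀ x ∈ Icc lo hi, ∃ u ∈ bx N, x = lo + σ • u := fun x hx =>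
    ⟨A.invFun x, A.mapsTo_inv hx, (A.right_inv hx).symm⟩
  refine ⟨Φ, ?_, ?_, ?_, ?_⟩
  · intro x hx
    have hu : A0.invFun x ∈ sk N 0 := A0.mapsTo_inv hx
    have hx' : lo + σ • A0.invFun x = x := A0.right_inv hx
    rw [← hx', eΦ _ hu.1, g1 hu, eψ _ hu]
  · intro x hx z hz
    obtain ⟨u, hu, rfl⟩ := surj x hx
    rw [eΦ u hu, hdyc]
    rw [hdyc] at hz
    intro k
    exact ⟨(g2 u hu k).ge (hz k).1, (g2 u hu k).le (hz k).2⟩
  · intro x hx hxk
    obtain ⟨u, hu, rfl⟩ := surj x hx
    rw [eΦ u hu, g3 u hu]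
    intro k
    obtain ⟨h1, h2⟩ := hxk k
    have e : (lo + σ • u) k = lo k + σ * u k := rfl
    rw [e] at h1 h2
    rw [hhiN] at h2
    constructor
    · exact hle.1 (by linarith)
    · exact hle.1 (by linarith)
  · intro x hx y hy
    obtain ⟨u, hu, rfl⟩ := surj x hx
    obtain ⟨v, hv, rfl⟩ := surj y hy
    rw [eΦ u hu, eΦ v hv, hscale, hscale]
    have := mul_le_mul_of_nonneg_left (g4 u hu v hv) hσ0.le
    refine this.trans (le_of_eq ?_); ring

end P073.H669
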