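import Vale.Agent.P073.H73.PostSpec
import Vale.Agent.P073.H669.ConeLayer
import Vale.Agent.P073.H267.Glue3
import Vale.Agent.P073.Net.T12
import Vale.Agent.P073.KW720.Tiles

/-!
# P073, [LAY]: the cone layers inside of the protected cells
-/

open Set Metric Topology Filter

namespace P073.H669

open Vale.Agent.P073.St (V)
open P073.Net (dyc dyo IsTile SizeFn)
open P073.KW
open Vale.Agent.P073.H73 (Geo Bix SpecLay)

/-- if all tiles at `y` have generation `n`, the dyadic cubes of generation `n` at `y` are tiles -/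
theorem tile_of_gen {Λ : Set V} {ρ : V → ℝ} (hρ : SizeFn Λ ρ) {v y : V} (hy : y ∈ Λ) {n : ℕ}
    {z : Fin 3 → ℤ} (hyz : y ∈ dyc v n z)
    (hn : ∀ m z', IsTile ρ v m z' → y ∈ dyc v m z' → m = n) : IsTile ρ v n z := by
  obtain ⟨s, hs, m, z', ht, h1, h2⟩ := P073.Net.exists_tile_dir hρ v hy
    ((fun k => v k + (z k + 1 / 2) / 2 ^ n : V) - y)
  obtain rfl := hn m z' ht h1
  have h3 := segment_mem_dyo hyz (ctr_mem v m z) (t := min s 1)
    ⟨lt_min hs one_pos, min_le_right _ _⟩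
  set c : V := (fun k => v k + (z k + 1 / 2) / 2 ^ m : V) with hc
  have h4 : y + (min s 1) • (c - y) ∈ dyc v m z' := by
    rw [dyc_eq_Icc] at h1 h2 ⊢
    have hconv := convex_Icc (𝕜 := ℝ) (fun k => v k + z' k / 2 ^ m) (fun k => v k + (z' k + 1) / 2 ^ m)
    have e : y + (min s 1) • (c - y) = (1 - min s 1 / s) • y + (min s 1 / s) • (y + s • (c - y)) := by
      rw [smul_add, smul_smul, div_mul_cancel₀ _ hs.ne', sub_smul, one_smul]
      abel
    rw [e]
    refine hconv h1 h2 ?_ (by positivity) (by ring)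
    rw [sub_nonneg, div_le_one hs]
    exact min_le_left _ _
  obtain ⟨w, hw, hw'⟩ := open_meets_dyo h4 ((isOpen_dyo v m z).mem_nhds h3)
  rw [eq_of_meet ⟨w, hw, hw'⟩]
  exact ht

/-- every point lies in a dyadic cube of generation `m` -/
theorem exists_dyc (v : V) (m : ℕ) (x : V) : ∃ z, x ∈ dyc v m z := by
  have hp : (0:ℝ) < 2 ^ m := by positivity
  refine ⟨fun k => ⌊(x k - v k) * 2 ^ m⌋, fun k => ?_⟩
  have h1 := Int.floor_le ((x k - v k) * 2 ^ m)
  have h2 := Int.lt_floor_add_one ((x k - v k) * 2 ^ m)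
  constructor
  · have : ((⌊(x k - v k) * 2 ^ m⌋ : ℤ) : ℝ) / 2 ^ m ≤ x k - v k := by
      rw [div_le_iff₀ hp]; exact h1
    linarith
  · have : x k - v k ≤ (((⌊(x k - v k) * 2 ^ m⌋ : ℤ) : ℝ) + 1) / 2 ^ m := by
      rw [le_div_iff₀ hp]; exact h2.le
    linarith

theorem dyc_dist {v : V} {m : ℕ} {z : Fin 3 → ℤ} {x y : V} (hx : x ∈ dyc v m z)
    (hy : y ∈ dyc v m z) : ‖x - y‖ ≤ 1 / 2 ^ m := by
  rw [pi_norm_le_iff_of_nonneg (by positivity)]
  intro k
  have a := hx k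
  have b := hy k
  have e : ((z k : ℝ) + 1) / 2 ^ m = (z k : ℝ) / 2 ^ m + 1 / 2 ^ m := by rw [add_div]
  rw [e] at a b
  rw [Real.norm_eq_abs, Pi.sub_apply, abs_le]
  constructor <;> linarith [a.1, a.2, b.1, b.2]

/-- an injective affine map is a continuous affine equivalence -/
theorem exists_affEquiv {A : V → V} {L : V →L[ℝ] V} (hA : ∀ x y, A y - A x = L (y - x))
    (hL : Function.Injective L) : ∃ e : V ≃ᴬ[ℝ] V, ∀ x, e x = A x := by
  let l : V ≃L[ℝ] V := (LinearEquiv.ofInjectiveEndo (L : V →ₗ[ℝ] V) hL).toContinuousLinearEquiv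
  refine ⟨l.toContinuousAffineEquiv.trans (ContinuousAffineEquiv.constVAdd ℝ V (A 0)),
    fun x => ?_⟩
  have h1 := hA 0 x
  rw [sub_zero] at h1
  have h2 : A 0 + L x = A x := by rw [← h1]; abel
  rw [← h2]
  rfl

/-- the replacement inside of one protected cell -/
theorem one_cell {Ω Λ : Set V} (hΩ : IsOpen Ω) (hΛ : IsOpen Λ) {ρ : V → ℝ} (hρ : SizeFn Λ ρ)
    (g : ConHomeo Ω Λ) {A : V → V} {L : V →L[ℝ] V} (hA : ∀ x y, A y - A x = L (y - x))
    (hL : Function.Injective L) {lo hi : V} {m : ℕ} (hlo : ∀ k, ∃ a : ℤ, lo k = a / 2 ^ m)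
    (hhi : ∀ k, ∃ a : ℤ, hi k = a / 2 ^ m) (hlt : ∀ k, lo k < hi k)
    (hcΩ : A ⁻¹' Icc lo hi ⊆ Ω) (himg : g.toFun '' (A ⁻¹' Icc lo hi) = Icc lo hi)
    (hm : ∀ n z, IsTile ρ 0 n z → (dyc 0 n z ∩ frontier (Icc lo hi)).Nonempty → n = m)
    (htile : ∀ x ∈ frontier (A ⁻¹' Icc lo hi), ∀ n z, IsTile ρ 0 n z →
      A x ∈ dyc 0 n z → g.toFun x ∈ dyc 0 n z)
    {K : ℝ} (hK : 1 ≤ K)
    (hlip : ∀ x ∈ A ⁻¹' Icc lo hi, ∀ y ∈ A ⁻¹' Icc lo hi,
      (∃ k, A x k = lo k ∧ A y k = lo k ∨ A x k = hi k ∧ A y k = hi k) →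
      ‖g.toFun x - g.toFun y‖ ≤ K * ‖A x - A y‖) :
    ∃ G : ConHomeo (g.invFun '' Icc lo hi) (Icc lo hi),
      (∀ x ∈ g.invFun '' Icc lo hi, g.toFun x ∈ frontier (Icc lo hi) → G.toFun x = g.toFun x) ∧
      ∀ x ∈ A ⁻¹' Icc lo hi, ‖G.toFun x - A x‖ ≤ 1 / 2 ^ m ∧
        ((∀ k, lo k + 1 / 2 ^ m ≤ A x k ∧ A x k ≤ hi k - 1 / 2 ^ m) → G.toFun x = A x) ∧
        ∀ y ∈ A ⁻¹' Icc lo hi, ‖G.toFun x - G.toFun y‖ ≤ 216 * K * ‖A x - A y‖ := by
  obtain ⟨e, he⟩ := exists_affEquiv hA hL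
  have heA : A = e := funext fun x => (he x).symm
  subst heA
  clear he
  set P : Set V := Icc lo hi with hP
  set C : Set V := e ⁻¹' P with hC
  have hcl : IsClosed P := isClosed_Icc
  have hPΛ : P ⊆ Λ := by
    rw [← himg]
    rintro _ ⟨x, hx, rfl⟩
    exact g.mapsTo (hcΩ hx)
  have hgC : ∀ x ∈ C, g.toFun x ∈ P := fun x hx => himg ▸ mem_image_of_mem _ hx
  -- preimages
  have hinvP : g.invFun '' P = C := by
    rw [← himg, image_image]
    ext x
    constructor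
    · rintro ⟨y, hy, rfl⟩
      show g.invFun (g.toFun y) ∈ C
      rw [g.left_inv (hcΩ hy)]; exact hy
    · intro hx
      exact ⟨x, hx, g.left_inv (hcΩ hx)⟩
  have hintC : interior C = g.invFun '' interior P := by
    rw [← P073.H267.interior_invImage hΩ hΛ g hPΛ, hinvP]
  have hCcl : IsClosed C := hcl.preimage e.continuous
  have hfrC : frontier C = e ⁻¹' frontier P := by
    rw [hC]
    exact (e.toHomeomorph.preimage_frontier P).symm
  have hfrCC : frontier C ⊆ C := hCcl.frontier_subset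
  have hfrPP : frontier P ⊆ P := hcl.frontier_subset
  have hgfr : g.toFun '' frontier C = frontier P := by
    rw [hCcl.frontier_eq, hcl.frontier_eq, hintC]
    ext y
    constructor
    · rintro ⟨x, ⟨hx, hx'⟩, rfl⟩
      exact ⟨hgC x hx, fun h => hx' ⟨_, h, g.left_inv (hcΩ hx)⟩⟩
    · rintro ⟨hy, hy'⟩
      refine ⟨g.invFun y, ⟨hinvP ▸ mem_image_of_mem _ hy, ?_⟩, g.right_inv (hPΛ hy)⟩
      rintro ⟨w, hw, hwy⟩
      have := congrArg g.toFun hwy
      rw [g.right_inv (hPΛ (interior_subset hw)), g.right_inv (hPΛ hy)] at this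
      exact hy' (this ▸ hw)
  -- the chart
  have hLCP : LocCone P := locCone_Icc_pi _ _
  have himgC : e.symm '' P = C := by
    ext x
    constructor
    · rintro ⟨y, hy, rfl⟩
      show e (e.symm y) ∈ P
      rw [e.apply_symm_apply]; exact hy
    · intro hx
      exact ⟨e x, hx, e.symm_apply_apply x⟩
  have himgF : e.symm '' frontier P = frontier C := by
    rw [hfrC]
    ext x
    constructor
    · rintro ⟨y, hy, rfl⟩
      show e (e.symm y) ∈ frontier P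
      rw [e.apply_symm_apply]; exact hy
    · intro hx
      exact ⟨e x, hx, e.symm_apply_apply x⟩
  let α : ConHomeo P C := (ConHomeo.ofAffine e.symm hLCP.conicalSet).cast rfl himgC
  let α0 : ConHomeo (frontier P) (frontier C) :=
    (ConHomeo.ofAffine e.symm hLCP.frontier.conicalSet).cast rfl himgF
  let β : ConHomeo (frontier C) (frontier P) :=
    (g.restr α0.conicalSet_right (hfrCC.trans hcΩ)).cast rfl hgfr
  let ψ : ConHomeo (frontier P) (frontier P) := α0.trans β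
  have hψe : ∀ x, ψ.toFun x = g.toFun (e.symm x) := fun x => rfl
  obtain ⟨Ψ, h1, h2, h3, h4⟩ := cone_layer (w := 0) (lo := lo) (hi := hi) (m := m)
    (fun k => by obtain ⟨a, ha⟩ := hlo k; exact ⟨a, by rw [ha]; simp⟩)
    (fun k => by obtain ⟨a, ha⟩ := hhi k; exact ⟨a, by rw [ha]; simp⟩) hlt ψ
    (fun x hx z hz => by
      rw [hψe]
      refine htile (e.symm x) ?_ m z ?_ ?_
      · rw [hfrC, mem_preimage, e.apply_symm_apply]; exact hx
      · exact tile_of_gen hρ (hPΛ (hfrPP hx)) hz fun n z' hz' hx' => hm n z' hz' ⟨x, hx', hx⟩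
      · rw [e.apply_symm_apply]; exact hz) hK
    (fun z l x hx _ y hy _ hxy hl => by
      rw [hψe, hψe]
      have h := hlip (e.symm x) (by
        rw [mem_preimage, e.apply_symm_apply]; exact hfrPP hx) (e.symm y) (by
        rw [mem_preimage, e.apply_symm_apply]; exact hfrPP hy) ⟨l, by
          rw [e.apply_symm_apply, e.apply_symm_apply]
          rcases hl with hl | hl
          · exact Or.inl ⟨hl, hxy ▸ hl⟩
          · exact Or.inr ⟨hl, hxy ▸ hl⟩⟩
      rwa [e.apply_symm_apply, e.apply_symm_apply] at h)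
  refine ⟨(α.symm.trans Ψ).cast hinvP.symm rfl, ?_, ?_⟩
  · intro x hx hxf
    show Ψ.toFun (e x) = g.toFun x
    have hxC : x ∈ C := hinvP ▸ hx
    have hxF : x ∈ frontier C := by
      rw [← hgfr] at hxf
      obtain ⟨y, hy, hyx⟩ := hxf
      rw [← g.injOn (hcΩ (hfrCC hy)) (hcΩ hxC) hyx]; exact hy
    rw [hfrC] at hxF
    rw [h1 hxF, hψe, e.symm_apply_apply]
  · intro x hx
    refine ⟨?_, fun h => ?_, fun y hy => ?_⟩
    · show ‖Ψ.toFun (e x) - e x‖ ≤ 1 / 2 ^ m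
      obtain ⟨z, hz⟩ := exists_dyc 0 m (e x)
      exact dyc_dist (h2 _ hx z hz) hz
    · show Ψ.toFun (e x) = e x
      exact h3 _ hx fun k => ⟨(h k).1, by linarith [(h k).2]⟩
    · exact h4 _ hx _ hy

/-- **[LAY]** -/
theorem specLay : SpecLay := by
  refine ⟨216, fun Ω Λ G g K hΩ hΛ hK himg htile hlip => ?_⟩
  have hΩo : IsOpen Ω := hΩ.1
  have hΛo : IsOpen Λ := hΛ.1
  have hcΩ : ∀ b ∈ G.B, b.cell G.A ⊆ Ω := by
    intro b hb x hx
    exact (G.hA b hb x ⟨x, hx, by rw [sub_self, norm_zero]; positivity⟩).1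
  have H : ∀ b : {b // b ∈ G.B}, _ := fun b =>
    one_cell hΩo hΛo G.size g (G.aff b.1.1) (G.inj b.1.1 (G.bJ b.1 b.2)) (G.blo b.1 b.2)
      (G.bhi b.1 b.2) (G.blt b.1 b.2) (hcΩ b.1 b.2) (himg b.1 b.2) (G.bmt b.1 b.2)
      (htile b.1 b.2) hK (hlip b.1 b.2)
  choose F hF1 hF2 using H
  have hPΛ : ∀ b : {b // b ∈ G.B}, Icc b.1.2.1 b.1.2.2 ⊆ Λ := by
    intro b
    have := himg b.1 b.2
    unfold Bix.box at this
    rw [← this]
    rintro _ ⟨x, hx, rfl⟩
    exact g.mapsTo (hcΩ b.1 b.2 hx)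
  have hdis : ∀ b b' : {b // b ∈ G.B}, b ≠ b' →
      Disjoint (Icc b.1.2.1 b.1.2.2) (Icc b'.1.2.1 b'.1.2.2) := by
    intro b b' hbb'
    rw [Set.disjoint_left]
    intro y hy hy'
    have h1 : y ∈ g.toFun '' b.1.cell G.A := by rw [himg b.1 b.2]; exact hy
    have h2 : y ∈ g.toFun '' b'.1.cell G.A := by rw [himg b'.1 b'.2]; exact hy'
    obtain ⟨x, hx, rfl⟩ := h1
    obtain ⟨x', hx', hxx⟩ := h2
    have hxe : x' = x := g.injOn (hcΩ b'.1 b'.2 hx') (hcΩ b.1 b.2 hx) hxx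
    subst hxe
    have h3 := G.sep b.1 b.2 b'.1 b'.2 (fun h => hbb' (Subtype.ext h)) x' hx x' hx'
    rw [sub_self, norm_zero] at h3
    have h4 : (0:ℝ) < 16 / 2 ^ G.nr := by positivity
    linarith
  have hfin : Finite {b // b ∈ G.B} := inferInstance
  obtain ⟨g', h1, -, h3, -⟩ := P073.H267.exists_glue_boxes hΩo hΛo g
    (P := fun b : {b // b ∈ G.B} => Icc b.1.2.1 b.1.2.2) (fun b => isCompact_Icc) hPΛ
    (fun b => locCone_Icc_pi _ _)
    (fun z _ => ⟨univ, univ_mem, Set.toFinite _⟩)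
    (fun b b' hb => (hdis b b' hb).mono_left interior_subset) F hF1
  have hinv : ∀ b (hb : b ∈ G.B), b.cell G.A = g.invFun '' Icc b.2.1 b.2.2 := by
    intro b hb
    have h5 := himg b hb
    unfold Bix.box at h5
    rw [← h5, image_image]
    ext x
    constructor
    · intro hx
      exact ⟨x, hx, g.left_inv (hcΩ b hb hx)⟩
    · rintro ⟨y, hy, rfl⟩
      show g.invFun (g.toFun y) ∈ b.cell G.A
      rw [g.left_inv (hcΩ b hb hy)]; exact hy
  refine ⟨g', fun x hx hxb => h3 x hx fun b hb => ?_, fun b hb x hx => ?_⟩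
  · -- `g x` in the interior of the box
    apply hxb b.1 b.2
    rw [hinv b.1 b.2, P073.H267.interior_invImage hΩo hΛo g (hPΛ b)]
    exact ⟨_, hb, g.left_inv hx⟩
  · have h5 : ∀ y ∈ b.cell G.A, g'.toFun y = (F ⟨b, hb⟩).toFun y := fun y hy =>
      h1 ⟨b, hb⟩ (by rw [← hinv b hb]; exact hy)
    obtain ⟨h6, h7, h8⟩ := hF2 ⟨b, hb⟩ x hx
    refine ⟨?_, fun h => ?_, fun y hy => ?_⟩
    · rw [h5 x hx]; exact h6
    · rw [h5 x hx]; exact h7 h
    · rw [h5 x hx, h5 y hy]; exact h8 y hy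

end P073.H669
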