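import Vale.Agent.P073.H238.TStage1
import Vale.Agent.P073.H236.GeoT
import Vale.Agent.P073.H345.Stage2
import Vale.Agent.P073.H196.Croft6

/-!
# P073, H669: **[T-LEV]** the levels of round T

`TLv`: a generic offset, spacings and levels in the boxes of round T, with the crossing numbers of
the edges (from `H196.exists_croft`).
-/

open Set Metric Topology Filter
open scoped ENNReal

namespace Vale.Agent.P073.H669

open _root_.P073 _root_.P073.TR _root_.P073.Net _root_.P073.PA691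
open _root_.P073.PR720 (LF)
open Vale.Agent.P073.St (V)
open Vale.Agent.P073.H471 Vale.Agent.P073.H267 Vale.Agent.P073.H267.Geo
open Vale.Agent.P073.H73 (Mesh)
open Vale.Agent.P073.H193 (Edges)
open Vale.Agent.P073.H238 (oT marg TStage1 TAct TProt skel mesh_sub)
open _root_.P073.Croft (Cells Crs levs Generic onS cross varIn TransAt SepL)
open _root_.P073.H345 (fam Fam RegB)
open _root_.P073.H236 (BX Lvs)
open _root_.P073.H805 (Reg)

/-! ### the family of the mesh -/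

section mesh

variable {Ω : Set V} {M : Mesh Ω} {E : Edges M} {τ : Type*}

theorem fam_cone (g : M.κ ⊕ (E.ε ⊕ E.verts)) (x : V) : LocConeAt (fam M E g) x := by
  rcases g with k | e | y
  · exact (Vale.Agent.P073.H244.conBall_face M k).locCone x
  · exact _root_.P073.H339.locCone_segment (E.a e) (E.b e) x
  · have h1 := _root_.P073.H339.locCone_segment y.1 y.1 x
    rw [segment_same] at h1
    exact h1

theorem fam_lf (hΩ : IsOpen Ω) (M : Mesh Ω) (E : Edges M) :
    ∀ x ∈ Ω, ∃ O ∈ 𝓝 x, {g | (fam M E g ∩ O).Nonempty}.Finite := by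
  intro x hx
  obtain ⟨r, hr, hb⟩ := Metric.nhds_basis_closedBall.mem_iff.1 (hΩ.mem_nhds hx)
  refine ⟨closedBall x r, closedBall_mem_nhds x hr, ?_⟩
  have hc := isCompact_closedBall x r
  have hv : {y : E.verts | y.1 ∈ closedBall x r}.Finite := by
    have h1 := E.verts_finite hb hc
    refine (h1.preimage (f := fun y : E.verts => y.1) Subtype.val_injective.injOn).subset ?_
    intro y hy
    exact ⟨y.2, hy⟩
  refine (((M.ffin _ hb hc).image Sum.inl).union
    ((((E.fin _ hb hc).image Sum.inl).union (hv.image Sum.inr)).image Sum.inr)).subset ?_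
  rintro (k | e | y) hg
  · exact Or.inl ⟨k, hg, rfl⟩
  · exact Or.inr ⟨Sum.inl e, Or.inl ⟨e, hg, rfl⟩, rfl⟩
  · refine Or.inr ⟨Sum.inr y, Or.inr ⟨y, ?_, rfl⟩, rfl⟩
    obtain ⟨z, hz, hz'⟩ := hg
    have : z = y.1 := hz
    rw [this] at hz'
    exact hz'

/-- the family of the mesh and a further family -/
def famA (M : Mesh Ω) (E : Edges M) (A : τ → Set V) : (M.κ ⊕ (E.ε ⊕ E.verts)) ⊕ τ → Set V :=
  Sum.elim (fam M E) A

theorem famA_cone {A : τ → Set V} (hA : ∀ t, ∀ x ∈ Ω, LocConeAt (A t) x)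
    (g : (M.κ ⊕ (E.ε ⊕ E.verts)) ⊕ τ) : ∀ x ∈ Ω, LocConeAt (famA M E A g) x := by
  rcases g with g | t
  · exact fun x _ => fam_cone g x
  · exact fun x hx => hA t x hx

theorem famA_lf (hΩ : IsOpen Ω) (M : Mesh Ω) (E : Edges M) {A : τ → Set V}
    (hA : ∀ x ∈ Ω, ∃ U ∈ 𝓝 x, {t | (A t ∩ U).Nonempty}.Finite) :
    ∀ x ∈ Ω, ∃ O ∈ 𝓝 x, {g | (famA M E A g ∩ O).Nonempty}.Finite := by
  intro x hx
  obtain ⟨O, hO, h1⟩ := fam_lf hΩ M E x hx
  obtain ⟨U, hU, h2⟩ := hA x hx
  refine ⟨O ∩ U, inter_mem hO hU, ((h1.image Sum.inl).union (h2.image Sum.inr)).subset ?_⟩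
  rintro (g | t) ⟨y, hy, hyO⟩
  · exact Or.inl ⟨g, ⟨y, hy, hyO.1⟩, rfl⟩
  · exact Or.inr ⟨t, ⟨y, hy, hyO.2⟩, rfl⟩

end mesh

/-! ### geometry of the boxes -/

variable {Ω Λ : Set V} {v : V} {K : BoxCx Λ v} {S : Rad K} {W : Wid K S} {B : Boxes W}

/-- the window of a box is long -/
theorem win (G : Geo B) (b : TBx K) :
    100 * oT G b < G.thi true b b.ax - G.tlo true b b.ax := by
  rcases b with e | h
  · have hax : TBx.ax (.inl e : TBx K) = K.dir e := rfl
    rw [hax]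
    simp only [Geo.tlo, Geo.thi, if_true, oT]
    have h7 := vdist S (i := K.a e) (j := K.b e) (l := K.dir e) (fun hab => by
      have := K.ab_dir e
      rw [hab] at this
      exact lt_irrefl _ this) (fun k hk => K.ab_off e k hk)
    have h8 := G.be_r (K.a e)
    have h8' := G.be_r (K.b e)
    have h9 := G.lam_a e
    have h10 := G.be_pos (K.b e)
    have h11 := K.ab_dir e
    have h12 := G.uT_lam e
    have h13 := G.oG_uT e
    have h14 := G.uT_pos e
    rw [abs_of_neg (by linarith)] at h7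
    linarith
  · have hax : TBx.ax (.inr h : TBx K) = h.l := rfl
    rw [hax]
    simp only [Geo.tlo, Geo.thi, if_true, oT]
    have h1 := G.oW_be h.i
    have h2 := G.be_pos h.i
    linarith

theorem tlo_le_thi (G : Geo B) {ω : ℝ} (b : TBx K) (h0 : 0 < ω) (hω : ω ≤ oT G b) (f : Bool)
    (k : Fin 3) : G.tlo f b k < G.thi f b k := by
  by_cases hk : k = b.ax
  · subst hk
    have h1 := win G b
    rw [(_root_.P073.H236.tlo_ax G).1, (_root_.P073.H236.tlo_ax G).2]
    linarith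
  · have key : G.tlo true b k < G.thi true b k := by
      rcases b with e | h
      · have hk' : k ≠ K.dir e := hk
        have h2 := G.uT_pos e
        simp only [Geo.tlo, Geo.thi, if_neg hk', if_true]
        linarith
      · have hk' : k ≠ h.l := hk
        have h2 := B.τ_pos h.s
        have h3 := G.p_pos h.s
        simp only [Geo.tlo, Geo.thi, if_neg hk', if_true]
        split_ifs <;> linarith
    cases f
    · obtain ⟨h1, h2⟩ := _root_.P073.H236.tlo_lt G hk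
      linarith
    · exact key

theorem mem_TB {G : Geo B} {f : Bool} {b : TBx K} {y : V} :
    y ∈ G.TB f b ↔ ∀ k, G.tlo f b k ≤ y k ∧ y k ≤ G.thi f b k :=
  ⟨fun h k => ⟨h.1 k, h.2 k⟩, fun h => ⟨fun k => (h k).1, fun k => (h k).2⟩⟩

theorem TB_nonempty (G : Geo B) {ω : ℝ} (b : TBx K) (h0 : 0 < ω) (hω : ω ≤ oT G b) (f : Bool) :
    (G.TB f b).Nonempty :=
  ⟨G.tlo f b, fun _ => le_rfl, fun k => (tlo_le_thi G b h0 hω f k).le⟩

theorem TB_sub_false (G : Geo B) (f : Bool) (b : TBx K) : G.TB f b ⊆ G.TB false b := by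
  cases f
  · exact Subset.rfl
  · exact TB_true_subset b

/-- two boxes at most at a point -/
theorem encard_TB (G : Geo B) (f : Bool) (y : V) : {b : TBx K | y ∈ G.TB f b}.encard ≤ 2 := by
  classical
  have hsub : ∀ b ∈ {b : TBx K | y ∈ G.TB f b}, y ∈ G.TB false b := fun b hb =>
    TB_sub_false G f b hb
  have he : ∀ e e' : K.G, (Sum.inl e : TBx K) ∈ {b : TBx K | y ∈ G.TB f b} →
      (Sum.inl e' : TBx K) ∈ {b : TBx K | y ∈ G.TB f b} → e = e' := by
    intro e e' h1 h2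
    by_contra hne
    exact (disjoint_TB_inl (G := G) hne).notMem_of_mem_left (hsub _ h1) (hsub _ h2)
  have hh : ∀ h h' : Hang K, (Sum.inr h : TBx K) ∈ {b : TBx K | y ∈ G.TB f b} →
      (Sum.inr h' : TBx K) ∈ {b : TBx K | y ∈ G.TB f b} → h = h' := by
    intro h h' h1 h2
    have h1 := hsub _ h1
    have h2 := hsub _ h2
    by_cases hi : h.i = h'.i
    · by_cases hs : h.s = h'.s
      · exact hang_eq hi hs
      · exact absurd (Zs_subset (TB_subset_Zs h' h2))
          ((disjoint_ss (W := W) hs).notMem_of_mem_left (Zs_subset (TB_subset_Zs h h1)))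
    · have hb := G.be_pos h.i
      have hb' := G.be_pos h'.i
      have h32 := G.be_r h.i
      have h32' := G.be_r h'.i
      exact absurd (closedBall_subset_closedBall (by linarith) (TB_inr_ball h' h2))
        ((S.U_disj _ _ hi).notMem_of_mem_left
          (closedBall_subset_closedBall (by linarith) (TB_inr_ball h h1)))
  have h1 : {b : TBx K | y ∈ G.TB f b} ⊆ (Sum.inl '' {e | y ∈ G.TB f (.inl e)}) ∪
      (Sum.inr '' {h | y ∈ G.TB f (.inr h)}) := by
    rintro (e | h) hb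
    · exact Or.inl ⟨e, hb, rfl⟩
    · exact Or.inr ⟨h, hb, rfl⟩
  refine (encard_le_encard h1).trans ((encard_union_le _ _).trans ?_)
  have h2 : (Sum.inl '' {e | y ∈ G.TB f (.inl e)} : Set (TBx K)).encard ≤ 1 := by
    refine (encard_le_one_iff).2 ?_
    rintro _ _ ⟨e, h3, rfl⟩ ⟨e', h4, rfl⟩
    rw [he e e' h3 h4]
  have h3 : (Sum.inr '' {h | y ∈ G.TB f (.inr h)} : Set (TBx K)).encard ≤ 1 := by
    refine (encard_le_one_iff).2 ?_
    rintro _ _ ⟨e, h3, rfl⟩ ⟨e', h4, rfl⟩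
    rw [hh e e' h3 h4]
  calc _ ≤ (1 + 1 : ℕ∞) := add_le_add h2 h3
    _ = 2 := one_add_one_eq_two

/-! ### the levels -/

/-- **the levels of round T** -/
structure TLv (G : Geo B) {M : Mesh Ω} (E : Edges M) (h : ConHomeo Ω Λ) (ω : TBx K → ℝ)
    (T : TBx K → Finset (ℝ × ℝ)) (η : ℝ) {τ : Type*} (A : τ → Set V) (C : Set ℝ)
    (εE : E.ε → ℝ) (δ : TBx K → ℝ) where
  /-- the offset -/
  θ : Fin 3 → ℝ
  /-- number of levels -/
  N : TBx K → ℕ
  /-- the cells -/
  x : TBx K → ℕ → ℝ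
  /-- the levels -/
  a : TBx K → ℕ → ℝ
  ω0 : ∀ b, 0 < ω b
  ωo : ∀ b, ω b ≤ oT G b
  δ0 : ∀ b, 0 < δ b
  η0 : 0 < η
  η4 : η ≤ 1 / 4
  pos : ∀ b, 0 < N b
  cells : ∀ b, Cells (G.tlo true b b.ax + 30 * ω b) (G.thi true b b.ax - 30 * ω b) (θ b.ax)
    (δ b) η (T b) (N b) (x b) (a b)
  gen : Generic h.toFun (famA M E A) Ω C θ
  crs : ∀ f e, Crs h.toFun (E.a e) (E.b e) TBx.ax (fun b => G.TB f b) δ
    (fun b => levs (N b) (a b)) (1 - 2 * η)⁻¹ (εE e)

theorem exists_tlv (hΩ : IsOpen Ω) (G : Geo B) {M : Mesh Ω} (E : Edges M) (h : ConHomeo Ω Λ)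
    {ω : TBx K → ℝ} (ω0 : ∀ b, 0 < ω b) (ωo : ∀ b, ω b ≤ oT G b) {τ : Type*} {A : τ → Set V}
    (hA : ∀ t, ∀ x ∈ Ω, LocConeAt (A t) x)
    (hAlf : ∀ x ∈ Ω, ∃ U ∈ 𝓝 x, {t | (A t ∩ U).Nonempty}.Finite)
    {εE : E.ε → ℝ} (hε : ∀ e, 0 < εE e) {C : Set ℝ} (hC : C.Countable) {η : ℝ} (hη : 0 < η)
    (hη4 : η ≤ 1 / 4) {dmax : TBx K → ℝ} (hd : ∀ b, 0 < dmax b) (T : TBx K → Finset (ℝ × ℝ))
    (hT : ∀ b, ∀ p ∈ T b, p.1 ≤ p.2)
    (hTs : ∀ b, ∑ p ∈ T b, (p.2 - p.1) <
      G.thi true b b.ax - 30 * ω b - (G.tlo true b b.ax + 30 * ω b)) :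
    ∃ δ : TBx K → ℝ, (∀ b, δ b ≤ dmax b) ∧ Nonempty (TLv G E h ω T η A C εE δ) := by
  classical
  have hTBc : ∀ (f : Bool) b, IsCompact (G.TB f b) := fun f b => isCompact_Icc
  have hTBs : ∀ (f : Bool) b, G.TB f b ⊆ Λ := fun f b => (TB_sub_false G f b).trans (TB_sub b)
  have hlfB : ∀ y ∈ Λ, ∃ O ∈ 𝓝 y, {b : TBx K | (G.TB false b ∩ O).Nonempty}.Finite := lf_TB G
  have hcount : Countable (TBx K) := Croft.countable_of_lf (P := fun b => G.TB false b)
    (fun b => TB_nonempty G b (ω0 b) (ωo b) false) (fun b => TB_sub b) hlfB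
  have hseg : ∀ e, segment ℝ (E.a e) (E.b e) ⊆ Ω := fun e => E.seg_sub_Ω e
  have hfin0 : ∀ e, {b | (h.toFun '' segment ℝ (E.a e) (E.b e) ∩ G.TB false b).Nonempty}.Finite :=
    fun e => Croft.finite_inter_image h hlfB (E.isCompact_seg e) (hseg e)
  -- the tolerances
  set n : E.ε → ℝ := fun e => ((hfin0 e).toFinset.card : ℝ) with hn
  have hn0 : ∀ e, 0 ≤ n e := fun e => Nat.cast_nonneg _
  have hε' : ∀ e, 0 < εE e / (1 + n e) := fun e => div_pos (hε e) (by linarith [hn0 e])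
  have h2η : 0 < 1 - 2 * η := by linarith
  have hK : 1 ≤ (1 - 2 * η)⁻¹ := (one_le_inv₀ h2η).2 (by linarith)
  obtain ⟨θ, -, hgen, δ₀, hδ₀, H⟩ := Croft.exists_croft (κ := TBx K × Bool) h hΩ
    (M := famA M E A) (fun m => famA_cone hA m) (famA_lf hΩ M E hAlf) hseg
    (P := fun b => G.TB b.2 b.1) (fun b => convex_Icc _ _)
    (fun e => ((hfin0 e).prod (Set.toFinite (univ : Set Bool))).subset fun b hb =>
      ⟨hb.mono (inter_subset_inter_right _ (TB_sub_false G b.2 b.1)), mem_univ _⟩)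
    (fun b => Croft.finite_image_inter h hseg (fun X hX hXc => E.fin X hX hXc)
      (hTBc b.2 b.1) (hTBs b.2 b.1)) (fun b => b.1.ax) (ε := fun e => εE e / (1 + n e)) hε' hC
    isOpen_univ univ_nonempty hK
  -- the spacings
  set ℓ : TBx K → ℝ := fun b => G.thi true b b.ax - 30 * ω b - (G.tlo true b b.ax + 30 * ω b) -
    ∑ p ∈ T b, (p.2 - p.1) with hℓ
  have hℓ0 : ∀ b, 0 < ℓ b := fun b => by have := hTs b; simp only [hℓ]; linarith
  set δ : TBx K → ℝ := fun b => min (min (δ₀ (b, false)) (δ₀ (b, true))) (min (dmax b)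
    (ℓ b / (2 * (T b).card + 2))) with hδ
  have hδ0 : ∀ b, 0 < δ b := fun b => lt_min (lt_min (hδ₀ _) (hδ₀ _))
    (lt_min (hd b) (div_pos (hℓ0 b) (by positivity)))
  have hδf : ∀ b : TBx K × Bool, δ b.1 ≤ δ₀ b := by
    rintro ⟨b, f⟩
    cases f
    · exact (min_le_left _ _).trans (min_le_left _ _)
    · exact (min_le_left _ _).trans (min_le_right _ _)
  have hδm : ∀ b, δ b ≤ dmax b := fun b => (min_le_right _ _).trans (min_le_left _ _)
  have hδℓ : ∀ b, δ b * (2 * (T b).card + 2) ≤ ℓ b := fun b => by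
    have h1 : δ b ≤ ℓ b / (2 * (T b).card + 2) := (min_le_right _ _).trans (min_le_right _ _)
    rwa [le_div_iff₀ (by positivity)] at h1
  have hTn : ∀ b, 0 ≤ ∑ p ∈ T b, (p.2 - p.1) := fun b =>
    Finset.sum_nonneg fun p hp => by linarith [hT b p hp]
  have hlh : ∀ b : TBx K, G.tlo true b b.ax + 30 * ω b ≤ G.thi true b b.ax - 30 * ω b := fun b => by
    linarith [hTs b, hTn b]
  choose N x a hc using fun b => Croft.exists_cells (θ b.ax) (hlh b) (hδ0 b) hη (T b) (hT b)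
  have hpos : ∀ b, 0 < N b := by
    intro b
    rcases Nat.eq_zero_or_pos (N b) with h0 | h0
    · exfalso
      have h1 := (hc b).le_num
      rw [h0] at h1
      have h2 := hδℓ b
      have h3 := hδ0 b
      simp only [hℓ] at h2
      push_cast at h1
      nlinarith
    · exact h0
  have Hc := H (fun b => δ b.1) (fun b => levs (N b.1) (a b.1)) (fun b => hδ0 b.1) hδf
    (fun b => by
      have h1 := (hc b.1).sepL (hδ0 b.1) hη4
      have e : δ b.1 / (1 - 2 * η)⁻¹ = (1 - 2 * η) * δ b.1 := by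
        rw [div_inv_eq_mul]; ring
      show SepL (δ b.1 / (1 - 2 * η)⁻¹) _
      rwa [e]) (fun b t ht => by
      obtain ⟨k, -, rfl⟩ := ht
      exact (hc b.1).rat k)
  refine ⟨δ, hδm, ⟨⟨θ, N, x, a, ω0, ωo, hδ0, hη, hη4, hpos, hc, hgen, fun f e => ?_⟩⟩⟩
  have He := Hc e
  refine ⟨fun b => He.fin (b, f), fun b => He.trans (b, f), fun b => ?_, ?_⟩
  · refine (He.one (b, f)).trans ?_
    gcongr
    rw [div_le_iff₀ (by linarith [hn0 e])]
    nlinarith [hε e, hn0 e]
  · -- finitely many boxes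
    set F := (hfin0 e).toFinset with hF
    have hzero : ∀ b, b ∉ F → ENNReal.ofReal (δ b) *
        cnt (cross (onS h.toFun (E.a e) (E.b e)) b.ax (levs (N b) (a b)) (G.TB f b)) = 0 := by
      intro b hb
      have : cross (onS h.toFun (E.a e) (E.b e)) b.ax (levs (N b) (a b)) (G.TB f b) = ∅ := by
        rw [Set.eq_empty_iff_forall_notMem]
        rintro t ⟨ht, htP, -⟩
        refine hb ?_
        rw [hF, Finite.mem_toFinset]
        exact ⟨_, ⟨_, Croft.onS_mem ht, rfl⟩, TB_sub_false G f b htP⟩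
      rw [this]
      simp [cnt]
    rw [tsum_eq_sum hzero]
    calc ∑ b ∈ F, ENNReal.ofReal (δ b) *
          cnt (cross (onS h.toFun (E.a e) (E.b e)) b.ax (levs (N b) (a b)) (G.TB f b))
        ≤ ∑ b ∈ F, (ENNReal.ofReal (1 - 2 * η)⁻¹ *
            varIn (onS h.toFun (E.a e) (E.b e)) b.ax (G.TB f b) 0 1 +
            ENNReal.ofReal (εE e / (1 + n e))) :=
          Finset.sum_le_sum fun b _ => He.one (b, f)
      _ = ENNReal.ofReal (1 - 2 * η)⁻¹ *
            ∑ b ∈ F, varIn (onS h.toFun (E.a e) (E.b e)) b.ax (G.TB f b) 0 1 +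
            (F.card : ℝ≥0∞) * ENNReal.ofReal (εE e / (1 + n e)) := by
          rw [Finset.sum_add_distrib, Finset.mul_sum, Finset.sum_const, nsmul_eq_mul]
      _ ≤ _ := by
          gcongr
          · exact ENNReal.sum_le_tsum _
          · rw [← ENNReal.ofReal_natCast, ← ENNReal.ofReal_mul (Nat.cast_nonneg _)]
            apply ENNReal.ofReal_le_ofReal
            have h1 : ((F.card : ℕ) : ℝ) = n e := rfl
            rw [h1, ← mul_div_assoc, div_le_iff₀ (by linarith [hn0 e])]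
            nlinarith [hε e, hn0 e]

end Vale.Agent.P073.H669
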