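import Vale.Agent.P073.H333.PreDefs
import Vale.Agent.P073.H194.Faces
import Vale.Agent.P073.AB.Sum308a

/-!
# P073, block A15-PRE, [PRE-C]: the base partition

`Fine`: the cubes of generation `n + k₁ + k₀` at the good cells are tiles.  The base partition
is a partition; position of its cubes with respect to the good cells.
-/

namespace Vale.Agent.P073.H669

open MeasureTheory Set Filter Topology Metric Vale.Agent.P073.St Vale.Agent.P073.AB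
open Vale.Agent.P073.AB.P86 Vale.Agent.P073.AB.S308
open _root_.P073.Net (dyc dyo)
open _root_.P073.Net.NC (exists_mem fine_sub fine_sub')
open Vale.Agent.P073.H333 (lay gap core out base inet)
open Vale.Agent.P073.H193 (refine_cases q_eq dyo_sub exists_sub specRefine)
open Vale.Agent.P073.H194 (refine Big)

/-- The good cells are finely divided. -/
structure Fine (Ω : Set V) (v : V) (n k₁ k₀ : ℕ) (J : Finset (Fin 3 → ℤ)) : Prop where
  part : Part Ω v (tiles Ω (n + k₁ + k₀) v)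
  gen : ∀ q ∈ tiles Ω (n + k₁ + k₀) v, n + k₁ + k₀ ≤ q.1
  two : 2 ≤ k₁
  fine : ∀ z ∈ J, ∀ w, (dyc v (n + k₁ + k₀) w ∩ dyc v n z).Nonempty →
    ((n + k₁ + k₀, w) : Idx) ∈ tiles Ω (n + k₁ + k₀) v

theorem Fine.of {Ω : Set V} (hΩ : IsOpen Ω) (hb : Bornology.IsBounded Ω) (hne : Ω.Nonempty)
    {v : V} {n k₁ k₀ : ℕ} {J : Finset (Fin 3 → ℤ)} (hk : 2 ≤ k₁)
    (h : ∀ z ∈ J, ∀ w, (dyc v (n + k₁ + k₀) w ∩ dyc v n z).Nonempty →
      ((n + k₁ + k₀, w) : Idx) ∈ tiles Ω (n + k₁ + k₀) v) : Fine Ω v n k₁ k₀ J :=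
  ⟨(specTiles Ω _ v hΩ hb hne).2.1, (specTiles Ω _ v hΩ hb hne).2.2.1, hk, h⟩

variable {Ω : Set V} {v : V} {n k₁ k₀ : ℕ} {J : Finset (Fin 3 → ℤ)} {z : Fin 3 → ℤ} {x : V}

/-- a finer cube with a point in the open cube is contained in the closed cube -/
theorem sub_of_dyo {m m' : ℕ} {w : Fin 3 → ℤ} (h : m ≤ m') (hx : x ∈ dyc v m' w)
    (hx' : x ∈ dyo v m z) : dyc v m' w ⊆ dyc v m z :=
  _root_.P073.Net.NC.dyc_sub (fine_sub h hx' hx)

theorem dyo_sub_of_dyo {m m' : ℕ} {w : Fin 3 → ℤ} (h : m ≤ m') (hx : x ∈ dyo v m' w)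
    (hx' : x ∈ dyc v m z) : dyc v m' w ⊆ dyc v m z := by
  rw [dyc_eq_gbox v m z] at hx' ⊢
  exact dyc_sub_of_mem_dyo h hx hx'

theorem eight (h : 2 ≤ k₁) : (4:ℤ) ≤ 2 ^ k₁ := by
  calc (4:ℤ) = 2 ^ 2 := by norm_num
    _ ≤ 2 ^ k₁ := pow_le_pow_right₀ (by norm_num) h

/-- cubes with a common open point, in two cells -/
theorem cell_unique {z z' : Fin 3 → ℤ} {q : Idx} (h : dyc v q.1 q.2 ⊆ dyc v n z)
    (h' : dyc v q.1 q.2 ⊆ dyc v n z') : z = z' := by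
  by_contra hne
  exact Set.disjoint_left.1 (dyo_disj (v := v) (m := n) hne) (dyo_sub h (cen_mem v q.1 q.2))
    (dyo_sub h' (cen_mem v q.1 q.2))

/-- an open cell is disjoint from another closed cell -/
theorem dyo_dyc_disj {z z' : Fin 3 → ℤ} (h : z ≠ z') : Disjoint (dyc v n z) (dyo v n z') := by
  rw [Set.disjoint_left]
  intro x hx hx'
  exact h (eq_of_sub_same (sub_of_dyo (v := v) le_rfl hx hx'))

theorem Fine.sub_Ω (H : Fine Ω v n k₁ k₀ J) (hz : z ∈ J) : dyc v n z ⊆ Ω := by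
  intro x hx
  obtain ⟨w, hw⟩ := exists_mem v (n + k₁ + k₀) x
  exact H.part.sub _ (H.fine z hz w ⟨x, hw, hx⟩) hw

theorem Fine.gen_of_meet (H : Fine Ω v n k₁ k₀ J) (hz : z ∈ J) {q : Idx}
    (hq : q ∈ tiles Ω (n + k₁ + k₀) v) (hx : x ∈ dyc v n z) (hxq : x ∈ dyc v q.1 q.2) :
    q.1 = n + k₁ + k₀ := by
  obtain ⟨d, hd⟩ := Nat.exists_eq_add_of_le (H.gen q hq)
  have h1 : dyc v q.1 q.2 ⊆ dyc v (n + k₁ + k₀) (anc d q.2) := by
    rw [hd]; exact dyc_sub_anc v (n + k₁ + k₀) d q.2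
  have h3 := eq_of_sub H.part hq (H.fine z hz _ ⟨x, h1 hxq, hx⟩) h1
  exact congrArg Prod.fst h3

/-- position of a tile -/
theorem Fine.tile (H : Fine Ω v n k₁ k₀ J) (hz : z ∈ J) {q : Idx}
    (hq : q ∈ tiles Ω (n + k₁ + k₀) v) (hx : x ∈ dyo v n z) (hxq : x ∈ dyc v q.1 q.2) :
    dyc v q.1 q.2 ⊆ dyc v n z :=
  sub_of_dyo (by have := H.gen q hq; omega) hxq hx

theorem Fine.mem_tiles (H : Fine Ω v n k₁ k₀ J) (hz : z ∈ J) {q : Idx}
    (hq : q.1 = n + k₁ + k₀) (hs : dyc v q.1 q.2 ⊆ dyc v n z) :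
    q ∈ tiles Ω (n + k₁ + k₀) v := by
  obtain ⟨m, w⟩ := q
  simp only at hq hs
  subst hq
  exact H.fine z hz w ⟨cen v _ w, dyo_sub_dyc (cen_mem v _ w), hs (dyo_sub_dyc (cen_mem v _ w))⟩

/-- every cube of the base partition outside of `out` is in a good cell -/
theorem base_cases {q : Idx} (hq : q ∈ base Ω v n k₁ k₀ J) :
    (q ∈ out Ω v n k₁ k₀ J) ∨ ∃ z ∈ J, dyc v q.1 q.2 ⊆ dyc v n z ∧ n + k₁ ≤ q.1 := by
  rcases hq with ((h | ⟨h1, z, hz, h2, -⟩) | ⟨h1, z, hz, h2, -⟩) | ⟨h1, z, hz, h2⟩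
  · exact Or.inl h
  · exact Or.inr ⟨z, hz, h2, by omega⟩
  · exact Or.inr ⟨z, hz, h2.trans (boxB_sub_dyc z), by omega⟩
  · exact Or.inr ⟨z, hz, (h2.trans (boxR_sub_boxB z)).trans (boxB_sub_dyc z), by omega⟩

/-- a cube of `out` does not meet the open good cells -/
theorem Fine.out_disj (H : Fine Ω v n k₁ k₀ J) {q : Idx} (hq : q ∈ out Ω v n k₁ k₀ J)
    (hz : z ∈ J) : Disjoint (dyc v q.1 q.2) (dyo v n z) := by
  rw [Set.disjoint_left]
  intro x hx hx'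
  exact hq.2 z hz (H.tile hz hq.1 hx' hx)

/-- the cubes of the boxes -/
theorem mem_gap_or_core {q : Idx} (h1 : q.1 = n + k₁) (hz : z ∈ J)
    (h2 : dyc v q.1 q.2 ⊆ boxB v n k₁ z) : q ∈ gap v n k₁ J ∨ q ∈ core v n k₁ J := by
  by_cases h : dyc v q.1 q.2 ⊆ boxR v n k₁ z
  · exact Or.inr ⟨h1, z, hz, h⟩
  · exact Or.inl ⟨h1, z, hz, h2, h⟩

theorem gap_or_core_sub {q : Idx} (h : q ∈ gap v n k₁ J ∨ q ∈ core v n k₁ J) :
    q.1 = n + k₁ ∧ ∃ z ∈ J, dyc v q.1 q.2 ⊆ boxB v n k₁ z := by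
  rcases h with ⟨h1, z, hz, h2, -⟩ | ⟨h1, z, hz, h2⟩
  · exact ⟨h1, z, hz, h2⟩
  · exact ⟨h1, z, hz, h2.trans (boxR_sub_boxB z)⟩

/-- the cubes of `out` and `lay` -/
theorem Fine.out_or_lay (H : Fine Ω v n k₁ k₀ J) {q : Idx}
    (h : q ∈ out Ω v n k₁ k₀ J ∨ q ∈ lay v n k₁ k₀ J) :
    q ∈ tiles Ω (n + k₁ + k₀) v ∧ ∀ z ∈ J, ¬ dyc v q.1 q.2 ⊆ boxB v n k₁ z := by
  rcases h with h | ⟨h1, z, hz, h2, h3⟩
  · exact ⟨h.1, fun z hz hs => h.2 z hz (hs.trans (boxB_sub_dyc z))⟩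
  · refine ⟨H.mem_tiles hz h1 h2, fun z' hz' hs => ?_⟩
    have := cell_unique h2 (hs.trans (boxB_sub_dyc z'))
    subst this
    exact h3 hs

theorem Fine.base_eq (H : Fine Ω v n k₁ k₀ J) {q : Idx} : q ∈ base Ω v n k₁ k₀ J ↔
    (q ∈ tiles Ω (n + k₁ + k₀) v ∧ ∀ z ∈ J, ¬ dyc v q.1 q.2 ⊆ boxB v n k₁ z) ∨
      (q.1 = n + k₁ ∧ ∃ z ∈ J, dyc v q.1 q.2 ⊆ boxB v n k₁ z) := by
  constructor
  · rintro (((h | h) | h) | h)
    · exact Or.inl (H.out_or_lay (Or.inl h))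
    · exact Or.inl (H.out_or_lay (Or.inr h))
    · exact Or.inr (gap_or_core_sub (Or.inl h))
    · exact Or.inr (gap_or_core_sub (Or.inr h))
  · rintro (⟨h1, h2⟩ | ⟨h1, z, hz, h2⟩)
    · by_cases h : ∀ z ∈ J, ¬ dyc v q.1 q.2 ⊆ dyc v n z
      · exact Or.inl (Or.inl (Or.inl ⟨h1, h⟩))
      · push Not at h
        obtain ⟨z, hz, h3⟩ := h
        refine Or.inl (Or.inl (Or.inr ⟨?_, z, hz, h3, h2 z hz⟩))
        exact H.gen_of_meet hz h1 (h3 (dyo_sub_dyc (cen_mem v q.1 q.2)))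
          (dyo_sub_dyc (cen_mem v q.1 q.2))
    · rcases mem_gap_or_core h1 hz h2 with h | h
      · exact Or.inl (Or.inr h)
      · exact Or.inr h

/-- **the base partition** -/
theorem Fine.part_base (H : Fine Ω v n k₁ k₀ J) : Part Ω v (base Ω v n k₁ k₀ J) := by
  have hT := H.part
  have h1k := eight H.two
  have hgen : ∀ q ∈ tiles Ω (n + k₁ + k₀) v, n + k₁ ≤ q.1 := fun q hq => by
    have := H.gen q hq; omega
  refine ⟨?_, ?_, ?_, ?_⟩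
  · intro q hq
    rcases H.base_eq.1 hq with ⟨hq, -⟩ | ⟨-, z, hz, hq⟩
    · exact hT.sub q hq
    · exact hq.trans ((boxB_sub_dyc z).trans (H.sub_Ω hz))
  · intro x hx
    obtain ⟨q, hq, hxq⟩ := hT.cover x hx
    by_cases hc : ∀ z ∈ J, ¬ dyc v q.1 q.2 ⊆ boxB v n k₁ z
    · exact ⟨q, H.base_eq.2 (Or.inl ⟨hq, hc⟩), hxq⟩
    · push Not at hc
      obtain ⟨z, hz, hsub⟩ := hc
      have hxB := hsub hxq
      rw [boxB_eq] at hxB
      obtain ⟨w, hw, hw'⟩ := exists_dyc_of_mem_gbox (fun k => by nlinarith) hxB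
      rw [← boxB_eq] at hw'
      exact ⟨(n + k₁, w), H.base_eq.2 (Or.inr ⟨rfl, z, hz, hw'⟩), hw⟩
  · intro q hq q' hq' hne
    rcases H.base_eq.1 hq with ⟨hq, hq1⟩ | ⟨hq, z, hz, hq1⟩ <;>
      rcases H.base_eq.1 hq' with ⟨hq', hq1'⟩ | ⟨hq', z', hz', hq1'⟩
    · exact hT.disj q hq q' hq' hne
    · rw [Set.disjoint_left]
      intro x hx hx'
      refine hq1 z' hz' ?_
      have h2 := hq1' hx'
      rw [boxB_eq] at h2 ⊢
      exact dyc_sub_of_mem_dyo (hgen q hq) hx h2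
    · rw [Set.disjoint_left]
      intro x hx hx'
      refine hq1' z hz (Subset.trans (sub_of_dyo ?_ hx' hx) hq1)
      rw [hq]; exact hgen q' hq'
    · rw [Set.disjoint_left]
      intro x hx hx'
      apply hne
      obtain ⟨m, w⟩ := q
      obtain ⟨m', w'⟩ := q'
      simp only at hq hq' hx hx'
      subst hq hq'
      have := eq_of_sub_same (v := v) (sub_of_dyo le_rfl hx' hx)
      rw [this]
  · intro K hK hKc
    have h2 : {q : Idx | q.1 = n + k₁ ∧ ∃ z ∈ J, dyc v q.1 q.2 ⊆ boxB v n k₁ z}.Finite := by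
      have h3 : (⋃ z ∈ J, {q : Idx | q.1 ≤ n + k₁ ∧ dyc v q.1 q.2 ⊆ dyc v (n, z).1 (n, z).2}).Finite :=
        Set.Finite.biUnion (Finset.finite_toSet J) fun z _ =>
          _root_.Vale.Agent.P073.H193.finite_sub v (n, z) (n + k₁)
      refine h3.subset ?_
      rintro q ⟨h4, z, hz, h5⟩
      exact mem_biUnion (x := z) hz ⟨h4.le, h5.trans (boxB_sub_dyc z)⟩
    refine ((hT.fin K hK hKc).union h2).subset ?_
    rintro q ⟨hq, h4⟩
    rcases H.base_eq.1 hq with ⟨h5, -⟩ | h5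
    · exact Or.inl ⟨h5, h4⟩
    · exact Or.inr h5

/-- the cubes which are divided -/
theorem Fine.diff_eq (H : Fine Ω v n k₁ k₀ J) :
    base Ω v n k₁ k₀ J \ (lay v n k₁ k₀ J ∪ gap v n k₁ J) =
      out Ω v n k₁ k₀ J ∪ core v n k₁ J := by
  ext q
  constructor
  · rintro ⟨((h | h) | h) | h, h'⟩
    · exact Or.inl h
    · exact absurd (Or.inl h) h'
    · exact absurd (Or.inr h) h'
    · exact Or.inr h
  · rintro (h | h)
    · refine ⟨Or.inl (Or.inl (Or.inl h)), ?_⟩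
      rintro (⟨-, z, hz, h2, -⟩ | ⟨-, z, hz, h2, -⟩)
      · exact h.2 z hz h2
      · exact h.2 z hz (h2.trans (boxB_sub_dyc z))
    · refine ⟨Or.inr h, ?_⟩
      obtain ⟨-, z, hz, h1⟩ := h
      rintro (⟨-, z', hz', h2, h3⟩ | ⟨-, z', hz', h2, h3⟩)
      · have := cell_unique h2 ((h1.trans (boxR_sub_boxB z)).trans (boxB_sub_dyc z))
        subst this
        exact h3 (h1.trans (boxR_sub_boxB _))
      · have := cell_unique (h2.trans (boxB_sub_dyc z'))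
          ((h1.trans (boxR_sub_boxB z)).trans (boxB_sub_dyc z))
        subst this
        exact h3 h1

theorem lay_gap_sub : lay v n k₁ k₀ J ∪ gap v n k₁ J ⊆ base Ω v n k₁ k₀ J := by
  rintro q (h | h)
  · exact Or.inl (Or.inl (Or.inr h))
  · exact Or.inl (Or.inr h)

end Vale.Agent.P073.H669
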