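import Mathlib

/-!
# P073, block P2h: [BYPASS], [FILL], [HULL2] (topology, Mathlib only)

* `bypass`: the complement of relatively open pieces with connected boundaries is preconnected;
* `inter_eq_empty_of_clopen`: a compact set which is relatively open in a preconnected set
  which it does not contain;
* `isPreconnected_far`: the complement of a sup-norm ball in a coordinate subspace.
-/

open Set Topology Filter

namespace P073.H669

/-- **[BYPASS]** -/
theorem bypass {E : Type*} [TopologicalSpace E] {X : Set E} (hX : IsPreconnected X) {ι : Type*}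
    {G C : ι → Set E} (hGo : ∀ i, ∃ U, IsOpen U ∧ G i = X ∩ U)
    (hd : ∀ i j, i ≠ j → Disjoint (G i) (G j))
    (hC : ∀ i, IsPreconnected (C i)) (hCX : ∀ i, C i ⊆ X \ ⋃ j, G j)
    (hcl : ∀ i, X ∩ closure (G i) ⊆ G i ∪ C i)
    (hlf : ∀ x ∈ X, ∃ W ∈ 𝓝 x, {i | (G i ∩ W).Nonempty}.Finite) :
    IsPreconnected (X \ ⋃ i, G i) := by
  classical
  rw [isPreconnected_iff_subset_of_disjoint]
  intro U V hU hV hsub hdis
  by_contra hne
  push Not at hne
  obtain ⟨hnU, hnV⟩ := hne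
  have hCUV : ∀ i, C i ⊆ U ∨ C i ⊆ V := fun i =>
    isPreconnected_iff_subset_of_disjoint.1 (hC i) U V hU hV ((hCX i).trans hsub)
      (by
        rw [eq_empty_iff_forall_notMem] at hdis ⊢
        exact fun x hx => hdis x ⟨hCX i hx.1, hx.2⟩)
  have hnot : ∀ x ∈ X, (∀ i, x ∉ G i) → x ∈ U → x ∉ V := by
    intro x hx hxG hxU hxV
    rw [eq_empty_iff_forall_notMem] at hdis
    exact hdis x ⟨⟨hx, fun h => by obtain ⟨i, hi⟩ := mem_iUnion.1 h; exact hxG i hi⟩, hxU, hxV⟩
  -- the extended sets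
  let A : Bool → Set E := fun b => {x | x ∈ X ∧ ((∀ i, x ∉ G i) ∧ (if b then x ∈ U else x ∈ V) ∨
    ∃ i, x ∈ G i ∧ (if b then C i ⊆ U else ¬ C i ⊆ U))}
  let A' : Bool → Set E := fun b => ⋃₀ {W | IsOpen W ∧ W ∩ X ⊆ A b}
  have hA'o : ∀ b, IsOpen (A' b) := fun b => isOpen_sUnion fun W hW => hW.1
  have hA' : ∀ b, X ∩ A' b ⊆ A b := by
    rintro b x ⟨hx, W, hW, hxW⟩
    exact hW.2 ⟨hxW, hx⟩
  have hGb : ∀ i b, (if b then C i ⊆ U else ¬ C i ⊆ U) → G i ⊆ A' b := by
    intro i b hb x hx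
    obtain ⟨O, hO, hGO⟩ := hGo i
    refine ⟨O, ⟨hO, ?_⟩, ?_⟩
    · rintro y ⟨hyO, hyX⟩
      exact ⟨hyX, Or.inr ⟨i, hGO ▸ ⟨hyX, hyO⟩, hb⟩⟩
    · rw [hGO] at hx; exact hx.2
  have hYb : ∀ x ∈ X, (∀ i, x ∉ G i) → ∀ b : Bool, (if b then x ∈ U else x ∈ V) → x ∈ A' b := by
    intro x hx hxG b hb
    obtain ⟨W, hW, hfin⟩ := hlf x hx
    obtain ⟨W', hW'W, hW'o, hxW'⟩ := mem_nhds_iff.1 hW
    have hclosed : IsClosed (⋃ i ∈ {i | (G i ∩ W).Nonempty ∧ x ∉ closure (G i)},
        closure (G i)) :=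
      (hfin.subset fun i hi => hi.1).isClosed_biUnion fun i _ => isClosed_closure
    set O : Set E := W' ∩ (if b then U else V) ∩
      (⋃ i ∈ {i | (G i ∩ W).Nonempty ∧ x ∉ closure (G i)}, closure (G i))ᶜ with hO
    have hOo : IsOpen O := by
      refine (hW'o.inter ?_).inter hclosed.isOpen_compl
      cases b
      · exact hV
      · exact hU
    refine ⟨O, ⟨hOo, ?_⟩, ⟨hxW', ?_⟩, ?_⟩
    · rintro y ⟨⟨⟨hyW', hyb⟩, hyn⟩, hyX⟩
      refine ⟨hyX, ?_⟩
      by_cases hyG : ∀ i, y ∉ G i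
      · left
        refine ⟨hyG, ?_⟩
        cases b
        · exact hyb
        · exact hyb
      · push Not at hyG
        obtain ⟨i, hi⟩ := hyG
        have hxi : x ∈ closure (G i) := by
          by_contra hxi
          exact hyn (mem_biUnion (x := i) ⟨⟨y, hi, hW'W hyW'⟩, hxi⟩ (subset_closure hi))
        have hxC : x ∈ C i := (hcl i ⟨hx, hxi⟩).resolve_left (hxG i)
        refine Or.inr ⟨i, hi, ?_⟩
        cases b
        · intro hCU
          exact hnot x hx hxG (hCU hxC) hb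
        · refine (hCUV i).resolve_right fun hCV => ?_
          exact hnot x hx hxG hb (hCV hxC)
    · cases b
      · exact hb
      · exact hb
    · intro h
      obtain ⟨i, hi, hxi⟩ := mem_iUnion₂.1 h
      exact hi.2 hxi
  have hcov : X ⊆ A' true ∪ A' false := by
    intro x hx
    by_cases hxG : ∀ i, x ∉ G i
    · have hxY : x ∈ X \ ⋃ j, G j :=
        ⟨hx, fun h => by obtain ⟨i, hi⟩ := mem_iUnion.1 h; exact hxG i hi⟩
      rcases hsub hxY with h | h
      · exact Or.inl (hYb x hx hxG true h)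
      · exact Or.inr (hYb x hx hxG false h)
    · push Not at hxG
      obtain ⟨i, hi⟩ := hxG
      by_cases h : C i ⊆ U
      · exact Or.inl (hGb i true h hi)
      · exact Or.inr (hGb i false h hi)
  have hdisj : X ∩ (A' true ∩ A' false) = ∅ := by
    rw [eq_empty_iff_forall_notMem]
    rintro x ⟨hx, h1, h2⟩
    obtain ⟨-, h1⟩ := hA' true ⟨hx, h1⟩
    obtain ⟨-, h2⟩ := hA' false ⟨hx, h2⟩
    rcases h1 with ⟨h3, h4⟩ | ⟨i, h3, h4⟩ <;> rcases h2 with ⟨h5, h6⟩ | ⟨j, h5, h6⟩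
    · exact hnot x hx h3 h4 h6
    · exact h3 j h5
    · exact h5 i h3
    · by_cases hij : i = j
      · subst hij; exact h6 h4
      · exact Set.disjoint_left.1 (hd i j hij) h3 h5
  rcases isPreconnected_iff_subset_of_disjoint.1 hX _ _ (hA'o true) (hA'o false) hcov hdisj
    with h | h
  · apply hnU
    intro x hx
    have hxG : ∀ i, x ∉ G i := fun i hi => hx.2 (mem_iUnion.2 ⟨i, hi⟩)
    obtain ⟨-, ⟨-, h1⟩ | ⟨i, h1, -⟩⟩ := hA' true ⟨hx.1, h hx.1⟩
    · exact h1
    · exact absurd h1 (hxG i)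
  · apply hnV
    intro x hx
    have hxG : ∀ i, x ∉ G i := fun i hi => hx.2 (mem_iUnion.2 ⟨i, hi⟩)
    obtain ⟨-, ⟨-, h1⟩ | ⟨i, h1, -⟩⟩ := hA' false ⟨hx.1, h hx.1⟩
    · exact h1
    · exact absurd h1 (hxG i)

/-- **[BYPASS]**, finite family -/
theorem bypass_finite {E : Type*} [TopologicalSpace E] {X : Set E} (hX : IsPreconnected X)
    {ι : Type*} [Finite ι] {G C : ι → Set E} (hGo : ∀ i, ∃ U, IsOpen U ∧ G i = X ∩ U)
    (hd : ∀ i j, i ≠ j → Disjoint (G i) (G j))
    (hC : ∀ i, IsPreconnected (C i)) (hCX : ∀ i, C i ⊆ X \ ⋃ j, G j)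
    (hcl : ∀ i, X ∩ closure (G i) ⊆ G i ∪ C i) : IsPreconnected (X \ ⋃ i, G i) :=
  bypass hX hGo hd hC hCX hcl fun _ _ => ⟨univ, univ_mem, Set.toFinite _⟩

/-- **[BYPASS]**, disjoint open sets with preconnected frontiers -/
theorem bypass_open {E : Type*} [TopologicalSpace E] {X : Set E} (hX : IsPreconnected X)
    {ι : Type*} {G : ι → Set E} (hGo : ∀ i, IsOpen (G i)) (hGX : ∀ i, closure (G i) ⊆ X)
    (hd : ∀ i j, i ≠ j → Disjoint (G i) (G j)) (hC : ∀ i, IsPreconnected (frontier (G i)))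
    (hlf : ∀ x ∈ X, ∃ W ∈ 𝓝 x, {i | (G i ∩ W).Nonempty}.Finite) :
    IsPreconnected (X \ ⋃ i, G i) := by
  refine bypass hX (C := fun i => frontier (G i)) (fun i => ⟨G i, hGo i, ?_⟩) hd hC ?_ ?_ hlf
  · exact (inter_eq_self_of_subset_right (subset_closure.trans (hGX i))).symm
  · intro i x hx
    refine ⟨hGX i (frontier_subset_closure hx), fun h => ?_⟩
    obtain ⟨j, hj⟩ := mem_iUnion.1 h
    by_cases hij : i = j
    · subst hij
      rw [(hGo i).frontier_eq] at hx
      exact hx.2 hj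
    · have := (hd i j hij).closure_left (hGo j)
      exact Set.disjoint_left.1 this (frontier_subset_closure hx) hj
  · rintro i x ⟨-, hx⟩
    by_cases h : x ∈ G i
    · exact Or.inl h
    · right
      rw [(hGo i).frontier_eq]
      exact ⟨hx, h⟩

/-- a closed set which agrees with an open set on a preconnected set, and does not contain it -/
theorem inter_eq_empty_of_clopen {E : Type*} [TopologicalSpace E] {W K O : Set E}
    (hW : IsPreconnected W) (hK : IsClosed K) (hO : IsOpen O) (h : K ∩ W = O ∩ W)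
    (hn : ¬ W ⊆ K) : K ∩ W = ∅ := by
  have h1 := isPreconnected_iff_subset_of_disjoint.1 hW O Kᶜ hO hK.isOpen_compl
    (by
      intro x hx
      by_cases hxK : x ∈ K
      · exact Or.inl (h ▸ (⟨hxK, hx⟩ : x ∈ K ∩ W) : x ∈ O ∩ W).1
      · exact Or.inr hxK)
    (by
      rw [eq_empty_iff_forall_notMem]
      rintro x ⟨hx, hxO, hxK⟩
      exact hxK (h.symm ▸ (⟨hxO, hx⟩ : x ∈ O ∩ W) : x ∈ K ∩ W).1)
  rcases h1 with h1 | h1
  · exfalso
    apply hn
    intro x hx
    exact (h.symm ▸ (⟨h1 hx, hx⟩ : x ∈ O ∩ W) : x ∈ K ∩ W).1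
  · rw [eq_empty_iff_forall_notMem]
    rintro x ⟨hxK, hx⟩
    exact h1 hx hxK

/-- the complement of a sup-norm ball in a coordinate subspace of dimension at least two is
preconnected -/
theorem isPreconnected_far {n : ℕ} (T : Set (Fin n)) (c o : Fin n → ℝ) (R : ℝ)
    (hT : ∀ j ∈ T, ∃ k ∈ T, k ≠ j) :
    IsPreconnected {x : Fin n → ℝ | (∀ j, j ∉ T → x j = c j) ∧ ∃ j ∈ T, R < |x j - o j|} := by
  classical
  let H : {j // j ∈ T} × Bool → Set (Fin n → ℝ) := fun p =>
    {x | (∀ j, j ∉ T → x j = c j) ∧ (if p.2 then |R| < x p.1.1 - o p.1.1 else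
      |R| < o p.1.1 - x p.1.1)}
  let H' : {j // j ∈ T} × Bool → Set (Fin n → ℝ) := fun p =>
    {x | (∀ j, j ∉ T → x j = c j) ∧ (if p.2 then R < x p.1.1 - o p.1.1 else
      R < o p.1.1 - x p.1.1)}
  have hHH : ∀ p, H p ⊆ H' p := by
    rintro ⟨j, b⟩ x ⟨h1, h2⟩
    refine ⟨h1, ?_⟩
    have := le_abs_self R
    cases b
    · simp only [Bool.false_eq_true, if_false] at h2 ⊢; linarith
    · simp only [if_true] at h2 ⊢; linarith
  have hconv : ∀ p, Convex ℝ (H' p) := by
    rintro ⟨j, b⟩ x ⟨hx1, hx2⟩ y ⟨hy1, hy2⟩ s t hs ht hst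
    refine ⟨fun i hi => ?_, ?_⟩
    · simp only [Pi.add_apply, Pi.smul_apply, smul_eq_mul, hx1 i hi, hy1 i hi]
      rw [← add_mul, hst, one_mul]
    · have hs1 : s = 1 - t := by linarith
      subst hs1
      cases b
      · simp only [Bool.false_eq_true, if_false, Pi.add_apply, Pi.smul_apply,
          smul_eq_mul] at hx2 hy2 ⊢
        rcases ht.eq_or_lt with h0 | h0
        · rw [← h0]; linarith
        · nlinarith [mul_le_mul_of_nonneg_left hx2.le hs, mul_lt_mul_of_pos_left hy2 h0]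
      · simp only [if_true, Pi.add_apply, Pi.smul_apply, smul_eq_mul] at hx2 hy2 ⊢
        rcases ht.eq_or_lt with h0 | h0
        · rw [← h0]; linarith
        · nlinarith [mul_le_mul_of_nonneg_left hx2.le hs, mul_lt_mul_of_pos_left hy2 h0]
  have hmeet : ∀ p q : {j // j ∈ T} × Bool, p.1 ≠ q.1 → (H' p ∩ H' q).Nonempty := by
    rintro ⟨⟨j, hj⟩, b⟩ ⟨⟨k, hk⟩, b'⟩ hne
    have hjk : j ≠ k := fun h => hne (by simp [h])
    let val : Bool → ℝ → ℝ := fun b a => if b then a + (|R| + 1) else a - (|R| + 1)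
    refine ⟨fun i => if i = j then val b (o j) else if i = k then val b' (o k) else c i,
      hHH _ ⟨fun i hi => ?_, ?_⟩, hHH _ ⟨fun i hi => ?_, ?_⟩⟩
    · have h1 : i ≠ j := fun h => hi (h ▸ hj)
      have h2 : i ≠ k := fun h => hi (h ▸ hk)
      simp only [if_neg h1, if_neg h2]
    · cases b
      · simp only [val, Bool.false_eq_true, if_false, if_true]; linarith
      · simp only [val, if_true]; linarith
    · have h1 : i ≠ j := fun h => hi (h ▸ hj)
      have h2 : i ≠ k := fun h => hi (h ▸ hk)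
      simp only [if_neg h1, if_neg h2]
    · cases b'
      · simp only [val, Bool.false_eq_true, if_false, if_true, if_neg hjk.symm]; linarith
      · simp only [val, if_true, if_neg hjk.symm]; linarith
  have hU : {x : Fin n → ℝ | (∀ j, j ∉ T → x j = c j) ∧ ∃ j ∈ T, R < |x j - o j|} =
      ⋃ p, H' p := by
    ext x
    rw [mem_iUnion]
    constructor
    · rintro ⟨h1, j, hj, h2⟩
      rcases lt_abs.1 h2 with h | h
      · exact ⟨(⟨j, hj⟩, true), h1, by simpa using h⟩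
      · refine ⟨(⟨j, hj⟩, false), h1, ?_⟩
        simp only [Bool.false_eq_true, if_false]
        linarith
    · rintro ⟨⟨⟨j, hj⟩, b⟩, h1, h2⟩
      refine ⟨h1, j, hj, lt_abs.2 ?_⟩
      cases b
      · right
        simp only [Bool.false_eq_true, if_false] at h2
        linarith
      · left
        simpa using h2
  rw [hU]
  refine IsPreconnected.iUnion_of_reflTransGen (fun p => (hconv p).isPreconnected) fun p q => ?_
  by_cases h : p.1 = q.1
  · obtain ⟨k, hk, hkp⟩ := hT p.1.1 p.1.2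
    have h1 : (⟨k, hk⟩ : {j // j ∈ T}) ≠ p.1 := fun hh => hkp (congrArg Subtype.val hh)
    refine (Relation.ReflTransGen.single (b := ((⟨k, hk⟩ : {j // j ∈ T}), true))
      (hmeet _ _ h1.symm)).tail (hmeet _ _ ?_)
    rw [← h]; exact h1
  · exact Relation.ReflTransGen.single (hmeet _ _ h)

end P073.H669
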