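import Vale.Agent.P073.H196.Cells

/-!
# P073, H669: cells and levels with compensation windows

A finite set `Q` of marked points; the slivers near a marked point `q` are inside `[q - b, q + b]`, they
are compensated in the window `[q - R, q + R]`.  Away from the windows the levels are in their
uniform positions up to a small error.
-/

open Set Metric Topology

namespace Vale.Agent.P073.H669

open _root_.P073.Croft (Cells SepL levs)

/-! ### the map of one window -/

/-- the right half -/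
noncomputable def wR (k b p : ℝ) : ℝ := min p (max 0 (k * (p - b)))

theorem wR_mono {k b : ℝ} (hk : 1 ≤ k) : Monotone (wR k b) := fun p q h => by
  refine min_le_min h (max_le_max le_rfl ?_)
  exact mul_le_mul_of_nonneg_left (by linarith) (by linarith)

theorem wR_lip {k b : ℝ} (hk : 1 ≤ k) {p q : ℝ} (h : p ≤ q) :
    wR k b q - wR k b p ≤ k * (q - p) := by
  have h1 : q - p ≤ k * (q - p) := le_mul_of_one_le_left (by linarith) hk
  have h2 : k * (q - b) = k * (p - b) + k * (q - p) := by ring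
  have h3 : 0 ≤ k * (q - p) := by linarith
  have h4 : wR k b q ≤ wR k b p + k * (q - p) := by
    unfold wR
    rw [← min_add_add_right]
    refine min_le_min (by linarith) ?_
    rw [← max_add_add_right]
    exact max_le_max (by linarith) h2.le
  linarith

theorem wR_zero {k b : ℝ} (hk : 0 ≤ k) (hb : 0 ≤ b) : wR k b 0 = 0 := by
  unfold wR
  have : k * (0 - b) ≤ 0 := mul_nonpos_of_nonneg_of_nonpos hk (by linarith)
  rw [max_eq_left this, min_self]

theorem wR_flat {k b p : ℝ} (hk : 0 ≤ k) (hp : 0 ≤ p) (hb : p ≤ b) : wR k b p = 0 := by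
  unfold wR
  have : k * (p - b) ≤ 0 := mul_nonpos_of_nonneg_of_nonpos hk (by linarith)
  rw [max_eq_left this, min_eq_right hp]

theorem wR_off {k b R p : ℝ} (hk : 1 ≤ k) (hkR : k * (R - b) = R) (hp : R ≤ p) :
    wR k b p = p := by
  unfold wR
  refine min_eq_left ((?_ : p ≤ k * (p - b)).trans (le_max_right _ _))
  have h1 : k * (p - b) = R + k * (p - R) := by linear_combination hkR
  have h2 : p - R ≤ k * (p - R) := le_mul_of_one_le_left (by linarith) hk
  linarith

theorem wR_near {k b p : ℝ} (hk : 1 ≤ k) (hb : 0 ≤ b) : p - b ≤ wR k b p ∧ wR k b p ≤ p := by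
  refine ⟨le_min (by linarith) ?_, min_le_left _ _⟩
  rcases le_total (p - b) 0 with h1 | h1
  · exact h1.trans (le_max_left _ _)
  · exact (le_mul_of_one_le_left h1 hk).trans (le_max_right _ _)

/-- the map of the window `[q - R, q + R]`, constant on `[q - b, q + b]`, with slope `k` between -/
noncomputable def gW (k b q t : ℝ) : ℝ :=
  q + (wR k b (max (t - q) 0) - wR k b (max (q - t) 0))

section gW

variable {k b q R : ℝ}

theorem gW_mono (hk : 1 ≤ k) : Monotone (gW k b q) := fun s t h => by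
  have h1 := wR_mono (b := b) hk (max_le_max (sub_le_sub_right h q) (le_refl (0:ℝ)))
  have h2 := wR_mono (b := b) hk (max_le_max (sub_le_sub_left h q) (le_refl (0:ℝ)))
  unfold gW
  linarith

theorem max_sub_max (x : ℝ) : max x 0 - max (-x) 0 = x := by
  rcases le_total x 0 with h | h
  · rw [max_eq_right h, max_eq_left (by linarith)]; ring
  · rw [max_eq_left h, max_eq_right (by linarith)]; ring

theorem gW_lip (hk : 1 ≤ k) {s t : ℝ} (h : s ≤ t) : gW k b q t - gW k b q s ≤ k * (t - s) := by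
  have h1 := wR_lip (b := b) hk (max_le_max (sub_le_sub_right h q) (le_refl (0:ℝ)))
  have h2 := wR_lip (b := b) hk (max_le_max (sub_le_sub_left h q) (le_refl (0:ℝ)))
  have h3 := max_sub_max (t - q)
  have h4 := max_sub_max (s - q)
  rw [neg_sub] at h3 h4
  have h5 : k * (max (t - q) 0 - max (s - q) 0) + k * (max (q - s) 0 - max (q - t) 0) =
      k * (t - s) := by
    have : max (t - q) 0 - max (s - q) 0 + (max (q - s) 0 - max (q - t) 0) = t - s := by
      linarith
    rw [← this]; ring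
  unfold gW
  linarith

theorem gW_near (hk : 1 ≤ k) (hb : 0 ≤ b) (t : ℝ) : |gW k b q t - t| ≤ b := by
  unfold gW
  rcases le_total q t with h | h
  · rw [max_eq_left (sub_nonneg.2 h), max_eq_right (by linarith : q - t ≤ 0),
      wR_zero (by linarith) hb]
    obtain ⟨h1, h2⟩ := wR_near (p := t - q) hk hb
    rw [abs_le]; constructor <;> linarith
  · rw [max_eq_left (sub_nonneg.2 h), max_eq_right (by linarith : t - q ≤ 0),
      wR_zero (by linarith) hb]
    obtain ⟨h1, h2⟩ := wR_near (p := q - t) hk hb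
    rw [abs_le]; constructor <;> linarith

theorem gW_off (hk : 1 ≤ k) (hb : 0 ≤ b) (hkR : k * (R - b) = R) {t : ℝ}
    (ht : R ≤ |t - q|) : gW k b q t = t := by
  unfold gW
  rcases le_total q t with h | h
  · rw [abs_of_nonneg (sub_nonneg.2 h)] at ht
    rw [max_eq_left (sub_nonneg.2 h), max_eq_right (by linarith : q - t ≤ 0),
      wR_zero (by linarith) hb, wR_off hk hkR ht]
    ring
  · rw [abs_of_nonpos (by linarith)] at ht
    rw [max_eq_left (sub_nonneg.2 h), max_eq_right (by linarith : t - q ≤ 0),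
      wR_zero (by linarith) hb, wR_off hk hkR (by linarith)]
    ring

theorem gW_flat (hk : 1 ≤ k) (hb : 0 ≤ b) {t : ℝ} (ht : |t - q| ≤ b) : gW k b q t = q := by
  unfold gW
  obtain ⟨h1, h2⟩ := abs_le.1 ht
  rcases le_total q t with h | h
  · rw [max_eq_left (sub_nonneg.2 h), max_eq_right (by linarith : q - t ≤ 0),
      wR_zero (by linarith) hb, wR_flat (by linarith) (sub_nonneg.2 h) h2]
    ring
  · rw [max_eq_left (sub_nonneg.2 h), max_eq_right (by linarith : t - q ≤ 0),
      wR_zero (by linarith) hb, wR_flat (by linarith) (sub_nonneg.2 h) (by linarith)]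
    ring

end gW

/-! ### all windows -/

/-- the map of all windows -/
structure WMap (Q : Finset ℝ) (R b κ : ℝ) (φ : ℝ → ℝ) : Prop where
  mono : Monotone φ
  lip : ∀ s t, s ≤ t → φ t - φ s ≤ κ * (t - s)
  near : ∀ t, |φ t - t| ≤ Q.card * b
  off : ∀ t, (∀ q ∈ Q, R ≤ |t - q|) → φ t = t
  flat : ∀ q ∈ Q, ∀ t, |t - q| ≤ b → φ t = q

theorem exists_wmap {R b : ℝ} (hb : 0 ≤ b) (hbR : b < R) (Q : Finset ℝ)
    (hQ : ∀ q ∈ Q, ∀ q' ∈ Q, q ≠ q' → R + b ≤ |q - q'|) :
    ∃ φ, WMap Q R b ((R / (R - b)) ^ Q.card) φ := by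
  classical
  have hRb : 0 < R - b := by linarith
  set k : ℝ := R / (R - b) with hk
  have hkR : k * (R - b) = R := div_mul_cancel₀ _ hRb.ne'
  have hk1 : 1 ≤ k := by rw [hk, le_div_iff₀ hRb]; linarith
  induction Q using Finset.induction_on with
  | empty =>
    refine ⟨id, monotone_id, fun s t h => ?_, fun t => ?_, fun t _ => rfl, fun q hq => ?_⟩
    · simp
    · simp
    · exact absurd hq (Finset.notMem_empty q)
  | insert q Q hq ih =>
    obtain ⟨φ, H⟩ := ih fun p hp p' hp' => hQ p (Finset.mem_insert_of_mem hp) p'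
      (Finset.mem_insert_of_mem hp')
    have hkn : 0 ≤ k ^ Q.card := by positivity
    refine ⟨fun t => gW k b q (φ t), (gW_mono hk1).comp H.mono, fun s t h => ?_, fun t => ?_,
      fun t ht => ?_, fun p hp t ht => ?_⟩
    · have h1 := gW_lip (b := b) (q := q) hk1 (H.mono h)
      have h2 := mul_le_mul_of_nonneg_left (H.lip s t h) (by linarith : (0:ℝ) ≤ k)
      rw [Finset.card_insert_of_notMem hq, pow_succ]
      calc gW k b q (φ t) - gW k b q (φ s) ≤ k * (φ t - φ s) := h1
        _ ≤ k * (k ^ Q.card * (t - s)) := h2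
        _ = k ^ Q.card * k * (t - s) := by ring
    · have h1 := gW_near (q := q) hk1 hb (φ t)
      have h2 := H.near t
      rw [Finset.card_insert_of_notMem hq]
      push_cast
      calc |gW k b q (φ t) - t| = |(gW k b q (φ t) - φ t) + (φ t - t)| := by congr 1; ring
        _ ≤ |gW k b q (φ t) - φ t| + |φ t - t| := abs_add_le _ _
        _ ≤ (Q.card + 1) * b := by linarith
    · show gW k b q (φ t) = t
      rw [H.off t fun p hp => ht p (Finset.mem_insert_of_mem hp)]
      exact gW_off hk1 hb hkR (ht q (Finset.mem_insert_self _ _))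
    · show gW k b q (φ t) = p
      rcases Finset.mem_insert.1 hp with rfl | hp'
      · rw [H.off t fun p' hp' => ?_]
        · exact gW_flat hk1 hb ht
        · have h1 := hQ p (Finset.mem_insert_self _ _) p' (Finset.mem_insert_of_mem hp')
            fun h => hq (h ▸ hp')
          have h2 : |p - p'| ≤ |t - p| + |t - p'| := by
            rw [show p - p' = -(t - p) + (t - p') by ring]
            exact (abs_add_le _ _).trans (by rw [abs_neg])
          linarith
      · rw [H.flat p hp' t ht]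
        refine gW_off hk1 hb hkR ?_
        have h1 := hQ p (Finset.mem_insert_of_mem hp') q (Finset.mem_insert_self _ _)
          fun h => hq (h ▸ hp')
        linarith

namespace WMap

variable {Q : Finset ℝ} {R b κ : ℝ} {φ : ℝ → ℝ}

theorem continuous (H : WMap Q R b κ φ) (hκ : 0 ≤ κ) : Continuous φ := by
  refine (LipschitzWith.of_dist_le_mul (K := ⟨κ, hκ⟩) fun s t => ?_).continuous
  rw [Real.dist_eq, Real.dist_eq]
  change |φ s - φ t| ≤ κ * |s - t|
  rcases le_total s t with h | h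
  · have h1 := H.lip s t h
    have h2 := H.mono h
    rw [abs_sub_comm, abs_of_nonneg (by linarith), abs_sub_comm, abs_of_nonneg (by linarith)]
    exact h1
  · have h1 := H.lip t s h
    have h2 := H.mono h
    rw [abs_of_nonneg (by linarith), abs_of_nonneg (by linarith)]
    exact h1

end WMap

/-! ### the cells -/

/-- **cells and levels with windows**: `δ / (1 + r)` is the length of the cells, `δ` the spacing
of the targets, `Q` the marked points, `R` the half width of the windows, `b` the half width of the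
slivers at the marked points, `sm` the displacement away from the windows -/
structure CellsW (lo hi θ δ r η : ℝ) (T : Finset (ℝ × ℝ)) (Q : Finset ℝ) (R b sm : ℝ) (n : ℕ)
    (x a : ℕ → ℝ) : Prop where
  succ : ∀ k, k + 1 < n → x k + δ / (1 + r) ≤ x (k + 1)
  ge : ∀ k < n, lo ≤ x k
  le : ∀ k < n, x k + δ / (1 + r) ≤ hi
  /-- the cells do not meet the interiors of the slivers -/
  sliver : ∀ k < n, ∀ p ∈ T, x k + δ / (1 + r) ≤ p.1 ∨ p.2 ≤ x k
  mid : ∀ k, |a k - (x k + δ / (1 + r) / 2)| < η * (δ / (1 + r))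
  rat : ∀ k, ∃ r : ℚ, a k = θ + r
  /-- away from the windows -/
  out : ∀ k < n, ∀ t, |t - x k| ≤ δ → (∀ q ∈ Q, R ≤ |t - q|) → |t - (lo + k * δ)| ≤ sm
  /-- everywhere -/
  all : ∀ k < n, ∀ t, |t - x k| ≤ δ → |t - (lo + k * δ)| ≤ Q.card * b + sm
  num_le : n * δ ≤ hi - lo
  le_num : hi - lo ≤ n * δ + sm

theorem exists_cellsW {lo hi δ r η R b sm : ℝ} (θ : ℝ) (hlh : lo ≤ hi) (hδ : 0 < δ)
    (hη : 0 < η) (T T₁ : Finset (ℝ × ℝ)) (Q : Finset ℝ) (hb : 0 ≤ b) (hbR : b < R)
    (hQ : ∀ q ∈ Q, ∀ q' ∈ Q, q ≠ q' → R + b ≤ |q - q'|)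
    (hQlo : ∀ q ∈ Q, lo ≤ q - R) (hQhi : ∀ q ∈ Q, q + R ≤ hi)
    (hr : (R / (R - b)) ^ Q.card ≤ 1 + r)
    (hT : ∀ p ∈ T, p.1 ≤ p.2) (hT₁ : ∀ p ∈ T₁, p.1 ≤ p.2)
    (hTT : ∀ p ∈ T, p ∈ T₁ ∨ ∃ q ∈ Q, q - b ≤ p.1 ∧ p.2 ≤ q + b)
    (hsm : (1 + r) * ∑ p ∈ T₁, (p.2 - p.1) + (2 * T.card + 1 + (1 + r)) * δ ≤ sm) :
    ∃ (n : ℕ) (x a : ℕ → ℝ), CellsW lo hi θ δ r η T Q R b sm n x a := by
  classical
  have hRb : 0 < R - b := by linarith
  have hk1 : 1 ≤ R / (R - b) := by rw [le_div_iff₀ hRb]; linarith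
  have hr1 : 1 ≤ 1 + r := (one_le_pow₀ hk1).trans hr
  have hr0 : 0 < 1 + r := by linarith
  obtain ⟨φ, H⟩ := exists_wmap hb hbR Q hQ
  have hφc : Continuous φ := H.continuous (by positivity)
  have hlip : ∀ s t, s ≤ t → φ t - φ s ≤ (1 + r) * (t - s) := fun s t h =>
    (H.lip s t h).trans (mul_le_mul_of_nonneg_right hr (by linarith))
  have hφlo : φ lo = lo := H.off lo fun q hq => by
    rw [abs_sub_comm, abs_of_nonneg (by linarith [hQlo q hq])]; linarith [hQlo q hq]
  have hφhi : φ hi = hi := H.off hi fun q hq => by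
    rw [abs_of_nonneg (by linarith [hQhi q hq])]; linarith [hQhi q hq]
  set T' : Finset (ℝ × ℝ) := T.image fun p => (φ p.1, φ p.2) with hT'
  have hT'le : ∀ p ∈ T', p.1 ≤ p.2 := by
    intro p hp
    obtain ⟨p₀, h1, rfl⟩ := Finset.mem_image.1 hp
    exact H.mono (hT p₀ h1)
  have hcard : (T'.card : ℝ) ≤ T.card := by exact_mod_cast Finset.card_image_le
  -- the total length of the images of the slivers
  have hsum : ∑ p ∈ T', (p.2 - p.1) ≤ (1 + r) * ∑ p ∈ T₁, (p.2 - p.1) := by
    have h1 : ∑ p ∈ T', (p.2 - p.1) ≤ ∑ p ∈ T, (φ p.2 - φ p.1) := by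
      refine Finset.sum_image_le_of_nonneg (s := T) (g := fun p : ℝ × ℝ => (φ p.1, φ p.2))
        (f := fun p : ℝ × ℝ => p.2 - p.1) ?_
      intro p hp
      obtain ⟨p₀, h1, rfl⟩ := Finset.mem_image.1 hp
      exact sub_nonneg.2 (H.mono (hT p₀ h1))
    have h2 : ∑ p ∈ T, (φ p.2 - φ p.1) ≤ ∑ p ∈ T ∩ T₁, (φ p.2 - φ p.1) := by
      rw [← Finset.sum_inter_add_sum_sdiff T T₁]
      have h3 : ∑ p ∈ T \ T₁, (φ p.2 - φ p.1) ≤ 0 := by
        refine Finset.sum_nonpos fun p hp => ?_
        obtain ⟨h4, h5⟩ := Finset.mem_sdiff.1 hp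
        rcases hTT p h4 with h6 | ⟨q, hq, h6, h7⟩
        · exact absurd h6 h5
        · have h8 := hT p h4
          rw [H.flat q hq p.1 (by rw [abs_le]; constructor <;> linarith),
            H.flat q hq p.2 (by rw [abs_le]; constructor <;> linarith), sub_self]
      linarith
    have h3 : ∑ p ∈ T ∩ T₁, (φ p.2 - φ p.1) ≤ ∑ p ∈ T₁, (1 + r) * (p.2 - p.1) := by
      refine (Finset.sum_le_sum fun p hp => hlip p.1 p.2
        (hT p (Finset.mem_of_mem_inter_left hp))).trans ?_
      exact Finset.sum_le_sum_of_subset_of_nonneg Finset.inter_subset_right fun p hp _ =>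
        mul_nonneg hr0.le (by linarith [hT₁ p hp])
    rw [← Finset.mul_sum] at h3
    linarith
  obtain ⟨n, x', a', hc⟩ := _root_.P073.Croft.exists_cells (lo := lo) (hi := hi) (δ := δ)
    (η := 1) 0 hlh hδ one_pos T' hT'le
  -- the largest preimages
  have hx : ∀ k, ∃ y, k < n → (y ∈ Icc lo hi ∧ φ y = x' k ∧ ∀ t ∈ Icc lo hi, φ t ≤ x' k → t ≤ y)
      := by
    intro k
    by_cases hkn : k < n
    · have hge := hc.ge k hkn
      have hle := hc.le k hkn
      have hset : IsCompact {t ∈ Icc lo hi | φ t ≤ x' k} :=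
        isCompact_Icc.inter_right (isClosed_le hφc continuous_const)
      obtain ⟨y, hy, hy'⟩ := hset.exists_isGreatest ⟨lo, ⟨left_mem_Icc.2 hlh, by rw [hφlo]; exact hge⟩⟩
      refine ⟨y, fun _ => ⟨hy.1, ?_, fun t ht h1 => hy' ⟨ht, h1⟩⟩⟩
      obtain ⟨t, ht, h1⟩ := intermediate_value_Icc hlh hφc.continuousOn
        (show x' k ∈ Icc (φ lo) (φ hi) by rw [hφlo, hφhi]; exact ⟨hge, by linarith⟩)
      exact le_antisymm hy.2 (h1 ▸ H.mono (hy' ⟨ht, h1.le⟩))
    · exact ⟨0, fun h => absurd h hkn⟩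
  choose x hx using hx
  set d : ℝ := δ / (1 + r) with hd
  have hd0 : 0 < d := div_pos hδ hr0
  have hrd : (1 + r) * d = δ := by rw [hd]; field_simp
  have hdδ : d ≤ δ := by nlinarith
  -- the levels
  have ha : ∀ k, ∃ a : ℝ, |a - (x k + d / 2)| < η * d ∧ ∃ q : ℚ, a = θ + q := by
    intro k
    have h1 : 0 < η * d := mul_pos hη hd0
    obtain ⟨q, h2, h3⟩ := exists_rat_btwn (show x k + d / 2 - θ - η * d <
      x k + d / 2 - θ + η * d by linarith)
    refine ⟨θ + q, ?_, q, rfl⟩
    rw [abs_lt]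
    constructor <;> linarith
  choose a ha1 ha2 using ha
  -- positions
  have hpos : ∀ k < n, lo + k * δ ≤ x' k ∧ x' k ≤ lo + k * δ +
      ((1 + r) * ∑ p ∈ T₁, (p.2 - p.1) + 2 * T.card * δ) := by
    intro k hk
    refine ⟨hc.disp_nonneg k hk, (hc.disp_le k hk).trans ?_⟩
    have h1 : 2 * (T'.card : ℝ) * δ ≤ 2 * T.card * δ :=
      mul_le_mul_of_nonneg_right (by linarith) hδ.le
    linarith
  have hsum0 : 0 ≤ (1 + r) * ∑ p ∈ T₁, (p.2 - p.1) :=
    mul_nonneg hr0.le (Finset.sum_nonneg fun p hp => by linarith [hT₁ p hp])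
  have hcδ : 0 ≤ (T.card : ℝ) * δ := by positivity
  have hφx : ∀ k < n, ∀ t, |t - x k| ≤ δ → |φ t - (lo + k * δ)| ≤ sm := by
    intro k hk t ht
    obtain ⟨h1, h2, -⟩ := hx k hk
    obtain ⟨h3, h4⟩ := hpos k hk
    have h5 : |φ t - x' k| ≤ (1 + r) * δ := by
      rw [← h2]
      rcases le_total (x k) t with h6 | h6
      · rw [abs_of_nonneg (by linarith)] at ht
        have h7 := hlip _ _ h6
        have h8 := H.mono h6
        rw [abs_of_nonneg (by linarith)]
        exact h7.trans (mul_le_mul_of_nonneg_left ht hr0.le)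
      · rw [abs_of_nonpos (by linarith)] at ht
        have h7 := hlip _ _ h6
        have h8 := H.mono h6
        rw [abs_sub_comm, abs_of_nonneg (by linarith)]
        exact h7.trans (mul_le_mul_of_nonneg_left (by linarith) hr0.le)
    obtain ⟨h6, h7⟩ := abs_le.1 h5
    rw [abs_le]
    constructor <;> nlinarith
  refine ⟨n, x, a, ⟨fun k hk => ?_, fun k hk => (hx k hk).1.1, fun k hk => ?_,
    fun k hk p hp => ?_, ha1, ha2, fun k hk t ht hq => ?_, fun k hk t ht => ?_, hc.num_le, ?_⟩⟩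
  · -- succ
    obtain ⟨h1, h2, -⟩ := hx k (by omega)
    obtain ⟨h3, h4, -⟩ := hx (k + 1) hk
    have h5 := hc.succ k hk
    have h6 : x k ≤ x (k + 1) := by
      by_contra hcon
      push Not at hcon
      have := H.mono hcon.le
      rw [h2, h4] at this
      linarith
    have h7 := hlip _ _ h6
    rw [h2, h4] at h7
    have h8 : (1 + r) * d ≤ (1 + r) * (x (k + 1) - x k) := by rw [hrd]; linarith
    have h9 := le_of_mul_le_mul_left h8 hr0
    linarith
  · -- le
    obtain ⟨h1, h2, -⟩ := hx k hk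
    have h5 := hc.le k hk
    have h7 := hlip _ _ h1.2
    rw [h2, hφhi] at h7
    have h8 : (1 + r) * d ≤ (1 + r) * (hi - x k) := by rw [hrd]; linarith
    have h9 := le_of_mul_le_mul_left h8 hr0
    linarith
  · -- sliver
    obtain ⟨h1, h2, h3⟩ := hx k hk
    rcases hc.sliver k hk (φ p.1, φ p.2) (Finset.mem_image_of_mem _ hp) with h4 | h4
    · left
      by_contra hcon
      push Not at hcon
      rcases le_total (x k) p.1 with h5 | h5
      · have h6 := hlip _ _ h5
        rw [h2] at h6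
        have h7 : (1 + r) * (p.1 - x k) < (1 + r) * d :=
          mul_lt_mul_of_pos_left (by linarith) hr0
        rw [hrd] at h7
        simp only at h4
        linarith
      · have h6 := H.mono h5
        rw [h2] at h6
        simp only at h4
        linarith
    · right
      simp only at h4
      rcases le_total p.2 lo with h5 | h5
      · exact h5.trans h1.1
      · rcases le_total p.2 hi with h6 | h6
        · exact h3 p.2 ⟨h5, h6⟩ h4
        · have h7 := H.mono h6
          rw [hφhi] at h7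
          have h8 := hc.le k hk
          linarith
  · have h1 := hφx k hk t ht
    rwa [H.off t hq] at h1
  · have h1 := hφx k hk t ht
    have h2 := H.near t
    calc |t - (lo + k * δ)| = |-(φ t - t) + (φ t - (lo + k * δ))| := by congr 1; ring
      _ ≤ |-(φ t - t)| + |φ t - (lo + k * δ)| := abs_add_le _ _
      _ ≤ Q.card * b + sm := by rw [abs_neg]; linarith
  · have h1 := hc.le_num
    have h2 : (2 * (T'.card : ℝ) + 1) * δ ≤ (2 * T.card + 1) * δ :=
      mul_le_mul_of_nonneg_right (by linarith) hδ.le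
    have h3 : 0 ≤ (1 + r) * δ := by positivity
    linarith

namespace CellsW

variable {lo hi θ δ r η : ℝ} {T : Finset (ℝ × ℝ)} {Q : Finset ℝ} {R b sm : ℝ} {n : ℕ}
  {x a : ℕ → ℝ}

theorem lt_a (H : CellsW lo hi θ δ r η T Q R b sm n x a) (hδ : 0 < δ) (hr : 0 < 1 + r)
    (hη : η ≤ 1 / 4) (k : ℕ) :
    x k + δ / (1 + r) / 4 < a k ∧ a k < x k + 3 / 4 * (δ / (1 + r)) := by
  have h0 : 0 < δ / (1 + r) := div_pos hδ hr
  have h1 := abs_lt.1 (H.mid k)
  have h2 : η * (δ / (1 + r)) ≤ 1 / 4 * (δ / (1 + r)) := mul_le_mul_of_nonneg_right hη h0.le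
  constructor <;> linarith [h1.1, h1.2]

theorem add_le (H : CellsW lo hi θ δ r η T Q R b sm n x a) (hδ : 0 < δ) (hr : 0 < 1 + r)
    {k l : ℕ} (hkl : k < l) (hl : l < n) : x k + δ / (1 + r) ≤ x l := by
  have h0 : 0 < δ / (1 + r) := div_pos hδ hr
  induction l, hkl using Nat.le_induction with
  | base => exact H.succ k hl
  | succ l hkl ih =>
    have := H.succ l hl
    have := ih (by omega)
    linarith

theorem sep (H : CellsW lo hi θ δ r η T Q R b sm n x a) (hδ : 0 < δ) (hr : 0 < 1 + r)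
    {k l : ℕ} (hkl : k < l) (hl : l < n) : (1 - 2 * η) * (δ / (1 + r)) ≤ a l - a k := by
  have h0 := H.add_le hδ hr hkl hl
  have h1 := abs_lt.1 (H.mid k)
  have h2 := abs_lt.1 (H.mid l)
  linarith [h1.1, h1.2, h2.1, h2.2]

theorem sepL (H : CellsW lo hi θ δ r η T Q R b sm n x a) (hδ : 0 < δ) (hr : 0 < 1 + r)
    (hη : η ≤ 1 / 4) : SepL ((1 - 2 * η) * (δ / (1 + r))) (levs n a) := by
  have hd : 0 < δ / (1 + r) := div_pos hδ hr
  rintro _ ⟨k, hk, rfl⟩ _ ⟨l, hl, rfl⟩ hlt
  rcases lt_trichotomy k l with h | h | h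
  · exact H.sep hδ hr h hl
  · subst h; exact absurd hlt (lt_irrefl _)
  · have := H.sep hδ hr h hk
    have h3 : 0 < (1 - 2 * η) * (δ / (1 + r)) := mul_pos (by linarith) hd
    linarith

end CellsW

end Vale.Agent.P073.H669
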