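import Vale.Agent.P073.ConGlue

/-!
# P073: explicit cones over a finite family of cells

* `exists_cone_cells`: a conical homeomorphism `φ` of a closed set `X` onto itself extends to
  `X ∪ ⋃ C i`, where `C i` is the cone with apex `a i` over `D i = C i ∩ X`, by the cone formula.
* `cone_lip`: Lipschitz bound for the cone of a Lipschitz map.
* `lip_of_closed_cover`: Lipschitz bounds on finitely many closed pieces of a convex set.
-/

open Set Metric Topology Filter

namespace P073.H669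

variable {E F : Type*} [NormedAddCommGroup E] [NormedSpace ℝ E]
  [NormedAddCommGroup F] [NormedSpace ℝ F]

theorem exists_cone_cells {ι : Type*} [Finite ι] {X : Set E} (hXc : IsClosed X)
    (φ : ConHomeo X X) (C D : ι → Set E) (a : ι → E) (hD : ∀ i, RayBaseAt (a i) (D i))
    (hC : ∀ i, coneSetAt (a i) (D i) = C i) (hCc : ∀ i, ConicalSet (C i))
    (hCX : ∀ i, C i ∩ X = D i) (hφ : ∀ i, φ.toFun '' D i = D i)
    (hd : ∀ i j, i ≠ j → C i ∩ C j ⊆ X) :
    ∃ Φ : ConHomeo (X ∪ ⋃ i, C i) (X ∪ ⋃ i, C i), EqOn Φ.toFun φ.toFun X ∧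
      ∀ i, ∀ x ∈ D i, ∀ t ∈ Icc (0:ℝ) 1,
        Φ.toFun (a i + t • (x - a i)) = a i + t • (φ.toFun x - a i) := by
  classical
  have hDX : ∀ i, D i ⊆ X := fun i => hCX i ▸ inter_subset_right
  have hDC : ∀ i, D i ⊆ C i := fun i => hCX i ▸ inter_subset_left
  have hDcon : ∀ i, ConicalSet (D i) := fun i => hCX i ▸ (hCc i).inter φ.conicalSet_left
  let φi : ∀ i, ConHomeo (D i) (D i) := fun i => (φ.restr (hDcon i) (hDX i)).cast rfl (hφ i)
  let Φi : ∀ i, ConHomeo (C i) (C i) := fun i =>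
    (ConHomeo.coneAt (hD i) (hD i) (φi i)).cast (hC i) (hC i)
  have hΦ : ∀ i, EqOn (Φi i).toFun φ.toFun (D i) := fun i x hx =>
    ConHomeo.coneAt_eqOn (hD i) (hD i) (φi i) hx
  have hΦt : ∀ i, ∀ x ∈ D i, ∀ t ∈ Icc (0:ℝ) 1,
      (Φi i).toFun (a i + t • (x - a i)) = a i + t • (φ.toFun x - a i) := fun i x hx t ht =>
    ConHomeo.coneAt_apply (hD i) (hD i) (φi i) ht hx
  have hCcl : ∀ i, IsClosed (C i) := by
    intro i
    rw [← hC i]
    have h1 := (rayBaseAt_iff.1 (hD i)).1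
    have : coneSetAt (a i) (D i) = (fun p : ℝ × E => a i + p.1 • (p.2 - a i)) ''
        (Icc (0:ℝ) 1 ×ˢ D i) := by
      ext y
      constructor
      · rintro ⟨s, hs, x, hx, rfl⟩
        exact ⟨(s, x), ⟨hs, hx⟩, rfl⟩
      · rintro ⟨⟨s, x⟩, ⟨hs, hx⟩, rfl⟩
        exact ⟨s, hs, x, hx, rfl⟩
    rw [this]
    exact ((isCompact_Icc.prod h1).image (by fun_prop)).isClosed
  let X' : Option ι → Set E := fun o => o.elim X C
  have hUX : (⋃ o, X' o) = X ∪ ⋃ i, C i := by
    rw [iUnion_option]; rfl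
  have hLX : RelLF X' := RelLF.of_finite fun o => by
    cases o with
    | none => exact hXc
    | some i => exact hCcl i
  let h : ∀ o, ConHomeo (X' o) (X' o) := fun o =>
    match o with
    | none => φ
    | some i => Φi i
  have hsame : ∀ {i} {x : E}, x ∈ C i → x ∈ X → (Φi i).toFun x = φ.toFun x := by
    intro i x hx hxX
    exact hΦ i (hCX i ▸ ⟨hx, hxX⟩)
  have hag : ∀ o o', EqOn (h o).toFun (h o').toFun (X' o ∩ X' o') := by
    intro o o' x hx
    cases o with
    | none =>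
      cases o' with
      | none => rfl
      | some j => exact (hsame hx.2 hx.1).symm
    | some i =>
      cases o' with
      | none => exact hsame hx.1 hx.2
      | some j =>
        by_cases hij : i = j
        · subst hij; rfl
        · have hxX : x ∈ X := hd i j hij hx
          exact (hsame hx.1 hxX).trans (hsame hx.2 hxX).symm
  have himg : ∀ o o', X' o ∩ X' o' ⊆ (h o).toFun '' (X' o ∩ X' o') := by
    intro o o' y hy
    have hB' : ∀ {i} {y : E}, y ∈ C i → y ∈ X → ∃ x ∈ D i, φ.toFun x = y := by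
      intro i y h1 h2
      have : y ∈ D i := hCX i ▸ ⟨h1, h2⟩
      rw [← hφ i] at this
      exact this
    cases o with
    | none =>
      cases o' with
      | none =>
        obtain ⟨x, hx, rfl⟩ : y ∈ φ.toFun '' X := by rw [φ.image_eq]; exact hy.1
        exact ⟨x, ⟨hx, hx⟩, rfl⟩
      | some j =>
        obtain ⟨x, hx, rfl⟩ := hB' hy.2 hy.1
        exact ⟨x, ⟨hDX j hx, hDC j hx⟩, rfl⟩
    | some i =>
      cases o' with
      | none =>
        obtain ⟨x, hx, rfl⟩ := hB' hy.1 hy.2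
        exact ⟨x, ⟨hDC i hx, hDX i hx⟩, hΦ i hx⟩
      | some j =>
        by_cases hij : i = j
        · subst hij
          obtain ⟨x, hx, hxy⟩ : y ∈ (Φi i).toFun '' (C i) := by
            rw [(Φi i).image_eq]; exact hy.1
          exact ⟨x, ⟨hx, hx⟩, hxy⟩
        · have hyY : y ∈ X := hd i j hij hy
          obtain ⟨x, hx, hxy⟩ := hB' hy.1 hyY
          obtain ⟨x', hx', hxy'⟩ := hB' hy.2 hyY
          have : x = x' := φ.injOn (hDX i hx) (hDX j hx') (hxy.trans hxy'.symm)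
          subst this
          exact ⟨x, ⟨hDC i hx, hDC j hx'⟩, (hΦ i hx).trans hxy⟩
  obtain ⟨Ψ, hΨ⟩ := ConHomeo.exists_glue_family hLX hLX h hag himg
  refine ⟨Ψ.cast hUX hUX, (hΨ none).1, fun i x hx t ht => ?_⟩
  have h1 : a i + t • (x - a i) ∈ C i := by
    rw [← hC i]; exact ⟨t, ht, x, hx, rfl⟩
  exact ((hΨ (some i)).1 h1).trans (hΦt i x hx t ht)

/-- the cone of a Lipschitz map of a sphere-like set is Lipschitz -/
theorem cone_lip {a : E} {r L : ℝ} {D : Set E} {φ f : E → E} (hL : 1 ≤ L)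
    (hDr : ∀ x ∈ D, ‖x - a‖ = r) (hφr : ∀ x ∈ D, ‖φ x - a‖ ≤ r)
    (hφ : ∀ x ∈ D, ∀ y ∈ D, ‖φ x - φ y‖ ≤ L * ‖x - y‖)
    (hf : ∀ x ∈ D, ∀ t ∈ Icc (0:ℝ) 1, f (a + t • (x - a)) = a + t • (φ x - a)) :
    ∀ x ∈ coneSetAt a D, ∀ y ∈ coneSetAt a D, ‖f x - f y‖ ≤ 3 * L * ‖x - y‖ := by
  have key : ∀ s ∈ Icc (0:ℝ) 1, ∀ t ∈ Icc (0:ℝ) 1, t ≤ s → ∀ x ∈ D, ∀ y ∈ D,
      ‖f (a + s • (x - a)) - f (a + t • (y - a))‖ ≤
        3 * L * ‖(a + s • (x - a)) - (a + t • (y - a))‖ := by
    intro s hs t ht hts x hx y hy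
    rw [hf x hx s hs, hf y hy t ht]
    have e1 : a + s • (φ x - a) - (a + t • (φ y - a)) = (s - t) • (φ x - a) +
        t • (φ x - φ y) := by module
    have e2 : ‖(s - t) • (φ x - a) + t • (φ x - φ y)‖ ≤ (s - t) * r + t * (L * ‖x - y‖) := by
      refine (norm_add_le _ _).trans ?_
      rw [norm_smul, norm_smul, Real.norm_of_nonneg (sub_nonneg.2 hts), Real.norm_of_nonneg ht.1]
      exact add_le_add (mul_le_mul_of_nonneg_left (hφr x hx) (sub_nonneg.2 hts))
        (mul_le_mul_of_nonneg_left (hφ x hx y hy) ht.1)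
    set d := ‖(a + s • (x - a)) - (a + t • (y - a))‖ with hd
    have h3 : (s - t) * r ≤ d := by
      have h4 : |‖s • (x - a)‖ - ‖t • (y - a)‖| ≤ ‖s • (x - a) - t • (y - a)‖ :=
        abs_norm_sub_norm_le _ _
      rw [norm_smul, norm_smul, hDr x hx, hDr y hy, Real.norm_of_nonneg hs.1,
        Real.norm_of_nonneg ht.1] at h4
      have h5 : s • (x - a) - t • (y - a) = (a + s • (x - a)) - (a + t • (y - a)) := by abel
      rw [h5, ← hd] at h4
      have := le_abs_self (s * r - t * r)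
      linarith
    have h4 : t * ‖x - y‖ ≤ 2 * d := by
      have h5 : t * ‖x - y‖ = ‖t • (x - y)‖ := by rw [norm_smul, Real.norm_of_nonneg ht.1]
      have h6 : t • (x - y) = ((a + s • (x - a)) - (a + t • (y - a))) - (s - t) • (x - a) := by
        module
      rw [h5, h6]
      refine (norm_sub_le _ _).trans ?_
      rw [norm_smul, hDr x hx, Real.norm_of_nonneg (sub_nonneg.2 hts), ← hd]
      linarith
    have hd0 : 0 ≤ d := norm_nonneg _
    rw [e1]
    calc _ ≤ (s - t) * r + t * (L * ‖x - y‖) := e2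
      _ = (s - t) * r + L * (t * ‖x - y‖) := by ring
      _ ≤ d + L * (2 * d) := by
          refine add_le_add h3 (mul_le_mul_of_nonneg_left h4 (by linarith))
      _ ≤ 3 * L * d := by nlinarith
  rintro _ ⟨s, hs, x, hx, rfl⟩ _ ⟨t, ht, y, hy, rfl⟩
  rcases le_total t s with h | h
  · exact key s hs t ht h x hx y hy
  · rw [norm_sub_rev, norm_sub_rev (a + s • (x - a))]
    exact key t ht s hs h y hy x hx

/-- Lipschitz bounds on finitely many closed sets covering a segment -/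
theorem lip_of_closed_cover {ι : Type*} [Finite ι] {C : ι → Set E} (hC : ∀ i, IsClosed (C i))
    {f : E → F} {K : ℝ} (hf : ∀ i, ∀ x ∈ C i, ∀ y ∈ C i, ‖f x - f y‖ ≤ K * ‖x - y‖)
    {x y : E} (hxy : segment ℝ x y ⊆ ⋃ i, C i) : ‖f x - f y‖ ≤ K * ‖x - y‖ := by
  classical
  set g : ℝ → E := fun t => x + t • (y - x) with hg
  have hgc : Continuous g := by fun_prop
  have hgm : ∀ t ∈ Icc (0:ℝ) 1, ∃ i, g t ∈ C i := by
    intro t ht
    have : g t ∈ segment ℝ x y := by
      rw [segment_eq_image']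
      exact ⟨t, ht, rfl⟩
    simpa using hxy this
  have hgd : ∀ s t : ℝ, ‖g s - g t‖ = |s - t| * ‖x - y‖ := by
    intro s t
    have : g s - g t = (s - t) • (y - x) := by
      simp only [hg]; module
    rw [this, norm_smul, Real.norm_eq_abs, norm_sub_rev y x]
  -- `f ∘ g` is continuous on the interval
  have hfc : ContinuousOn (fun t => f (g t)) (Icc (0:ℝ) 1) := by
    have h1 : Icc (0:ℝ) 1 = ⋃ i, (Icc (0:ℝ) 1 ∩ g ⁻¹' C i) := by
      ext t
      constructor
      · intro ht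
        obtain ⟨i, hi⟩ := hgm t ht
        exact mem_iUnion.2 ⟨i, ht, hi⟩
      · intro ht
        obtain ⟨i, hi⟩ := mem_iUnion.1 ht
        exact hi.1
    rw [h1]
    refine (RelLF.of_finite fun i => isClosed_Icc.inter ((hC i).preimage hgc)).continuousOn ?_
    intro i
    have : LipschitzOnWith (Real.toNNReal (K * ‖x - y‖)) (fun t => f (g t))
        (Icc (0:ℝ) 1 ∩ g ⁻¹' C i) := by
      refine LipschitzOnWith.of_dist_le_mul fun s hs t ht => ?_
      rw [dist_eq_norm, dist_eq_norm, Real.norm_eq_abs]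
      have h2 := hf i _ hs.2 _ ht.2
      rw [hgd] at h2
      calc ‖f (g s) - f (g t)‖ ≤ K * (|s - t| * ‖x - y‖) := h2
        _ = (K * ‖x - y‖) * |s - t| := by ring
        _ ≤ _ := mul_le_mul_of_nonneg_right (Real.le_coe_toNNReal _) (abs_nonneg _)
    exact this.continuousOn
  set A : Set ℝ := {t | ‖f x - f (g t)‖ ≤ K * (t * ‖x - y‖)} with hA
  have hAc : IsClosed (A ∩ Icc 0 1) := by
    have h1 : A ∩ Icc 0 1 = Icc 0 1 ∩
        (fun t => ‖f x - f (g t)‖ - K * (t * ‖x - y‖)) ⁻¹' Iic 0 := by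
      ext t
      simp only [hA, mem_inter_iff, mem_ofPred_eq, mem_preimage, mem_Iic, sub_nonpos]
      tauto
    rw [h1]
    refine ContinuousOn.preimage_isClosed_of_isClosed ?_ isClosed_Icc isClosed_Iic
    exact ((continuousOn_const.sub hfc).norm).sub (by fun_prop)
  have key : Icc (0:ℝ) 1 ⊆ A := by
    refine hAc.Icc_subset_of_forall_exists_gt ?_ ?_
    · show ‖f x - f (g 0)‖ ≤ _
      simp [hg]
    · rintro t ⟨htA, ht⟩ b hb
      -- a piece contains `g t` and points `g s` with `s ↓ t`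
      have h1 : ∃ i, ∃ᶠ s in 𝓝[>] t, g s ∈ C i := by
        by_contra hne
        push Not at hne
        have h2 : ∀ᶠ s in 𝓝[>] t, ∀ i, g s ∉ C i := by
          rw [eventually_all]
          intro i
          exact hne i
        have h3 : ∀ᶠ s in 𝓝[>] t, s ∈ Ioo t 1 := Ioo_mem_nhdsGT ht.2
        obtain ⟨s, hs, hs'⟩ := (h2.and h3).exists
        obtain ⟨i, hi⟩ := hgm s ⟨ht.1.trans hs'.1.le, hs'.2.le⟩
        exact hs i hi
      obtain ⟨i, hi⟩ := h1
      have h2 : g t ∈ C i := by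
        have : t ∈ closure (g ⁻¹' C i) := by
          rw [mem_closure_iff_frequently]
          exact hi.filter_mono nhdsWithin_le_nhds
        rwa [((hC i).preimage hgc).closure_eq] at this
      have h3 : ∀ᶠ s in 𝓝[>] t, s ∈ Ioo t b := Ioo_mem_nhdsGT hb
      obtain ⟨s, hs, hs'⟩ := (hi.and_eventually h3).exists
      refine ⟨s, ?_, hs'.1, hs'.2.le⟩
      have h4 := hf i _ h2 _ hs
      rw [hgd, abs_sub_comm, abs_of_pos (sub_pos.2 hs'.1)] at h4
      have h5 : ‖f x - f (g t)‖ ≤ K * (t * ‖x - y‖) := htA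
      show ‖f x - f (g s)‖ ≤ K * (s * ‖x - y‖)
      calc ‖f x - f (g s)‖ = ‖(f x - f (g t)) + (f (g t) - f (g s))‖ := by congr 1; abel
        _ ≤ _ := norm_add_le _ _
        _ ≤ K * (t * ‖x - y‖) + K * ((s - t) * ‖x - y‖) := add_le_add h5 h4
        _ = K * (s * ‖x - y‖) := by ring
  have := key (right_mem_Icc.2 zero_le_one)
  have h1 : ‖f x - f (g 1)‖ ≤ K * (1 * ‖x - y‖) := this
  simpa [hg] using h1

end P073.H669
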