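import Vale.Agent.P073.H669.ConeCells
import Vale.Agent.P073.PR.Faces
import Vale.Agent.P073.St

/-!
# P073: lattice cells and the cone extension of lattice preserving homeomorphisms of the boundary
of a box

Normalised form: the box is `[0,N₀] × [0,N₁] × [0,N₂]`, the lattice is `ℤ³`.
-/

open Set Metric Topology Filter

namespace P073.H669

open Vale.Agent.P073.St (V)

/-- the closed lattice cell with lower corner `z` and free directions `s` -/
def cell (z : Fin 3 → ℤ) (s : Finset (Fin 3)) : Set V :=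
  Icc (fun k => (z k : ℝ)) (fun k => if k ∈ s then (z k : ℝ) + 1 else z k)

/-- the centre of the cell -/
noncomputable def cctr (z : Fin 3 → ℤ) (s : Finset (Fin 3)) : V :=
  fun k => if k ∈ s then (z k : ℝ) + 1 / 2 else z k

theorem mem_cell {z : Fin 3 → ℤ} {s : Finset (Fin 3)} {x : V} : x ∈ cell z s ↔
    ∀ k, (k ∈ s → (z k : ℝ) ≤ x k ∧ x k ≤ z k + 1) ∧ (k ∉ s → x k = z k) := by
  simp only [cell, mem_Icc, Pi.le_def]
  constructor
  · rintro ⟨h1, h2⟩ k
    have h1 := h1 k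
    have h2 := h2 k
    constructor
    · intro hk; rw [if_pos hk] at h2; exact ⟨h1, h2⟩
    · intro hk; rw [if_neg hk] at h2; exact le_antisymm h2 h1
  · intro h
    constructor
    · intro k
      by_cases hk : k ∈ s
      · exact ((h k).1 hk).1
      · exact ((h k).2 hk).ge
    · intro k
      by_cases hk : k ∈ s
      · simp only [if_pos hk]; exact ((h k).1 hk).2
      · simp only [if_neg hk]; exact ((h k).2 hk).le

theorem isCompact_cell (z : Fin 3 → ℤ) (s : Finset (Fin 3)) : IsCompact (cell z s) := isCompact_Icc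

theorem isClosed_cell (z : Fin 3 → ℤ) (s : Finset (Fin 3)) : IsClosed (cell z s) := isClosed_Icc

theorem locCone_cell (z : Fin 3 → ℤ) (s : Finset (Fin 3)) : LocCone (cell z s) :=
  locCone_Icc_pi _ _

theorem cctr_mem (z : Fin 3 → ℤ) (s : Finset (Fin 3)) : cctr z s ∈ cell z s := by
  rw [mem_cell]
  intro k
  constructor
  · intro hk; simp only [cctr, if_pos hk]; constructor <;> linarith
  · intro hk; simp only [cctr, if_neg hk]

theorem zero_mem_cell (z : Fin 3 → ℤ) (s : Finset (Fin 3)) :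
    (fun k => (z k : ℝ)) ∈ cell z s := by
  rw [mem_cell]
  intro k
  exact ⟨fun _ => ⟨le_refl _, by linarith⟩, fun _ => rfl⟩

theorem mem_cell_iff_norm {z : Fin 3 → ℤ} {s : Finset (Fin 3)} {x : V} :
    x ∈ cell z s ↔ ‖x - cctr z s‖ ≤ 1 / 2 ∧ ∀ k, k ∉ s → x k = cctr z s k := by
  rw [mem_cell, pi_norm_le_iff_of_nonneg (by norm_num)]
  constructor
  · intro h
    constructor
    · intro k
      rw [Pi.sub_apply, Real.norm_eq_abs]
      by_cases hk : k ∈ s
      · obtain ⟨h1, h2⟩ := (h k).1 hk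
        simp only [cctr, if_pos hk]
        rw [abs_le]; constructor <;> linarith
      · rw [(h k).2 hk]
        simp only [cctr, if_neg hk]
        norm_num
    · intro k hk
      rw [(h k).2 hk]
      simp only [cctr, if_neg hk]
  · rintro ⟨h1, h2⟩ k
    constructor
    · intro hk
      have := h1 k
      rw [Pi.sub_apply, Real.norm_eq_abs] at this
      simp only [cctr, if_pos hk] at this
      rw [abs_le] at this
      constructor <;> linarith [this.1, this.2]
    · intro hk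
      have := h2 k hk
      simpa only [cctr, if_neg hk] using this

/-- the relative boundary of the cell -/
def cbd (z : Fin 3 → ℤ) (s : Finset (Fin 3)) : Set V :=
  {x | x ∈ cell z s ∧ ∃ k ∈ s, x k = z k ∨ x k = z k + 1}

theorem mem_cbd_iff_norm {z : Fin 3 → ℤ} {s : Finset (Fin 3)} {x : V} :
    x ∈ cbd z s ↔ x ∈ cell z s ∧ ‖x - cctr z s‖ = 1 / 2 := by
  constructor
  · rintro ⟨hx, k, hk, h⟩
    refine ⟨hx, le_antisymm (mem_cell_iff_norm.1 hx).1 ?_⟩
    have h1 := norm_le_pi_norm (x - cctr z s) k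
    rw [Pi.sub_apply, Real.norm_eq_abs] at h1
    simp only [cctr, if_pos hk] at h1
    rcases h with h | h
    · rw [h] at h1
      have : |(z k : ℝ) - (z k + 1 / 2)| = 1 / 2 := by
        rw [abs_sub_comm, abs_of_nonneg (by linarith)]; ring
      rw [this] at h1
      exact h1
    · rw [h] at h1
      have : |(z k : ℝ) + 1 - (z k + 1 / 2)| = 1 / 2 := by
        rw [abs_of_nonneg (by linarith)]; ring
      rw [this] at h1
      exact h1
  · rintro ⟨hx, h⟩
    refine ⟨hx, ?_⟩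
    by_contra hne
    push Not at hne
    have : ‖x - cctr z s‖ < 1 / 2 := by
      rw [pi_norm_lt_iff (by norm_num)]
      intro k
      rw [Pi.sub_apply, Real.norm_eq_abs]
      by_cases hk : k ∈ s
      · obtain ⟨h1, h2⟩ := (mem_cell.1 hx k).1 hk
        obtain ⟨h3, h4⟩ := hne k hk
        simp only [cctr, if_pos hk]
        rw [abs_lt]
        have h5 := lt_of_le_of_ne h1 (Ne.symm h3)
        have h6 := lt_of_le_of_ne h2 h4
        constructor <;> linarith
      · rw [(mem_cell.1 hx k).2 hk]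
        simp only [cctr, if_neg hk]
        norm_num
    linarith

theorem cbd_sub (z : Fin 3 → ℤ) (s : Finset (Fin 3)) : cbd z s ⊆ cell z s := fun _ h => h.1

theorem isClosed_cbd (z : Fin 3 → ℤ) (s : Finset (Fin 3)) : IsClosed (cbd z s) := by
  have : cbd z s = cell z s ∩ {x | ‖x - cctr z s‖ = 1 / 2} := by
    ext x; exact mem_cbd_iff_norm
  rw [this]
  exact (isClosed_cell z s).inter (isClosed_eq (by fun_prop) continuous_const)

theorem rayBaseAt_cbd (z : Fin 3 → ℤ) (s : Finset (Fin 3)) : RayBaseAt (cctr z s) (cbd z s) := by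
  rw [rayBaseAt_iff]
  refine ⟨(isCompact_cell z s).of_isClosed_subset (isClosed_cbd z s) (cbd_sub z s), ?_, ?_⟩
  · intro h
    have := (mem_cbd_iff_norm.1 h).2
    rw [sub_self, norm_zero] at this
    norm_num at this
  · intro x hx t ht htx
    have h1 := (mem_cbd_iff_norm.1 hx).2
    have h2 := (mem_cbd_iff_norm.1 htx).2
    rw [add_sub_cancel_left, norm_smul, h1, Real.norm_of_nonneg ht.le] at h2
    linarith

theorem coneSetAt_cbd {z : Fin 3 → ℤ} {s : Finset (Fin 3)} (hs : s.Nonempty) :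
    coneSetAt (cctr z s) (cbd z s) = cell z s := by
  ext y
  constructor
  · rintro ⟨t, ht, x, hx, rfl⟩
    obtain ⟨hx1, hx2⟩ := mem_cbd_iff_norm.1 hx
    rw [mem_cell_iff_norm]
    refine ⟨?_, fun k hk => ?_⟩
    · rw [add_sub_cancel_left, norm_smul, hx2, Real.norm_of_nonneg ht.1]
      linarith [ht.2]
    · have := (mem_cell_iff_norm.1 hx1).2 k hk
      simp only [Pi.add_apply, Pi.smul_apply, Pi.sub_apply, smul_eq_mul, this]
      ring
  · intro hy
    obtain ⟨hy1, hy2⟩ := mem_cell_iff_norm.1 hy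
    by_cases h0 : y = cctr z s
    · obtain ⟨k, hk⟩ := hs
      refine ⟨0, ⟨le_refl _, zero_le_one⟩, (fun k => (z k : ℝ)), ⟨zero_mem_cell z s, k, hk,
        Or.inl rfl⟩, ?_⟩
      rw [zero_smul, add_zero, h0]
    · have hpos : 0 < ‖y - cctr z s‖ := norm_pos_iff.2 (sub_ne_zero.2 h0)
      set t := 2 * ‖y - cctr z s‖ with ht
      have ht0 : 0 < t := by positivity
      refine ⟨t, ⟨ht0.le, by linarith⟩, cctr z s + t⁻¹ • (y - cctr z s), ?_, ?_⟩
      · rw [mem_cbd_iff_norm, mem_cell_iff_norm]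
        have h1 : ‖cctr z s + t⁻¹ • (y - cctr z s) - cctr z s‖ = 1 / 2 := by
          rw [add_sub_cancel_left, norm_smul, Real.norm_of_nonneg (inv_nonneg.2 ht0.le), ht]
          field_simp
        refine ⟨⟨h1.le, fun k hk => ?_⟩, h1⟩
        simp only [Pi.add_apply, Pi.smul_apply, Pi.sub_apply, smul_eq_mul, hy2 k hk]
        ring
      · rw [add_sub_cancel_left, smul_smul, mul_inv_cancel₀ ht0.ne', one_smul, add_sub_cancel]

/-- the noninteger coordinates -/
noncomputable def J (x : V) : Finset (Fin 3) := Finset.univ.filter fun k => x k ≠ ⌊x k⌋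

theorem mem_J {x : V} {k : Fin 3} : k ∈ J x ↔ x k ≠ ⌊x k⌋ := by simp [J]

theorem notMem_J_of_int {x : V} {k : Fin 3} {n : ℤ} (h : x k = n) : k ∉ J x := by
  rw [mem_J, h]; simp

/-- the box -/
def bx (N : Fin 3 → ℕ) : Set V := Icc 0 (fun k => (N k : ℝ))

theorem mem_bx {N : Fin 3 → ℕ} {x : V} : x ∈ bx N ↔ ∀ k, 0 ≤ x k ∧ x k ≤ N k := by
  simp only [bx, mem_Icc, Pi.le_def, Pi.zero_apply]
  exact ⟨fun h k => ⟨h.1 k, h.2 k⟩, fun h => ⟨fun k => (h k).1, fun k => (h k).2⟩⟩

/-- the skeleton: boundary points, and points with less than `m` noninteger coordinates -/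
def sk (N : Fin 3 → ℕ) (m : ℕ) : Set V :=
  {x | x ∈ bx N ∧ ((∃ k, x k = 0 ∨ x k = N k) ∨ (J x).card < m)}

theorem J_sub {z : Fin 3 → ℤ} {s : Finset (Fin 3)} {x : V} (hx : x ∈ cell z s) : J x ⊆ s := by
  intro k hk
  by_contra hks
  exact notMem_J_of_int ((mem_cell.1 hx k).2 hks) hk

theorem int_between {z n : ℤ} (h1 : (z : ℝ) ≤ n) (h2 : (n : ℝ) ≤ z + 1) : n = z ∨ n = z + 1 := by
  have h3 : z ≤ n := by exact_mod_cast h1
  have h4 : n ≤ z + 1 := by exact_mod_cast h2
  omega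

theorem J_ssub_of_cbd {z : Fin 3 → ℤ} {s : Finset (Fin 3)} {x : V} (hx : x ∈ cbd z s) :
    (J x).card < s.card := by
  obtain ⟨h1, k, hk, h⟩ := hx
  apply Finset.card_lt_card
  refine ⟨J_sub h1, fun hsub => ?_⟩
  have hkJ := hsub hk
  rcases h with h | h
  · exact notMem_J_of_int h hkJ
  · exact notMem_J_of_int (n := z k + 1) (by rw [h]; push_cast; rfl) hkJ

/-- the cells which are attached in the step `m` -/
def idx (N : Fin 3 → ℕ) (m : ℕ) : Set ((Fin 3 → ℤ) × Finset (Fin 3)) :=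
  {p | p.2.card = m ∧ cell p.1 p.2 ⊆ bx N ∧ ∃ x ∈ cell p.1 p.2, ∀ k, x k ≠ 0 ∧ x k ≠ N k}

theorem finite_cells (N : Fin 3 → ℕ) :
    {p : (Fin 3 → ℤ) × Finset (Fin 3) | cell p.1 p.2 ⊆ bx N}.Finite := by
  have h : {z : Fin 3 → ℤ | ∀ k, z k ∈ Icc (0:ℤ) (N k)}.Finite := by
    have := Set.Finite.pi fun k : Fin 3 => Set.finite_Icc (0:ℤ) (N k)
    exact this.subset fun z hz k _ => hz k
  refine (h.prod (Set.finite_univ (α := Finset (Fin 3)))).subset ?_
  rintro ⟨z, s⟩ hp
  refine ⟨fun k => ?_, mem_univ _⟩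
  have h1 := mem_bx.1 (hp (zero_mem_cell z s)) k
  exact ⟨by exact_mod_cast h1.1, by exact_mod_cast h1.2⟩

instance (N : Fin 3 → ℕ) (m : ℕ) : Finite (idx N m) :=
  ((finite_cells N).subset fun _ h => h.2.1).to_subtype

theorem cell_inter_sk {N : Fin 3 → ℕ} {m : ℕ} {p : (Fin 3 → ℤ) × Finset (Fin 3)}
    (hp : p ∈ idx N m) : cell p.1 p.2 ∩ sk N m = cbd p.1 p.2 := by
  obtain ⟨hc, hsub, w, hw, hw'⟩ := hp
  ext x
  constructor
  · rintro ⟨hx, -, h⟩
    refine ⟨hx, ?_⟩
    rcases h with ⟨k, hk⟩ | h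
    · by_cases hks : k ∈ p.2
      · refine ⟨k, hks, ?_⟩
        obtain ⟨h1, h2⟩ := (mem_cell.1 hx k).1 hks
        rcases hk with hk | hk
        · rw [hk] at h1 h2 ⊢
          have := int_between (n := 0) (z := p.1 k) (by exact_mod_cast h1) (by exact_mod_cast h2)
          rcases this with h | h
          · left; exact_mod_cast h
          · right; exact_mod_cast h
        · rw [hk] at h1 h2 ⊢
          have := int_between (n := N k) (z := p.1 k) (by exact_mod_cast h1)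
            (by exact_mod_cast h2)
          rcases this with h | h
          · left; exact_mod_cast h
          · right; exact_mod_cast h
      · exfalso
        have h1 := (mem_cell.1 hx k).2 hks
        have h2 := (mem_cell.1 hw k).2 hks
        rw [h1] at hk
        rw [← h2] at hk
        rcases hk with hk | hk
        · exact (hw' k).1 hk
        · exact (hw' k).2 hk
    · rw [← hc] at h
      obtain ⟨k, hk, hkJ⟩ := Finset.exists_mem_notMem_of_card_lt_card h
      refine ⟨k, hk, ?_⟩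
      rw [mem_J, not_not] at hkJ
      obtain ⟨h1, h2⟩ := (mem_cell.1 hx k).1 hk
      rw [hkJ] at h1 h2 ⊢
      rcases int_between h1 h2 with h | h
      · left; exact_mod_cast h
      · right; exact_mod_cast h
  · intro hx
    exact ⟨hx.1, hsub hx.1, Or.inr (hc ▸ J_ssub_of_cbd hx)⟩

theorem floor_of_noninteger {z : ℤ} {a : ℝ} (h1 : (z : ℝ) ≤ a) (h2 : a ≤ z + 1)
    (h3 : a ≠ ⌊a⌋) : z = ⌊a⌋ := by
  symm
  rw [Int.floor_eq_iff]
  refine ⟨h1, lt_of_le_of_ne h2 fun h => h3 ?_⟩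
  rw [h]
  have : ⌊(z : ℝ) + 1⌋ = z + 1 := by
    rw [show (z : ℝ) + 1 = ((z + 1 : ℤ) : ℝ) by push_cast; rfl, Int.floor_intCast]
  rw [this]; push_cast; rfl

theorem cell_inter_cell {N : Fin 3 → ℕ} {m : ℕ} {p q : (Fin 3 → ℤ) × Finset (Fin 3)}
    (hp : p ∈ idx N m) (hq : q ∈ idx N m) (hpq : p ≠ q) : cell p.1 p.2 ∩ cell q.1 q.2 ⊆ sk N m := by
  rintro x ⟨hx, hy⟩
  refine ⟨hp.2.1 hx, ?_⟩
  by_contra hne
  push Not at hne
  obtain ⟨-, h2⟩ := hne
  have e1 : J x = p.2 := Finset.eq_of_subset_of_card_le (J_sub hx) (hp.1 ▸ h2)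
  have e2 : J x = q.2 := Finset.eq_of_subset_of_card_le (J_sub hy) (hq.1 ▸ h2)
  apply hpq
  refine Prod.ext ?_ (e1.symm.trans e2)
  funext k
  by_cases hk : k ∈ J x
  · obtain ⟨h3, h4⟩ := (mem_cell.1 hx k).1 (e1 ▸ hk)
    obtain ⟨h5, h6⟩ := (mem_cell.1 hy k).1 (e2 ▸ hk)
    rw [floor_of_noninteger h3 h4 (mem_J.1 hk), floor_of_noninteger h5 h6 (mem_J.1 hk)]
  · have h3 := (mem_cell.1 hx k).2 (e1 ▸ hk)
    have h4 := (mem_cell.1 hy k).2 (e2 ▸ hk)
    rw [h3] at h4
    exact_mod_cast h4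

theorem mem_cell_floor (x : V) : x ∈ cell (fun k => ⌊x k⌋) (J x) := by
  rw [mem_cell]
  intro k
  constructor
  · intro _; exact ⟨Int.floor_le _, (Int.lt_floor_add_one _).le⟩
  · intro hk; rw [mem_J, not_not] at hk; exact hk

theorem cell_floor_sub {N : Fin 3 → ℕ} {x : V} (hx : x ∈ bx N) :
    cell (fun k => ⌊x k⌋) (J x) ⊆ bx N := by
  intro y hy
  rw [mem_bx] at hx ⊢
  intro k
  obtain ⟨h1, h2⟩ := hx k
  have h0 : 0 ≤ ⌊x k⌋ := Int.floor_nonneg.2 h1
  have h0' : (0:ℝ) ≤ ⌊x k⌋ := by exact_mod_cast h0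
  by_cases hk : k ∈ J x
  · obtain ⟨h3, h4⟩ := (mem_cell.1 hy k).1 hk
    refine ⟨h0'.trans h3, h4.trans ?_⟩
    have h5 : ⌊x k⌋ < (N k : ℤ) := by
      rw [Int.floor_lt]
      refine lt_of_le_of_ne (by exact_mod_cast h2) fun h => ?_
      exact notMem_J_of_int (n := N k) h hk
    have h6 : ⌊x k⌋ + 1 ≤ (N k : ℤ) := h5
    exact_mod_cast h6
  · have h3 := (mem_cell.1 hy k).2 hk
    rw [mem_J, not_not] at hk
    rw [h3, ← hk]
    exact ⟨h1, h2⟩

theorem sk_succ (N : Fin 3 → ℕ) (m : ℕ) :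
    sk N m ∪ ⋃ p : idx N m, cell p.1.1 p.1.2 = sk N (m + 1) := by
  ext x
  constructor
  · rintro (⟨h1, h2⟩ | h)
    · exact ⟨h1, h2.imp_right fun h => h.trans (Nat.lt_succ_self m)⟩
    · obtain ⟨⟨p, hp⟩, hx⟩ := mem_iUnion.1 h
      refine ⟨hp.2.1 hx, Or.inr ?_⟩
      exact Nat.lt_succ_of_le (hp.1 ▸ Finset.card_le_card (J_sub hx))
  · rintro ⟨h1, h2⟩
    by_cases h3 : x ∈ sk N m
    · exact Or.inl h3
    · right
      have h4 : (∀ k, x k ≠ 0 ∧ x k ≠ N k) ∧ m ≤ (J x).card := by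
        constructor
        · intro k
          constructor
          · intro h; exact h3 ⟨h1, Or.inl ⟨k, Or.inl h⟩⟩
          · intro h; exact h3 ⟨h1, Or.inl ⟨k, Or.inr h⟩⟩
        · by_contra h; exact h3 ⟨h1, Or.inr (not_le.1 h)⟩
      have h5 : (J x).card = m := by
        rcases h2 with ⟨k, hk⟩ | h2
        · exact absurd hk (not_or.2 (h4.1 k))
        · omega
      exact mem_iUnion.2 ⟨⟨(fun k => ⌊x k⌋, J x), h5, cell_floor_sub h1, x, mem_cell_floor x, h4.1⟩,
        mem_cell_floor x⟩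

theorem sk_zero (N : Fin 3 → ℕ) : sk N 0 = frontier (bx N) := by
  ext x
  rw [bx, frontier_Icc_pi']
  constructor
  · rintro ⟨h1, h2⟩
    refine ⟨mem_bx.1 h1, fun h => ?_⟩
    rcases h2 with ⟨k, hk⟩ | h2
    · rcases hk with hk | hk
      · exact absurd hk (h k).1.ne'
      · exact absurd hk (h k).2.ne
    · exact absurd h2 (Nat.not_lt_zero _)
  · rintro ⟨h1, h2⟩
    refine ⟨mem_bx.2 h1, Or.inl ?_⟩
    by_contra hne
    push Not at hne
    exact h2 fun k => ⟨lt_of_le_of_ne (h1 k).1 (Ne.symm (hne k).1),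
      lt_of_le_of_ne (h1 k).2 (hne k).2⟩

theorem sk_four (N : Fin 3 → ℕ) : sk N 4 = bx N := by
  ext x
  refine ⟨fun h => h.1, fun h => ⟨h, Or.inr ?_⟩⟩
  have := Finset.card_le_univ (J x)
  simp only [Fintype.card_fin] at this
  omega

theorem isClosed_sk (N : Fin 3 → ℕ) (m : ℕ) : IsClosed (sk N m) := by
  induction m with
  | zero => rw [sk_zero]; exact isClosed_frontier
  | succ m ih =>
    rw [← sk_succ]
    exact ih.union (isClosed_iUnion_of_finite fun p => isClosed_cell _ _)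

end P073.H669
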