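import Vale.Agent.P073.H669.ConeLat

/-!
# P073: cone extension, step by step over the skeletons of the lattice
-/

open Set Metric Topology Filter

namespace P073.H669

open Vale.Agent.P073.St (V)

/-- same position with respect to the integers -/
def Same (a b : ℝ) : Prop := ⌊a⌋ = ⌊b⌋ ∧ ⌈a⌉ = ⌈b⌉

theorem Same.refl (a : ℝ) : Same a a := ⟨rfl, rfl⟩

theorem Same.symm {a b : ℝ} (h : Same a b) : Same b a := ⟨h.1.symm, h.2.symm⟩

theorem Same.le {a b : ℝ} (h : Same a b) {n : ℤ} (ha : a ≤ n) : b ≤ n := by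
  rw [← Int.ceil_le, ← h.2, Int.ceil_le]; exact ha

theorem Same.ge {a b : ℝ} (h : Same a b) {n : ℤ} (ha : (n : ℝ) ≤ a) : (n : ℝ) ≤ b := by
  rw [← Int.le_floor, ← h.1, Int.le_floor]; exact ha

theorem Same.eq {a b : ℝ} (h : Same a b) {n : ℤ} (ha : a = n) : b = n :=
  le_antisymm (h.le ha.le) (h.ge ha.ge)

theorem same_of_between {z : ℤ} {a b : ℝ} (ha : (z : ℝ) < a) (ha' : a < z + 1)
    (hb : (z : ℝ) < b) (hb' : b < z + 1) : Same a b := by
  constructor
  · rw [Int.floor_eq_iff.2 ⟨ha.le, ha'⟩, Int.floor_eq_iff.2 ⟨hb.le, hb'⟩]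
  · have h1 : ⌈a⌉ = z + 1 := by
      rw [Int.ceil_eq_iff]; push_cast; exact ⟨by linarith, ha'.le⟩
    have h2 : ⌈b⌉ = z + 1 := by
      rw [Int.ceil_eq_iff]; push_cast; exact ⟨by linarith, hb'.le⟩
    rw [h1, h2]

/-- the cone formula preserves the position -/
theorem same_cone {z : ℤ} {a b t : ℝ} (h : Same a b) (ha : (z : ℝ) ≤ a) (ha' : a ≤ z + 1)
    (ht : t ∈ Icc (0:ℝ) 1) :
    Same ((z : ℝ) + 1 / 2 + t * (a - (z + 1 / 2))) ((z : ℝ) + 1 / 2 + t * (b - (z + 1 / 2))) := by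
  have hb : (z : ℝ) ≤ b := h.ge ha
  have hb' : b ≤ z + 1 := by
    have := h.le (n := z + 1) (by push_cast; exact ha')
    push_cast at this; exact this
  rcases eq_or_lt_of_le ht.2 with h1 | h1
  · rw [h1, one_mul, one_mul]
    have e1 : (z : ℝ) + 1 / 2 + (a - (z + 1 / 2)) = a := by ring
    have e2 : (z : ℝ) + 1 / 2 + (b - (z + 1 / 2)) = b := by ring
    rw [e1, e2]; exact h
  · apply same_of_between (z := z) <;> nlinarith [ht.1]

/-- lattice preserving -/
def LP (f : V → V) (X : Set V) : Prop := ∀ x ∈ X, ∀ k, Same (x k) (f x k)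

theorem LP.mem_cell {f : V → V} {X : Set V} (h : LP f X) {x : V} (hx : x ∈ X) {z : Fin 3 → ℤ}
    {s : Finset (Fin 3)} (hc : x ∈ cell z s) : f x ∈ cell z s := by
  rw [P073.H669.mem_cell] at hc ⊢
  intro k
  constructor
  · intro hk
    obtain ⟨h1, h2⟩ := (hc k).1 hk
    refine ⟨(h x hx k).ge h1, ?_⟩
    have := (h x hx k).le (n := z k + 1) (by push_cast; exact h2)
    push_cast at this; exact this
  · intro hk
    exact (h x hx k).eq ((hc k).2 hk)

theorem LP.mem_cbd {f : V → V} {X : Set V} (h : LP f X) {x : V} (hx : x ∈ X) {z : Fin 3 → ℤ}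
    {s : Finset (Fin 3)} (hc : x ∈ cbd z s) : f x ∈ cbd z s := by
  obtain ⟨h1, k, hk, h2⟩ := hc
  refine ⟨h.mem_cell hx h1, k, hk, ?_⟩
  rcases h2 with h2 | h2
  · exact Or.inl ((h x hx k).eq h2)
  · right
    have := (h x hx k).eq (n := z k + 1) (by push_cast; exact h2)
    push_cast at this; exact this

theorem LP.inv {X : Set V} {φ : ConHomeo X X} (h : LP φ.toFun X) : LP φ.invFun X := by
  intro y hy k
  have := h _ (φ.mapsTo_inv hy) k
  rw [φ.right_inv hy] at this
  exact this.symm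

/-- the invariants of the construction -/
structure Inv (N : Fin 3 → ℕ) (ψ : V → V) (L : ℝ) (m : ℕ) (φ : ConHomeo (sk N m) (sk N m)) :
    Prop where
  ext : EqOn φ.toFun ψ (sk N 0)
  lp : LP φ.toFun (sk N m)
  idn : ∀ x ∈ sk N m, (∀ k, 1 ≤ x k ∧ x k + 1 ≤ N k) → φ.toFun x = x
  lip : ∀ (z : Fin 3 → ℤ) (s : Finset (Fin 3)), s.card < m → cell z s ⊆ bx N →
    ∀ x ∈ cell z s, ∀ y ∈ cell z s, ‖φ.toFun x - φ.toFun y‖ ≤ 6 ^ s.card * L * ‖x - y‖

theorem sk_mono {N : Fin 3 → ℕ} {m n : ℕ} (h : m ≤ n) : sk N m ⊆ sk N n :=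
  fun _ hx => ⟨hx.1, hx.2.imp_right fun h' => h'.trans_le h⟩

/-- Lipschitz on the relative boundary from Lipschitz on the faces -/
theorem lip_cbd {f : V → V} {z : Fin 3 → ℤ} {s : Finset (Fin 3)} {M : ℝ} (hM : 1 ≤ M)
    (hmem : ∀ x ∈ cbd z s, f x ∈ cell z s)
    (hf : ∀ k ∈ s, ∀ z' : Fin 3 → ℤ, cell z' (s.erase k) ⊆ cbd z s →
      ∀ x ∈ cell z' (s.erase k), ∀ y ∈ cell z' (s.erase k), ‖f x - f y‖ ≤ M * ‖x - y‖) :
    ∀ x ∈ cbd z s, ∀ y ∈ cbd z s, ‖f x - f y‖ ≤ 2 * M * ‖x - y‖ := by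
  -- the faces
  have face : ∀ k ∈ s, ∀ b : ℤ, (b = z k ∨ b = z k + 1) →
      ∀ x : V, x ∈ cell (Function.update z k b) (s.erase k) ↔ x ∈ cell z s ∧ x k = b := by
    intro k hk b hb x
    rw [mem_cell, mem_cell]
    constructor
    · intro h
      have hxk : x k = b := by
        have := (h k).2 (Finset.notMem_erase k s)
        rwa [Function.update_self] at this
      refine ⟨fun j => ?_, hxk⟩
      by_cases hj : j = k
      · subst hj
        refine ⟨fun _ => ?_, fun hj => absurd hk hj⟩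
        rw [hxk]
        rcases hb with hb | hb
        · rw [hb]; exact ⟨le_refl _, by linarith⟩
        · rw [hb]; push_cast; exact ⟨by linarith, le_refl _⟩
      · have := h j
        rw [Function.update_of_ne hj] at this
        exact ⟨fun hjs => this.1 (Finset.mem_erase.2 ⟨hj, hjs⟩),
          fun hjs => this.2 fun h' => hjs (Finset.mem_of_mem_erase h')⟩
    · rintro ⟨h, hxk⟩ j
      by_cases hj : j = k
      · subst hj
        refine ⟨fun h' => absurd h' (Finset.notMem_erase j s), fun _ => ?_⟩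
        rw [Function.update_self]; exact hxk
      · rw [Function.update_of_ne hj]
        exact ⟨fun hjs => (h j).1 (Finset.mem_of_mem_erase hjs),
          fun hjs => (h j).2 fun h' => hjs (Finset.mem_erase.2 ⟨hj, h'⟩)⟩
  have same : ∀ k ∈ s, ∀ b : ℤ, (b = z k ∨ b = z k + 1) → ∀ x ∈ cell z s, ∀ y ∈ cell z s,
      x k = b → y k = b → ‖f x - f y‖ ≤ M * ‖x - y‖ := by
    intro k hk b hb x hx y hy hxk hyk
    refine hf k hk (Function.update z k b) ?_ x ((face k hk b hb x).2 ⟨hx, hxk⟩) y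
      ((face k hk b hb y).2 ⟨hy, hyk⟩)
    intro w hw
    obtain ⟨h1, h2⟩ := (face k hk b hb w).1 hw
    refine ⟨h1, k, hk, ?_⟩
    rcases hb with hb | hb
    · left; rw [h2, hb]
    · right; rw [h2, hb]; push_cast; rfl
  have isb : ∀ x ∈ cbd z s, ∃ k ∈ s, ∃ b : ℤ, (b = z k ∨ b = z k + 1) ∧ x k = b := by
    rintro x ⟨-, k, hk, h | h⟩
    · exact ⟨k, hk, z k, Or.inl rfl, h⟩
    · exact ⟨k, hk, z k + 1, Or.inr rfl, by rw [h]; push_cast; rfl⟩
  intro x hx y hy
  obtain ⟨k, hk, b, hb, hxk⟩ := isb x hx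
  obtain ⟨l, hl, c, hc, hyl⟩ := isb y hy
  have hnn : 0 ≤ ‖x - y‖ := norm_nonneg _
  by_cases hkl : k = l
  · subst hkl
    by_cases hbc : b = c
    · subst hbc
      refine (same k hk b hb x hx.1 y hy.1 hxk hyl).trans ?_
      nlinarith
    · have h1 : (1:ℝ) ≤ ‖x - y‖ := by
        refine le_trans ?_ (norm_le_pi_norm (x - y) k)
        rw [Pi.sub_apply, Real.norm_eq_abs, hxk, hyl]
        rcases hb with hb | hb <;> rcases hc with hc | hc
        · exact absurd (hb.trans hc.symm) hbc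
        · rw [hb, hc]; push_cast
          rw [show (z k : ℝ) - (z k + 1) = -1 by ring]; norm_num
        · rw [hb, hc]; push_cast
          rw [show (z k : ℝ) + 1 - (z k) = 1 by ring]; norm_num
        · exact absurd (hb.trans hc.symm) hbc
      have h2 : ‖f x - f y‖ ≤ 1 := by
        have h3 := (mem_cell_iff_norm.1 (hmem x hx)).1
        have h4 := (mem_cell_iff_norm.1 (hmem y hy)).1
        calc ‖f x - f y‖ = ‖(f x - cctr z s) - (f y - cctr z s)‖ := by congr 1; abel
          _ ≤ ‖f x - cctr z s‖ + ‖f y - cctr z s‖ := norm_sub_le _ _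
          _ ≤ 1 := by linarith
      nlinarith
  · -- the intermediate point
    set w : V := Function.update x l (y l) with hw
    have hwl : w l = y l := by rw [hw, Function.update_self]
    have hwk : w k = x k := by rw [hw, Function.update_of_ne hkl]
    have hwj : ∀ j, j ≠ l → w j = x j := fun j hj => by rw [hw, Function.update_of_ne hj]
    have hwc : w ∈ cell z s := by
      rw [mem_cell]
      intro j
      by_cases hj : j = l
      · subst hj; rw [hwl]; exact mem_cell.1 hy.1 j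
      · rw [hwj j hj]; exact mem_cell.1 hx.1 j
    have h1 := same k hk b hb x hx.1 w hwc hxk (hwk.trans hxk)
    have h2 := same l hl c hc w hwc y hy.1 (hwl.trans hyl) hyl
    have h3 : ‖x - w‖ ≤ ‖x - y‖ := by
      rw [pi_norm_le_iff_of_nonneg hnn]
      intro j
      by_cases hj : j = l
      · subst hj
        rw [Pi.sub_apply, hwl]
        exact norm_le_pi_norm (x - y) j
      · rw [Pi.sub_apply, hwj j hj, sub_self, norm_zero]; exact hnn
    have h4 : ‖w - y‖ ≤ ‖x - y‖ := by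
      rw [pi_norm_le_iff_of_nonneg hnn]
      intro j
      by_cases hj : j = l
      · subst hj
        rw [Pi.sub_apply, hwl, sub_self, norm_zero]; exact hnn
      · rw [Pi.sub_apply, hwj j hj]
        exact norm_le_pi_norm (x - y) j
    calc ‖f x - f y‖ = ‖(f x - f w) + (f w - f y)‖ := by congr 1; abel
      _ ≤ ‖f x - f w‖ + ‖f w - f y‖ := norm_add_le _ _
      _ ≤ M * ‖x - w‖ + M * ‖w - y‖ := add_le_add h1 h2
      _ ≤ M * ‖x - y‖ + M * ‖x - y‖ := by gcongr
      _ = 2 * M * ‖x - y‖ := by ring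

/-- the hypothesis on `ψ`: Lipschitz on every lattice square in the boundary -/
def SqLip (N : Fin 3 → ℕ) (ψ : V → V) (L : ℝ) : Prop :=
  ∀ (z : Fin 3 → ℤ) (l : Fin 3), ∀ x ∈ sk N 0, ∀ y ∈ sk N 0, x ∈ cell z Finset.univ →
    y ∈ cell z Finset.univ → x l = y l → (x l = 0 ∨ x l = N l) → ‖ψ x - ψ y‖ ≤ L * ‖x - y‖

/-- cells in the boundary -/
theorem lip_of_bdry {N : Fin 3 → ℕ} {ψ : V → V} {L : ℝ} (hψ : SqLip N ψ L) {z : Fin 3 → ℤ}
    {s : Finset (Fin 3)} (hsub : cell z s ⊆ bx N) (hb : ∀ x ∈ cell z s, ∃ k, x k = 0 ∨ x k = N k) :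
    ∀ x ∈ cell z s, ∀ y ∈ cell z s, ‖ψ x - ψ y‖ ≤ L * ‖x - y‖ := by
  obtain ⟨l, hl⟩ := hb _ (cctr_mem z s)
  have hls : l ∉ s := by
    intro hls
    simp only [cctr, if_pos hls] at hl
    rcases hl with hl | hl
    · have h1 : (2 * z l + 1 : ℝ) = 0 := by linarith
      have h2 : 2 * z l + 1 = 0 := by exact_mod_cast h1
      omega
    · have h1 : (2 * z l + 1 : ℝ) = 2 * N l := by linarith
      have h2 : 2 * z l + 1 = 2 * (N l : ℤ) := by exact_mod_cast h1
      omega
  simp only [cctr, if_neg hls] at hl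
  have hsk : ∀ x ∈ cell z s, x ∈ sk N 0 := fun x hx => ⟨hsub hx, Or.inl (hb x hx)⟩
  have hcu : ∀ x ∈ cell z s, x ∈ cell z Finset.univ := by
    intro x hx
    rw [mem_cell] at hx ⊢
    intro k
    refine ⟨fun _ => ?_, fun h => absurd (Finset.mem_univ k) h⟩
    by_cases hk : k ∈ s
    · exact (hx k).1 hk
    · rw [(hx k).2 hk]; exact ⟨le_refl _, by linarith⟩
  intro x hx y hy
  have h1 := (mem_cell.1 hx l).2 hls
  have h2 := (mem_cell.1 hy l).2 hls
  exact hψ z l x (hsk x hx) y (hsk y hy) (hcu x hx) (hcu y hy) (h1.trans h2.symm)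
    (by rw [h1]; exact hl)

theorem step {N : Fin 3 → ℕ} {ψ : V → V} {L : ℝ} (hL : 1 ≤ L) (hψ : SqLip N ψ L) {m : ℕ}
    (hm : 1 ≤ m) (φ : ConHomeo (sk N m) (sk N m)) (I : Inv N ψ L m φ) :
    ∃ Φ : ConHomeo (sk N (m + 1)) (sk N (m + 1)), Inv N ψ L (m + 1) Φ := by
  have hne : ∀ p : idx N m, p.1.2.Nonempty := fun p => by
    rw [← Finset.card_pos, p.2.1]; exact hm
  have hbdsub : ∀ p : idx N m, cbd p.1.1 p.1.2 ⊆ sk N m := fun p => by
    rw [← cell_inter_sk p.2]; exact inter_subset_right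
  obtain ⟨Φ, h1, h2⟩ := exists_cone_cells (isClosed_sk N m) φ
    (fun p : idx N m => cell p.1.1 p.1.2) (fun p => cbd p.1.1 p.1.2) (fun p => cctr p.1.1 p.1.2)
    (fun p => rayBaseAt_cbd _ _) (fun p => coneSetAt_cbd (hne p))
    (fun p => (locCone_cell _ _).conicalSet) (fun p => cell_inter_sk p.2)
    (fun p => by
      apply Subset.antisymm
      · rintro _ ⟨x, hx, rfl⟩
        exact I.lp.mem_cbd (hbdsub p hx) hx
      · intro y hy
        exact ⟨φ.invFun y, I.lp.inv.mem_cbd (hbdsub p hy) hy, φ.right_inv (hbdsub p hy)⟩)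
    (fun p q hpq => cell_inter_cell p.2 q.2 fun h => hpq (Subtype.ext h))
  have hcs := sk_succ N m
  have h1' : EqOn (Φ.cast hcs hcs).toFun φ.toFun (sk N m) := h1
  have h2' : ∀ p : idx N m, ∀ x ∈ cbd p.1.1 p.1.2, ∀ t ∈ Icc (0:ℝ) 1,
      (Φ.cast hcs hcs).toFun (cctr p.1.1 p.1.2 + t • (x - cctr p.1.1 p.1.2)) =
        cctr p.1.1 p.1.2 + t • (φ.toFun x - cctr p.1.1 p.1.2) := h2
  have hcov : ∀ x ∈ sk N (m + 1), x ∈ sk N m ∨ ∃ p : idx N m, ∃ y ∈ cbd p.1.1 p.1.2,
      ∃ t ∈ Icc (0:ℝ) 1, x = cctr p.1.1 p.1.2 + t • (y - cctr p.1.1 p.1.2) ∧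
        x ∈ cell p.1.1 p.1.2 := by
    intro x hx
    rw [← hcs] at hx
    rcases hx with hx | hx
    · exact Or.inl hx
    · obtain ⟨p, hp⟩ := mem_iUnion.1 hx
      right
      have hp' := hp
      rw [← coneSetAt_cbd (hne p)] at hp'
      obtain ⟨t, ht, y, hy, hxy⟩ := hp'
      exact ⟨p, y, hy, t, ht, hxy, hp⟩
  refine ⟨Φ.cast hcs hcs, ⟨?_, ?_, ?_, ?_⟩⟩
  · intro x hx
    rw [h1' (sk_mono (Nat.zero_le m) hx)]
    exact I.ext hx
  · intro x hx k
    rcases hcov x hx with hx' | ⟨p, y, hy, t, ht, rfl, -⟩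
    · rw [h1' hx']; exact I.lp x hx' k
    · rw [h2' p y hy t ht]
      have hs := I.lp y (hbdsub p hy) k
      simp only [Pi.add_apply, Pi.smul_apply, Pi.sub_apply, smul_eq_mul]
      by_cases hk : k ∈ p.1.2
      · obtain ⟨h3, h4⟩ := (mem_cell.1 hy.1 k).1 hk
        simp only [cctr, if_pos hk]
        exact same_cone hs h3 h4 ht
      · have h3 := (mem_cell.1 hy.1 k).2 hk
        have h4 := hs.eq h3
        simp only [cctr, if_neg hk]
        rw [h3, h4]
        exact Same.refl _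
  · intro x hx hxN
    rcases hcov x hx with hx' | ⟨p, y, hy, t, ht, hxy, hxc⟩
    · rw [h1' hx']; exact I.idn x hx' hxN
    · by_cases hxm : x ∈ sk N m
      · rw [h1' hxm]; exact I.idn x hxm hxN
      · -- all of the cell is inside
        have hcell : ∀ w ∈ cell p.1.1 p.1.2, ∀ k, 1 ≤ w k ∧ w k + 1 ≤ N k := by
          intro w hw k
          obtain ⟨h5, h6⟩ := hxN k
          by_cases hk : k ∈ p.1.2
          · obtain ⟨h3, h4⟩ := (mem_cell.1 hxc k).1 hk
            have hxk : ∀ n : ℤ, x k ≠ n := by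
              intro n hn
              apply hxm
              refine ⟨hx.1, Or.inr ?_⟩
              rw [← p.2.1]
              refine Finset.card_lt_card ⟨J_sub hxc, fun hsub => ?_⟩
              exact notMem_J_of_int hn (hsub hk)
            have h7 : (p.1.1 k : ℝ) < x k := lt_of_le_of_ne h3 (Ne.symm (hxk _))
            have h8 : x k < p.1.1 k + 1 := lt_of_le_of_ne h4 (by
              have := hxk (p.1.1 k + 1); push_cast at this; exact this)
            have h9 : (0:ℤ) < p.1.1 k := by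
              have : (0:ℝ) < (p.1.1 k : ℝ) := by linarith
              exact_mod_cast this
            have h10 : p.1.1 k + 1 < (N k : ℤ) := by
              have : (p.1.1 k : ℝ) + 1 < (N k : ℝ) := by linarith
              exact_mod_cast this
            have h11 : (1:ℝ) ≤ p.1.1 k := by exact_mod_cast h9
            have h12 : (p.1.1 k : ℝ) + 1 + 1 ≤ (N k : ℝ) := by exact_mod_cast h10
            obtain ⟨h13, h14⟩ := (mem_cell.1 hw k).1 hk
            constructor <;> linarith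
          · have h3 := (mem_cell.1 hxc k).2 hk
            have h4 := (mem_cell.1 hw k).2 hk
            rw [h4, ← h3]
            exact ⟨h5, h6⟩
        have h3 : φ.toFun y = y := I.idn y (hbdsub p hy) (hcell y hy.1)
        rw [hxy, h2' p y hy t ht, h3]
  · intro z s hs hsub
    have hM : (1:ℝ) ≤ 6 ^ s.card * L := by
      have : (1:ℝ) ≤ 6 ^ s.card := one_le_pow₀ (by norm_num)
      nlinarith
    rcases Nat.lt_succ_iff_lt_or_eq.1 hs with hs | hs
    · intro x hx y hy
      have hsk : ∀ x ∈ cell z s, x ∈ sk N m := fun x hx =>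
        ⟨hsub hx, Or.inr ((Finset.card_le_card (J_sub hx)).trans_lt hs)⟩
      rw [h1' (hsk x hx), h1' (hsk y hy)]
      exact I.lip z s hs hsub x hx y hy
    · by_cases hb : ∀ x ∈ cell z s, ∃ k, x k = 0 ∨ x k = N k
      · intro x hx y hy
        have hsk : ∀ x ∈ cell z s, x ∈ sk N 0 := fun x hx => ⟨hsub hx, Or.inl (hb x hx)⟩
        have e1 := h1' (sk_mono (Nat.zero_le m) (hsk x hx))
        have e2 := h1' (sk_mono (Nat.zero_le m) (hsk y hy))
        rw [e1, e2, I.ext (hsk x hx), I.ext (hsk y hy)]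
        refine (lip_of_bdry hψ hsub hb x hx y hy).trans ?_
        have : (1:ℝ) ≤ 6 ^ s.card := one_le_pow₀ (by norm_num)
        have h0 : 0 ≤ ‖x - y‖ := norm_nonneg _
        have h3 : L ≤ 6 ^ s.card * L := by nlinarith
        exact mul_le_mul_of_nonneg_right h3 h0
      · push Not at hb
        obtain ⟨w, hw, hw'⟩ := hb
        let p : idx N m := ⟨(z, s), hs, hsub, w, hw, hw'⟩
        have hbs : cbd z s ⊆ sk N m := hbdsub p
        obtain ⟨n, rfl⟩ : ∃ n, m = n + 1 := ⟨m - 1, by omega⟩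
        have hMn : (1:ℝ) ≤ 6 ^ n * L := by
          have : (1:ℝ) ≤ 6 ^ n := one_le_pow₀ (by norm_num)
          nlinarith
        have hlb : ∀ x ∈ cbd z s, ∀ y ∈ cbd z s,
            ‖φ.toFun x - φ.toFun y‖ ≤ 2 * (6 ^ n * L) * ‖x - y‖ := by
          refine lip_cbd hMn (fun x hx => I.lp.mem_cell (hbs hx) hx.1) ?_
          intro k hk z' hz' x hx y hy
          have hcard : (s.erase k).card = n := by
            rw [Finset.card_erase_of_mem hk, hs]; rfl
          have := I.lip z' (s.erase k) (by omega) (fun x hx => (hbs (hz' hx)).1) x hx y hy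
          rwa [hcard] at this
        have hcl := cone_lip (a := cctr z s) (r := 1 / 2) (L := 2 * (6 ^ n * L))
          (D := cbd z s) (φ := φ.toFun) (f := (Φ.cast hcs hcs).toFun) (by linarith)
          (fun x hx => (mem_cbd_iff_norm.1 hx).2)
          (fun x hx => (mem_cell_iff_norm.1 (I.lp.mem_cell (hbs hx) hx.1)).1) hlb
          (fun x hx t ht => h2' p x hx t ht)
        rw [coneSetAt_cbd (hne p)] at hcl
        intro x hx y hy
        have := hcl x hx y hy
        rw [hs]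
        have e : 3 * (2 * (6 ^ n * L)) = 6 ^ (n + 1) * L := by ring
        rw [e] at this
        exact this

theorem base {N : Fin 3 → ℕ} {L : ℝ} (ψ : ConHomeo (sk N 0) (sk N 0))
    (hψ : LP ψ.toFun (sk N 0)) :
    ∃ Φ : ConHomeo (sk N 1) (sk N 1), Inv N ψ.toFun L 1 Φ := by
  set Y : Set V := ⋃ p : idx N 0, cell p.1.1 p.1.2 with hY
  have hYc : IsClosed Y := isClosed_iUnion_of_finite fun p => isClosed_cell _ _
  have hYl : LocCone Y := LocCone.iUnion_finite fun p => locCone_cell _ _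
  have hYint : ∀ x ∈ Y, ∀ k, ∃ n : ℤ, x k = n := by
    intro x hx k
    obtain ⟨p, hp⟩ := mem_iUnion.1 hx
    refine ⟨p.1.1 k, (mem_cell.1 hp k).2 ?_⟩
    have : p.1.2 = ∅ := Finset.card_eq_zero.1 p.2.1
    rw [this]; simp
  have hfix : ∀ x ∈ sk N 0 ∩ Y, ψ.toFun x = x := by
    rintro x ⟨hx, hxY⟩
    funext k
    obtain ⟨n, hn⟩ := hYint x hxY k
    rw [(hψ x hx k).eq hn, hn]
  have hag : EqOn ψ.toFun (ConHomeo.refl hYl.conicalSet).toFun (sk N 0 ∩ Y) := hfix
  have himg : sk N 0 ∩ Y ⊆ ψ.toFun '' (sk N 0 ∩ Y) := fun x hx => ⟨x, hx, hfix x hx⟩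
  have hc0 := isClosed_sk N 0
  have hcs : sk N 0 ∪ Y = sk N 1 := sk_succ N 0
  set Φ := ConHomeo.glue ψ (ConHomeo.refl hYl.conicalSet) hc0 hYc hc0 hYc hag himg with hΦ
  have e1 : EqOn (Φ.cast hcs hcs).toFun ψ.toFun (sk N 0) :=
    ConHomeo.glue_left ψ (ConHomeo.refl hYl.conicalSet) hc0 hYc hc0 hYc hag himg
  have e2 : ∀ x ∈ Y, (Φ.cast hcs hcs).toFun x = x :=
    ConHomeo.glue_right ψ (ConHomeo.refl hYl.conicalSet) hc0 hYc hc0 hYc hag himg
  refine ⟨Φ.cast hcs hcs, ⟨e1, ?_, ?_, ?_⟩⟩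
  · intro x hx k
    rw [← hcs] at hx
    rcases hx with hx | hx
    · rw [e1 hx]; exact hψ x hx k
    · rw [e2 x hx]; exact Same.refl _
  · intro x hx hxN
    rw [← hcs] at hx
    rcases hx with hx | hx
    · exfalso
      obtain ⟨-, ⟨k, hk⟩ | h⟩ := hx
      · obtain ⟨h1, h2⟩ := hxN k
        rcases hk with hk | hk
        · rw [hk] at h1; linarith
        · rw [hk] at h2; linarith
      · exact absurd h (Nat.not_lt_zero _)
    · exact e2 x hx
  · intro z s hs hsub x hx y hy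
    have hs0 : s = ∅ := Finset.card_eq_zero.1 (by omega)
    subst hs0
    have : x = y := by
      funext k
      rw [(mem_cell.1 hx k).2 (by simp), (mem_cell.1 hy k).2 (by simp)]
    rw [this]; simp

/-- **The cone extension**, normalised form, for a map which preserves the lattice. -/
theorem cone_layer_norm {N : Fin 3 → ℕ} (hN : ∀ k, 1 ≤ N k) (ψ : ConHomeo (sk N 0) (sk N 0))
    (hψ : LP ψ.toFun (sk N 0)) {L : ℝ} (hL : 1 ≤ L) (hS : SqLip N ψ.toFun L) :
    ∃ Ψ : ConHomeo (bx N) (bx N), EqOn Ψ.toFun ψ.toFun (sk N 0) ∧ LP Ψ.toFun (bx N) ∧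
      (∀ x ∈ bx N, (∀ k, 1 ≤ x k ∧ x k + 1 ≤ N k) → Ψ.toFun x = x) ∧
      ∀ x ∈ bx N, ∀ y ∈ bx N, ‖Ψ.toFun x - Ψ.toFun y‖ ≤ 216 * L * ‖x - y‖ := by
  obtain ⟨Φ1, I1⟩ := base (L := L) ψ hψ
  obtain ⟨Φ2, I2⟩ := step hL hS (le_refl 1) Φ1 I1
  obtain ⟨Φ3, I3⟩ := step hL hS (by norm_num) Φ2 I2
  obtain ⟨Φ4, I4⟩ := step hL hS (by norm_num) Φ3 I3
  have hcs := sk_four N
  refine ⟨Φ4.cast hcs hcs, I4.ext, fun x hx => I4.lp x (hcs.symm ▸ hx),
    fun x hx => I4.idn x (hcs.symm ▸ hx), ?_⟩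
  intro x hx y hy
  let ι := {z : Fin 3 → ℤ // cell z Finset.univ ⊆ bx N}
  have : Finite ι := by
    have := (finite_cells N).image Prod.fst
    refine (this.subset ?_).to_subtype
    intro z hz
    exact ⟨(z, Finset.univ), hz, rfl⟩
  have hcover : segment ℝ x y ⊆ ⋃ i : ι, cell i.1 Finset.univ := by
    intro w hw
    have hwb : w ∈ bx N := (convex_Icc _ _).segment_subset hx hy hw
    have hwb' := mem_bx.1 hwb
    set z : Fin 3 → ℤ := fun k => min ⌊w k⌋ (N k - 1) with hz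
    have hz0 : ∀ k, 0 ≤ z k := by
      intro k
      have h1 : 0 ≤ ⌊w k⌋ := Int.floor_nonneg.2 (hwb' k).1
      have h2 : (1:ℤ) ≤ N k := by exact_mod_cast hN k
      simp only [hz]
      omega
    have hzN : ∀ k, z k + 1 ≤ N k := by
      intro k
      simp only [hz]
      omega
    have hsub : cell z Finset.univ ⊆ bx N := by
      intro v hv
      rw [mem_bx]
      intro k
      obtain ⟨h1, h2⟩ := (mem_cell.1 hv k).1 (Finset.mem_univ k)
      have h3 : (0:ℝ) ≤ z k := by exact_mod_cast hz0 k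
      have h4 : (z k : ℝ) + 1 ≤ N k := by exact_mod_cast hzN k
      exact ⟨h3.trans h1, h2.trans h4⟩
    refine mem_iUnion.2 ⟨⟨z, hsub⟩, ?_⟩
    rw [mem_cell]
    intro k
    refine ⟨fun _ => ?_, fun h => absurd (Finset.mem_univ k) h⟩
    constructor
    · have : z k ≤ ⌊w k⌋ := min_le_left _ _
      exact (Int.cast_le.2 this).trans (Int.floor_le _)
    · rcases le_total ⌊w k⌋ ((N k : ℤ) - 1) with h | h
      · have : z k = ⌊w k⌋ := min_eq_left h
        simp only [this]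
        exact (Int.lt_floor_add_one _).le
      · have : z k = (N k : ℤ) - 1 := min_eq_right h
        simp only [this]
        push_cast
        linarith [(hwb' k).2]
  refine lip_of_closed_cover (ι := ι) (fun i => isClosed_cell _ _) ?_ hcover
  intro i x hx y hy
  have := I4.lip i.1 Finset.univ (by simp) i.2 x hx y hy
  simp only [Finset.card_univ, Fintype.card_fin] at this
  refine this.trans (le_of_eq ?_)
  norm_num

end P073.H669
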