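import Vale.Agent.P073.H669.Bypass
import Vale.Agent.P073.AB.Part86
import Vale.Agent.P073.H333.NetInA
import Vale.Agent.P073.ConGlue
import Vale.Agent.P073.PR.Faces

/-!
# P073, block P2h: [EXT], [FILL], [HULL2]

* `ext_boxes`: a connected open set minus a box and finitely many open dyadic cubes;
* `ext_discs`: minus discs in open squares whose two cubes are removed;
* `fill`: the image of a compact set is in the ball if the image of its boundary is;
* `hull2`: the same for a disc in a dyadic square.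
-/

namespace Vale.Agent.P073.H669

open Set Metric Topology Filter
open Vale.Agent.P073.St (V)
open Vale.Agent.P073.AB Vale.Agent.P073.AB.P86
open _root_.P073 (ConHomeo ConBall)
open _root_.P073.Net (dyc dyo)
open _root_.P073.H669 (bypass bypass_finite bypass_open inter_eq_empty_of_clopen
  isPreconnected_far)

/-- the open box -/
def obx (lo hi : V) : Set V := {x | ∀ k, lo k < x k ∧ x k < hi k}

theorem isOpen_obx (lo hi : V) : IsOpen (obx lo hi) := by
  have : obx lo hi = Set.pi univ fun k => Ioo (lo k) (hi k) := by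
    ext x; simp [obx]
  rw [this]
  exact isOpen_set_pi finite_univ fun _ _ => isOpen_Ioo

theorem isPreconnected_sphereV (n : ℕ) (hn : 2 ≤ n) :
    IsPreconnected (sphere (0 : Fin n → ℝ) 1) := by
  refine isPreconnected_sphere ?_ 0 1
  rw [rank_fin_fun]
  exact_mod_cast hn

/-- the boundary of a box is preconnected -/
theorem isPreconnected_frontier_Icc {lo hi : V} (h : ∀ k, lo k < hi k) :
    IsPreconnected (frontier (Icc lo hi)) := by
  let φ : V → V := fun x k => (lo k + hi k) / 2 + (hi k - lo k) / 2 * x k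
  have hφ : Continuous φ := by fun_prop
  have e : frontier (Icc lo hi) = φ '' sphere (0 : V) 1 := by
    rw [_root_.P073.frontier_Icc_pi']
    have hs : sphere (0 : V) 1 = {x | (∀ k, |x k| ≤ 1) ∧ ∃ k, |x k| = 1} := by
      ext x
      rw [mem_sphere, dist_zero_right]
      constructor
      · intro hx
        have h1 : ∀ k, |x k| ≤ 1 := fun k => by
          have := norm_le_pi_norm x k
          rw [Real.norm_eq_abs] at this; linarith
        refine ⟨h1, ?_⟩
        by_contra hne
        push Not at hne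
        have h2 : ‖x‖ < 1 := (pi_norm_lt_iff one_pos).2 fun k =>
          lt_of_le_of_ne (by rw [Real.norm_eq_abs]; exact h1 k)
            (by rw [Real.norm_eq_abs]; exact hne k)
        linarith
      · rintro ⟨h1, k, hk⟩
        apply le_antisymm
        · exact (pi_norm_le_iff_of_nonneg zero_le_one).2 fun j => by
            rw [Real.norm_eq_abs]; exact h1 j
        · rw [← hk, ← Real.norm_eq_abs]; exact norm_le_pi_norm x k
    rw [hs]
    ext y
    constructor
    · rintro ⟨h1, h2⟩
      have h3 : ∀ k, 0 < (hi k - lo k) / 2 := fun k => by linarith [h k]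
      have h4 : ∀ k, φ (fun k => (y k - (lo k + hi k) / 2) / ((hi k - lo k) / 2)) k = y k := by
        intro k
        have := (h3 k).ne'
        simp only [φ]
        rw [mul_div_cancel₀ _ this]; ring
      refine ⟨_, ⟨fun k => ?_, ?_⟩, funext h4⟩
      · rw [abs_le, le_div_iff₀ (h3 k), div_le_iff₀ (h3 k)]
        constructor <;> linarith [(h1 k).1, (h1 k).2]
      · by_contra hne
        push Not at hne
        apply h2
        intro k
        obtain ⟨h5, h6⟩ := h1 k
        have h7 := hne k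
        constructor
        · refine lt_of_le_of_ne h5 fun h8 => h7 ?_
          rw [← h8]
          have : (lo k - (lo k + hi k) / 2) / ((hi k - lo k) / 2) = -1 := by
            rw [div_eq_iff (h3 k).ne']; ring
          rw [this]; simp
        · refine lt_of_le_of_ne h6 fun h8 => h7 ?_
          rw [h8]
          have : (hi k - (lo k + hi k) / 2) / ((hi k - lo k) / 2) = 1 := by
            rw [div_eq_iff (h3 k).ne']; ring
          rw [this]; simp
    · rintro ⟨x, ⟨h1, k, hk⟩, rfl⟩
      refine ⟨fun j => ?_, fun h2 => ?_⟩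
      · have h3 := abs_le.1 (h1 j)
        have h4 := h j
        simp only [φ]
        constructor <;> nlinarith [h3.1, h3.2]
      · have h3 := h2 k
        have h4 := h k
        simp only [φ] at h3
        rcases (abs_eq zero_le_one).1 hk with h5 | h5
        · rw [h5] at h3; linarith [h3.2]
        · rw [h5] at h3; linarith [h3.1]
  rw [e]
  exact (isPreconnected_sphereV 3 (by norm_num)).image φ hφ.continuousOn

theorem closure_obx {lo hi : V} (h : ∀ k, lo k < hi k) : closure (obx lo hi) = Icc lo hi := by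
  have e : obx lo hi = Set.pi univ fun k => Ioo (lo k) (hi k) := by
    ext x; simp [obx]
  rw [e, closure_pi_set]
  ext x
  simp only [Set.mem_pi, mem_univ, true_implies, mem_Icc, Pi.le_def]
  constructor
  · intro hx
    have h1 : ∀ k, x k ∈ Icc (lo k) (hi k) := fun k => by
      have := hx k
      rwa [closure_Ioo (h k).ne] at this
    exact ⟨fun k => (h1 k).1, fun k => (h1 k).2⟩
  · rintro ⟨h1, h2⟩ k
    rw [closure_Ioo (h k).ne]
    exact ⟨h1 k, h2 k⟩

theorem isPreconnected_frontier_obx {lo hi : V} (h : ∀ k, lo k < hi k) :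
    IsPreconnected (frontier (obx lo hi)) := by
  have e : frontier (obx lo hi) = frontier (Icc lo hi) := by
    rw [(isOpen_obx lo hi).frontier_eq, closure_obx h, _root_.P073.frontier_Icc_pi']
    ext x
    simp only [Set.mem_sdiff, mem_Icc, Pi.le_def, obx]
    constructor
    · rintro ⟨⟨h1, h2⟩, h3⟩
      exact ⟨fun k => ⟨h1 k, h2 k⟩, h3⟩
    · rintro ⟨h1, h3⟩
      exact ⟨⟨fun k => (h1 k).1, fun k => (h1 k).2⟩, h3⟩
  rw [e]
  exact isPreconnected_frontier_Icc h

theorem dyo_eq_obx (v : V) (m : ℕ) (z : Fin 3 → ℤ) :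
    dyo v m z = obx (fun k => v k + z k / 2 ^ m) (fun k => v k + (z k + 1) / 2 ^ m) := rfl

theorem isPreconnected_frontier_dyo (v : V) (m : ℕ) (z : Fin 3 → ℤ) :
    IsPreconnected (frontier (dyo v m z)) := by
  rw [dyo_eq_obx]
  refine isPreconnected_frontier_obx fun k => ?_
  have : (0:ℝ) < 1 / 2 ^ m := by positivity
  rw [div_add_one]; linarith

/-- **[EXT]**, boxes: a preconnected set minus finitely many disjoint open boxes -/
theorem ext_boxes {Ω : Set V} (hΩ : IsPreconnected Ω) {ι : Type*} [Finite ι] {D : ι → Set V}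
    (hD : ∀ i, ∃ lo hi, (∀ k, lo k < hi k) ∧ D i = obx lo hi) (hDΩ : ∀ i, closure (D i) ⊆ Ω)
    (hd : ∀ i j, i ≠ j → Disjoint (D i) (D j)) : IsPreconnected (Ω \ ⋃ i, D i) := by
  refine bypass_open hΩ (fun i => ?_) hDΩ hd (fun i => ?_)
    fun _ _ => ⟨univ, univ_mem, Set.toFinite _⟩
  · obtain ⟨lo, hi, -, h⟩ := hD i
    rw [h]; exact isOpen_obx lo hi
  · obtain ⟨lo, hi, h1, h⟩ := hD i
    rw [h]; exact isPreconnected_frontier_obx h1

/-- **[EXT]**: a preconnected set minus an open box and finitely many open dyadic cubes -/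
theorem ext_cubes {Ω : Set V} (hΩ : IsPreconnected Ω) {v : V} {D : Set V}
    (hD : D = ∅ ∨ ∃ lo hi, (∀ k, lo k < hi k) ∧ D = obx lo hi) (hDΩ : closure D ⊆ Ω)
    {Q : Set Idx} (hQ : Q.Finite) (hQΩ : ∀ q ∈ Q, dyc v q.1 q.2 ⊆ Ω)
    (hQd : ∀ q ∈ Q, ∀ q' ∈ Q, q ≠ q' → Disjoint (dyo v q.1 q.2) (dyo v q'.1 q'.2))
    (hQD : ∀ q ∈ Q, dyo v q.1 q.2 ⊆ D ∨ Disjoint (dyo v q.1 q.2) D) :
    IsPreconnected (Ω \ (D ∪ ⋃ q ∈ Q, dyo v q.1 q.2)) := by
  classical
  have hQ' : Finite {q : Idx // q ∈ Q ∧ ¬ dyo v q.1 q.2 ⊆ D} :=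
    (hQ.subset fun q hq => hq.1 : {q : Idx | q ∈ Q ∧ ¬ dyo v q.1 q.2 ⊆ D}.Finite)
  have hbox : ∀ q : Idx, ∃ lo hi : V, (∀ k, lo k < hi k) ∧ dyo v q.1 q.2 = obx lo hi := by
    intro q
    refine ⟨_, _, fun k => ?_, dyo_eq_obx v q.1 q.2⟩
    have : (0:ℝ) < 1 / 2 ^ q.1 := by positivity
    rw [div_add_one]; linarith
  rcases hD with hD | hD
  · subst hD
    have h1 := ext_boxes hΩ (ι := {q : Idx // q ∈ Q ∧ ¬ dyo v q.1 q.2 ⊆ ∅})
      (D := fun q => dyo v q.1.1 q.1.2) (fun q => hbox q.1)
      (fun q => by rw [H333.closure_dyo]; exact hQΩ q.1 q.2.1)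
      (fun q q' hne => hQd q.1 q.2.1 q'.1 q'.2.1 fun h => hne (Subtype.ext h))
    have e : (Ω \ (∅ ∪ ⋃ q ∈ Q, dyo v q.1 q.2)) =
        Ω \ ⋃ i : {q : Idx // q ∈ Q ∧ ¬ dyo v q.1 q.2 ⊆ ∅}, dyo v i.1.1 i.1.2 := by
      congr 1
      rw [empty_union]
      ext x
      simp only [mem_iUnion, exists_prop, Subtype.exists]
      constructor
      · rintro ⟨q, hq, hx⟩
        exact ⟨q, ⟨hq, fun h => h hx⟩, hx⟩
      · rintro ⟨q, ⟨hq, -⟩, hx⟩
        exact ⟨q, hq, hx⟩
    rw [e]; exact h1
  · have h1 := ext_boxes hΩ (ι := Option {q : Idx // q ∈ Q ∧ ¬ dyo v q.1 q.2 ⊆ D})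
      (D := fun o => o.elim D fun q => dyo v q.1.1 q.1.2) (by
        rintro (_ | q)
        · exact hD
        · exact hbox q.1) (by
        rintro (_ | q)
        · exact hDΩ
        · show closure (dyo v q.1.1 q.1.2) ⊆ Ω
          rw [H333.closure_dyo]; exact hQΩ q.1 q.2.1) (by
        rintro (_ | q) (_ | q') hne
        · exact absurd rfl hne
        · exact ((hQD q'.1 q'.2.1).resolve_left q'.2.2).symm
        · exact (hQD q.1 q.2.1).resolve_left q.2.2
        · exact hQd q.1 q.2.1 q'.1 q'.2.1 fun h => hne (by rw [Subtype.ext h]))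
    have e : (Ω \ (D ∪ ⋃ q ∈ Q, dyo v q.1 q.2)) =
        Ω \ ⋃ o : Option {q : Idx // q ∈ Q ∧ ¬ dyo v q.1 q.2 ⊆ D},
          o.elim D fun q => dyo v q.1.1 q.1.2 := by
      congr 1
      ext x
      simp only [mem_union, mem_iUnion, exists_prop]
      constructor
      · rintro (hx | ⟨q, hq, hx⟩)
        · exact ⟨none, hx⟩
        · by_cases h : dyo v q.1 q.2 ⊆ D
          · exact ⟨none, h hx⟩
          · exact ⟨some ⟨q, hq, h⟩, hx⟩
      · rintro ⟨_ | q, hx⟩
        · exact Or.inl hx
        · exact Or.inr ⟨q.1, q.2.1, hx⟩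
    rw [e]; exact h1

/-- near the relative interior of a square there are only its two cubes -/
theorem exists_slab (v : V) (s : Idx × Fin 3) : ∃ O : Set V, IsOpen O ∧ rel v s ⊆ O ∧
    O ⊆ dyo v s.1.1 s.1.2 ∪ dyo v s.1.1 (lo s) ∪ rel v s := by
  refine ⟨{x | (∀ k, k ≠ s.2 → v k + s.1.2 k / 2 ^ s.1.1 < x k ∧
    x k < v k + (s.1.2 k + 1) / 2 ^ s.1.1) ∧ |x s.2 - (v s.2 + s.1.2 s.2 / 2 ^ s.1.1)| <
      1 / 2 ^ s.1.1}, ?_, ?_, ?_⟩
  · have : {x : V | (∀ k, k ≠ s.2 → v k + s.1.2 k / 2 ^ s.1.1 < x k ∧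
        x k < v k + (s.1.2 k + 1) / 2 ^ s.1.1) ∧ |x s.2 - (v s.2 + s.1.2 s.2 / 2 ^ s.1.1)| <
        1 / 2 ^ s.1.1} = (⋂ k ∈ {k : Fin 3 | k ≠ s.2}, {x : V | v k + s.1.2 k / 2 ^ s.1.1 < x k ∧
        x k < v k + (s.1.2 k + 1) / 2 ^ s.1.1}) ∩
        {x | |x s.2 - (v s.2 + s.1.2 s.2 / 2 ^ s.1.1)| < 1 / 2 ^ s.1.1} := by
      ext x; simp
    rw [this]
    refine IsOpen.inter ?_ (isOpen_lt (by fun_prop) continuous_const)
    refine (Set.toFinite _).isOpen_biInter fun k _ => ?_
    exact (isOpen_lt continuous_const (continuous_apply k)).inter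
      (isOpen_lt (continuous_apply k) continuous_const)
  · rintro x ⟨h1, h2⟩
    refine ⟨h2, ?_⟩
    rw [h1, sub_self, abs_zero]; positivity
  · rintro x ⟨h1, h2⟩
    rw [abs_lt] at h2
    rcases lt_trichotomy (x s.2) (v s.2 + s.1.2 s.2 / 2 ^ s.1.1) with h | h | h
    · left; right
      intro k
      by_cases hk : k = s.2
      · subst hk
        rw [lo_same, div_add_one]
        push_cast
        have e : ((s.1.2 s.2 : ℝ) - 1) / 2 ^ s.1.1 = s.1.2 s.2 / 2 ^ s.1.1 - 1 / 2 ^ s.1.1 :=
          sub_div _ _ _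
        rw [e]
        constructor <;> linarith [h2.1, h2.2]
      · rw [lo_other s hk]; exact h1 k hk
    · exact Or.inr ⟨h, h1⟩
    · left; left
      intro k
      by_cases hk : k = s.2
      · subst hk
        rw [div_add_one]
        constructor <;> linarith [h2.1, h2.2]
      · exact h1 k hk

theorem isPreconnected_bd {E κ : Set V} (h : ConBall 2 E κ) : IsPreconnected κ := by
  obtain ⟨hκ, φ, hφ⟩ := h
  have e : κ = φ.invFun '' sphere 0 1 := by
    rw [← hφ, image_image]
    ext x
    constructor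
    · intro hx
      exact ⟨x, hx, φ.left_inv (hκ hx)⟩
    · rintro ⟨y, hy, rfl⟩
      show φ.invFun (φ.toFun y) ∈ κ
      rw [φ.left_inv (hκ hy)]; exact hy
  rw [e]
  exact (isPreconnected_sphereV 2 le_rfl).image _ (φ.cont_inv.mono sphere_subset_closedBall)

/-- **[EXT]**, discs: `X` misses the two open cubes at each square; the discs minus their
boundary circles are removed -/
theorem ext_discs {X : Set V} (hX : IsPreconnected X) {ι : Type*} [Finite ι] {v : V}
    {s : ι → Idx × Fin 3} {E κ : ι → Set V} (hE : ∀ i, ConBall 2 (E i) (κ i))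
    (hEs : ∀ i, E i ⊆ rel v (s i)) (hEX : ∀ i, E i ⊆ X)
    (hU : ∀ i, ∃ U, IsOpen U ∧ E i \ κ i = squ v (s i) ∩ U)
    (hd : ∀ i j, i ≠ j → Disjoint (E i) (E j))
    (hXs : ∀ i, Disjoint X (dyo v (s i).1.1 (s i).1.2) ∧
      Disjoint X (dyo v (s i).1.1 (lo (s i)))) :
    IsPreconnected (X \ ⋃ i, (E i \ κ i)) := by
  refine bypass_finite hX (C := κ) (fun i => ?_) (fun i j hij => ?_) (fun i =>
    isPreconnected_bd (hE i)) (fun i => ?_) fun i => ?_
  · obtain ⟨U, hUo, hEU⟩ := hU i
    obtain ⟨O, hO, hsO, hOs⟩ := exists_slab v (s i)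
    refine ⟨U ∩ O, hUo.inter hO, ?_⟩
    ext x
    constructor
    · intro hx
      have h1 := hx
      rw [hEU] at h1
      exact ⟨hEX i hx.1, h1.2, hsO (hEs i hx.1)⟩
    · rintro ⟨hxX, hxU, hxO⟩
      rw [hEU]
      refine ⟨?_, hxU⟩
      rcases hOs hxO with (h | h) | h
      · exact absurd h (Set.disjoint_left.1 (hXs i).1 hxX)
      · exact absurd h (Set.disjoint_left.1 (hXs i).2 hxX)
      · exact rel_sub h
  · exact (hd i j hij).mono sdiff_subset sdiff_subset
  · intro x hx
    refine ⟨hEX i ((hE i).1 hx), fun h => ?_⟩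
    obtain ⟨j, hj⟩ := mem_iUnion.1 h
    by_cases hij : i = j
    · subst hij; exact hj.2 hx
    · exact Set.disjoint_left.1 (hd i j hij) ((hE i).1 hx) hj.1
  · rintro x ⟨-, hx⟩
    have h1 : x ∈ E i := by
      have := closure_mono (sdiff_subset (s := E i) (t := κ i)) hx
      rwa [(hE i).isCompact.isClosed.closure_eq] at this
    by_cases h : x ∈ κ i
    · exact Or.inr h
    · exact Or.inl ⟨h1, h⟩

/-! ### [FILL] and [HULL2] -/

theorem isOpen_image {Ω Λ : Set V} (hΛ : IsOpen Λ) (h : ConHomeo Ω Λ) {O : Set V} (hO : O ⊆ Ω)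
    (hOo : IsOpen O) : IsOpen (h.toFun '' O) := by
  have e : h.toFun '' O = Λ ∩ h.invFun ⁻¹' O := by
    ext y
    constructor
    · rintro ⟨x, hx, rfl⟩
      exact ⟨h.mapsTo (hO hx), by rw [mem_preimage, h.left_inv (hO hx)]; exact hx⟩
    · rintro ⟨hy, hy2⟩
      exact ⟨h.invFun y, hy2, h.right_inv hy⟩
  rw [e]
  exact h.cont_inv.isOpen_inter_preimage hΛ hOo

theorem isPreconnected_compl_closedBall (y : V) (R : ℝ) : IsPreconnected (closedBall y R)ᶜ := by
  rcases lt_or_ge R 0 with hR | hR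
  · rw [closedBall_eq_empty.2 hR, compl_empty]
    exact isPreconnected_univ
  have e : (closedBall y R)ᶜ = {x : V | (∀ j, j ∉ (univ : Set (Fin 3)) → x j = (0 : V) j) ∧
      ∃ j ∈ (univ : Set (Fin 3)), R < |x j - y j|} := by
    ext x
    simp only [mem_compl_iff, mem_closedBall, dist_pi_le_iff hR, Real.dist_eq, not_forall, not_le,
      mem_univ, not_true_eq_false, false_implies, implies_true, true_and]
    rfl
  rw [e]
  exact isPreconnected_far univ 0 y R fun j _ => ⟨j + 1, mem_univ _, by revert j; decide⟩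

/-- **[FILL]** -/
theorem fill {Ω Λ : Set V} (hΛ : IsOpen Λ) (h : ConHomeo Ω Λ) {K G : Set V} (hK : IsCompact K)
    (hKΩ : K ⊆ Ω) (hG : IsPreconnected Gᶜ) (hGb : Bornology.IsBounded G)
    (hb : ∀ x ∈ frontier K, h.toFun x ∈ G) : ∀ x ∈ K, h.toFun x ∈ G := by
  have hc : IsCompact (h.toFun '' K) := hK.image_of_continuousOn (h.cont.mono hKΩ)
  have h1 := inter_eq_empty_of_clopen hG hc.isClosed
    (isOpen_image hΛ h (interior_subset.trans hKΩ) isOpen_interior) (O := h.toFun '' interior K)
    (by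
      ext y
      constructor
      · rintro ⟨⟨x, hx, rfl⟩, hxG⟩
        refine ⟨⟨x, ?_, rfl⟩, hxG⟩
        by_contra hn
        refine hxG (hb x ?_)
        rw [hK.isClosed.frontier_eq]
        exact ⟨hx, hn⟩
      · rintro ⟨⟨x, hx, rfl⟩, hxG⟩
        exact ⟨⟨x, interior_subset hx, rfl⟩, hxG⟩)
    (by
      intro hsub
      have : Bornology.IsBounded (univ : Set V) := by
        refine (hGb.union (hc.isBounded)).subset fun x _ => ?_
        by_cases hx : x ∈ G
        · exact Or.inl hx
        · exact Or.inr (hsub hx)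
      exact NormedSpace.unbounded_univ ℝ V this)
  intro x hx
  by_contra hn
  rw [eq_empty_iff_forall_notMem] at h1
  exact h1 _ ⟨mem_image_of_mem _ hx, hn⟩

/-- **[FILL]**, dyadic cubes -/
theorem fill_dyc {Ω Λ : Set V} (hΛ : IsOpen Λ) (h : ConHomeo Ω Λ) {v : V} {n : ℕ}
    {z : Fin 3 → ℤ} (hz : dyc v n z ⊆ Ω) {y : V} {R : ℝ}
    (hb : ∀ x ∈ frontier (dyc v n z), h.toFun x ∈ closedBall y R) :
    ∀ x ∈ dyc v n z, h.toFun x ∈ closedBall y R :=
  fill hΛ h (isCompact_dyc v n z) hz (isPreconnected_compl_closedBall y R) isBounded_closedBall hb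

/-- **[HULL2]** -/
theorem hull2 {v : V} {s : Idx × Fin 3} {E κ U : Set V} (hE : IsCompact E) (hEs : E ⊆ rel v s)
    (hU : IsOpen U) (hEU : E \ κ = squ v s ∩ U) {o : V} {R : ℝ} (hκ : κ ⊆ closedBall o R) :
    E ⊆ closedBall o R := by
  set a : ℝ := v s.2 + s.1.2 s.2 / 2 ^ s.1.1 with ha
  set W : Set V := {x | x s.2 = a} ∩ (closedBall o R)ᶜ with hW
  have hpre : IsPreconnected W := by
    by_cases hR : |a - o s.2| ≤ R
    · have e : W = {x : V | (∀ j, j ∉ {j : Fin 3 | j ≠ s.2} → x j = (fun _ => a : V) j) ∧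
          ∃ j ∈ {j : Fin 3 | j ≠ s.2}, R < |x j - o j|} := by
        have hR0 : 0 ≤ R := (abs_nonneg _).trans hR
        ext x
        simp only [hW, mem_inter_iff, mem_compl_iff, mem_closedBall, dist_pi_le_iff hR0,
          Real.dist_eq, not_forall, not_le, mem_ofPred_eq, not_not]
        constructor
        · rintro ⟨h1, j, hj⟩
          have h1' : x s.2 = a := h1
          refine ⟨fun k hk => by rw [hk]; exact h1', j, fun hjs => ?_, hj⟩
          rw [hjs, h1'] at hj
          linarith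
        · rintro ⟨h1, j, -, hj⟩
          exact ⟨h1 s.2 rfl, j, hj⟩
      rw [e]
      refine isPreconnected_far _ _ _ _ fun j hj => ?_
      have : ∀ (l j : Fin 3), j ≠ l → ∃ k, k ≠ l ∧ k ≠ j := by decide
      exact this s.2 j hj
    · have e : W = {x : V | x s.2 = a} := by
        refine inter_eq_left.2 fun x hx hxb => hR ?_
        have h1 : x s.2 = a := hx
        rw [mem_closedBall, dist_eq_norm] at hxb
        have := norm_le_pi_norm (x - o) s.2
        rw [Real.norm_eq_abs, Pi.sub_apply, h1] at this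
        linarith
      rw [e]
      refine Convex.isPreconnected fun x hx y hy p q _ _ hpq => ?_
      have h1 : x s.2 = a := hx
      have h2 : y s.2 = a := hy
      show (p • x + q • y) s.2 = a
      simp only [Pi.add_apply, Pi.smul_apply, smul_eq_mul, h1, h2]
      rw [← add_mul, hpq, one_mul]
  obtain ⟨O, hO, hsO, hOs⟩ := exists_slab v s
  have h1 := inter_eq_empty_of_clopen hpre hE.isClosed (hU.inter hO) (by
      ext x
      constructor
      · rintro ⟨hxE, hxW⟩
        refine ⟨⟨?_, hsO (hEs hxE)⟩, hxW⟩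
        have h2 : x ∈ E \ κ := ⟨hxE, fun hk => hxW.2 (hκ hk)⟩
        rw [hEU] at h2
        exact h2.2
      · rintro ⟨⟨hxU, hxO⟩, hxW⟩
        refine ⟨?_, hxW⟩
        have hxa : x s.2 = a := hxW.1
        have h2 : x ∈ squ v s := by
          rcases hOs hxO with (h | h) | h
          · exfalso
            have := (h s.2).1
            rw [hxa] at this
            exact lt_irrefl _ this
          · exfalso
            have := (h s.2).2
            rw [hxa, lo_same] at this
            push_cast at this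
            rw [sub_add_cancel] at this
            exact lt_irrefl _ this
          · exact rel_sub h
        have h3 : x ∈ E \ κ := by rw [hEU]; exact ⟨h2, hxU⟩
        exact h3.1)
    (by
      intro hsub
      obtain ⟨M, hM⟩ := hE.isBounded.exists_norm_le
      obtain ⟨j, hj⟩ := _root_.exists_ne s.2
      set t : ℝ := |M| + |R| + ‖o‖ + 1 with ht
      have ht0 : 0 < t := by positivity
      let x : V := fun i => if i = s.2 then a else if i = j then t else 0
      have hxj : x j = t := by simp [x, hj]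
      have hxn : t ≤ ‖x‖ := by
        have := norm_le_pi_norm x j
        rwa [hxj, Real.norm_of_nonneg ht0.le] at this
      have hxW : x ∈ W := by
        refine ⟨?_, fun hb => ?_⟩
        · show x s.2 = a
          simp only [x, if_pos rfl]
        · rw [mem_closedBall, dist_eq_norm] at hb
          have := norm_sub_norm_le x o
          have h5 := le_abs_self R
          have h6 := abs_nonneg M
          linarith
      have := hM x (hsub hxW)
      have h5 := le_abs_self M
      have h6 := abs_nonneg R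
      have h7 := norm_nonneg o
      linarith)
  intro x hx
  by_contra hn
  rw [eq_empty_iff_forall_notMem] at h1
  exact h1 x ⟨hx, (hEs hx).1, hn⟩

end Vale.Agent.P073.H669
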