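import Vale.Agent.P073.H669.GamG
import Vale.Agent.P073.H605.GamK
import Vale.Agent.P073.H238.RT1Defs

/-!
# P073, H669: **[GAM-LEV]** for round T of `K3C`

`GamS`: the product structures of the bands of all levels.  `exists_gam3`: slivers, constants and the
bound of the spacing, then product structures for all levels, with H605's `exists_gamK`.
`GamS.gvch`: the structure `GVch` of H399.
-/

open Set Metric Topology Filter

namespace Vale.Agent.P073.H669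

open _root_.P073 _root_.P073.TR _root_.P073.Net _root_.P073.PA691
open Vale.Agent.P073.St (V)
open Vale.Agent.P073.H471 Vale.Agent.P073.H267 Vale.Agent.P073.H267.Geo
open Vale.Agent.P073.H73 (Mesh)
open Vale.Agent.P073.H193 (Edges)
open _root_.P073.H936 (lev band bnd)
open _root_.P073.H345 (fam)
open _root_.P073.H399 (GVch)
open _root_.P073.H605 (tcell gX Vert exists_gamK isCompact_gX gX_sub conicalSet_gX)
open Vale.Agent.P073.H238.K3 (Wc Gv Act)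
open Vale.Agent.P073.H926
open Vale.Agent.P073.H579 (TStageW)

variable {c₀ n δ : ℝ} {j : ℕ} {Ω Λ : Set V} {v w : V} {ρ : V → ℝ} {M : Mesh Ω} {h : ConHomeo Ω Λ}
  {J₀ J : Set (ℕ × (Fin 3 → ℤ))} {P Z : Set M.ι} {K : BoxCx Λ w} {E : Edges M}

/-- the family of sets which are preserved by the product structures -/
abbrev gFm (M : Mesh Ω) (E : Edges M) : M.ι ⊕ (M.κ ⊕ (E.ε ⊕ E.verts)) → Set V :=
  Sum.elim M.Q (fam M E)

theorem gFm_cone (g : M.ι ⊕ (M.κ ⊕ (E.ε ⊕ E.verts))) : ∀ x ∈ Ω, LocConeAt (gFm M E g) x := by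
  rcases g with i | g
  · exact fun x _ => (Vale.Agent.P073.H244.conBall_cell M i).locCone x
  · exact fun x _ => fam_cone g x

theorem gFm_lf (hΩ : IsOpen Ω) (M : Mesh Ω) (E : Edges M) :
    ∀ x ∈ Ω, ∃ U ∈ 𝓝 x, {t | (gFm M E t ∩ U).Nonempty}.Finite := by
  intro x hx
  obtain ⟨r, hr, hb⟩ := Metric.nhds_basis_closedBall.mem_iff.1 (hΩ.mem_nhds hx)
  obtain ⟨U, hU, h2⟩ := fam_lf hΩ M E x hx
  refine ⟨closedBall x r ∩ U, inter_mem (closedBall_mem_nhds x hr) hU,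
    (((M.fin _ hb (isCompact_closedBall x r)).image Sum.inl).union (h2.image Sum.inr)).subset ?_⟩
  rintro (g | t) ⟨y, hy, hyO⟩
  · exact Or.inl ⟨g, ⟨y, hy, hyO.1⟩, rfl⟩
  · exact Or.inr ⟨t, ⟨y, hy, hyO.2⟩, rfl⟩

/-- **the product structures of the bands of all levels of round T**, half width `η b`.
`Lb`: Lipschitz constants, `lam`: bounds of the displacements -/
structure GamS (D : KIn3 c₀ n j δ v w ρ M h J₀ J P Z) (C : Cells ρ w K) (E : Edges M)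
    (Lb lam : TBx K → ℝ) {Tt : TBx K → Finset (ℝ × ℝ)} {ηn : ℝ} {εE : E.ε → ℝ} {dl : TBx K → ℝ}
    (L : TLv (D.G C) E h (ω3T δ C) Tt ηn (fun _ : Empty => (∅ : Set V)) ∅ εE dl)
    (η : TBx K → ℝ)
    (Γ : ∀ (b : pB C J₀) (m : Fin (L.N b.1)), Cht h (gX D C b.1) b.1.ax (L.a b.1 m) (η b.1)) :
    Prop where
  η0 : ∀ b, 0 < η b
  ηd : ∀ b, η b ≤ dl b / 4
  ηω : ∀ b, η b ≤ 6 * ω3T δ C b
  ok : ∀ (b : pB C J₀) (m : Fin (L.N b.1)),
    GamOk h (gX D C b.1) b.1.ax (gFm M E) {S | ∃ i ∈ tcell D C b.1, S = M.Q i} (Lb b.1)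
      (L.a b.1 m) (η b.1) (Γ b m)
  vert : ∀ (b : pB C J₀) (m : Fin (L.N b.1)), Vert D C b.1 (L.a b.1 m) (Γ b m)
  /-- small displacement along the fibres -/
  close : ∀ (b : pB C J₀) (m : Fin (L.N b.1)),
    ∀ z ∈ lev (gX D C b.1) (fun x => h.toFun x b.1.ax) (L.a b.1 m),
      ∀ s ∈ Icc (-1:ℝ) 1, ∀ s' ∈ Icc (-1:ℝ) 1,
        ‖(Γ b m).toFun (z, s) - (Γ b m).toFun (z, s')‖ ≤ lam b.1 ∧
        ‖h.toFun ((Γ b m).toFun (z, s)) - h.toFun ((Γ b m).toFun (z, s'))‖ ≤ lam b.1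

section

variable {D : KIn3 c₀ n j δ v w ρ M h J₀ J P Z} {C : Cells ρ w K}
  {Lb lam : TBx K → ℝ} {Tt : TBx K → Finset (ℝ × ℝ)} {ηn : ℝ} {εE : E.ε → ℝ} {dl : TBx K → ℝ}
  {L : TLv (D.G C) E h (ω3T δ C) Tt ηn (fun _ : Empty => (∅ : Set V)) ∅ εE dl} {η : TBx K → ℝ}
  {Γ : ∀ (b : pB C J₀) (m : Fin (L.N b.1)), Cht h (gX D C b.1) b.1.ax (L.a b.1 m) (η b.1)}

/-- given cells at the boxes -/
theorem gv_cover {i : M.ι} (hi : i ∈ Gv D C) {b : TBx K} (hb : b ∈ pB C J₀) {x : V}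
    (hx : x ∈ M.Q i) (hxb : h.toFun x ∈ (D.G C).TB false b) :
    i ∈ P ∪ Wc D C ∧ i ∈ tcell D C b := by
  rcases hi with hi | hi
  · exact ⟨hi, hi, x, hx, hxb⟩
  · exact absurd hxb (hi x hx b hb)

/-- **the structure of H399** -/
theorem GamS.gvch (H : GamS D C E Lb lam L η Γ) (hlam : ∀ b, lam b ≤ ω3T δ C b / 2)
    {h' : ConHomeo Ω Λ}
    (O : TStageW (D.G C) M h h' P (P ∪ Wc D C) (Act D C) (pB C J₀) L.lev (ω3T δ C))
    {c : TBx K → ℝ} (hc0 : ∀ b, 0 < c b) (hc : ∀ b, c b ≤ dl b / 8) :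
    GVch M E h h' (fun b : pB C J₀ => L.bxQ c hc0 hc b.1) (Gv D C)
      (fun b => rtO (D.G C) (ω3T δ C) b.1 45) (fun b => rtO (D.G C) (ω3T δ C) b.1 60)
      (fun b => gX D C b.1) (fun b => η b.1) Γ :=
  gvch_of L hc0 hc O (X := gX D C) (isCompact_gX D C) (conicalSet_gX D C)
    (fun i hi b hb x hx hxb => by
      obtain ⟨h1, h2⟩ := gv_cover hi hb hx hxb
      exact ⟨h1, mem_biUnion h2 hx⟩)
    H.η0 H.ηd hlam H.ηω (fun b m => (H.ok b m).level) (fun b m => (H.ok b m).zero)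
    (fun b m t => (H.ok b m).inv t)
    (fun b m z hz s hs => by
      have h1 := (H.close b m z hz s hs 0 (by norm_num)).2
      rwa [(H.ok b m).zero z hz] at h1)

end

/-- **[GAM-LEV] for `K3C`** -/
theorem exists_gam3 (D : KIn3 c₀ n j δ v w ρ M h J₀ J P Z) (C : Cells ρ w K) (E : Edges M)
    (V₀ : TBx K → Finset ℝ) {σ₀ lam : TBx K → ℝ} (hσ : ∀ b, 0 < σ₀ b) (hlam : ∀ b, 0 < lam b) :
    ∃ (Tt : TBx K → Finset (ℝ × ℝ)) (Lb dmax : TBx K → ℝ), (∀ b, ∀ p ∈ Tt b, p.1 ≤ p.2) ∧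
      (∀ b, ∑ p ∈ Tt b, (p.2 - p.1) ≤ σ₀ b) ∧ (∀ b, ∀ t ∈ V₀ b, (t, t) ∈ Tt b) ∧
      (∀ b, 0 ≤ Lb b) ∧ (∀ b, 0 < dmax b) ∧
    ∀ (ηn : ℝ) (εE : E.ε → ℝ) (dl : TBx K → ℝ)
      (L : TLv (D.G C) E h (ω3T δ C) Tt ηn (fun _ : Empty => (∅ : Set V)) ∅ εE dl)
      (η : TBx K → ℝ), (∀ b, 0 < η b) → (∀ b, η b ≤ dl b / 4) → (∀ b, η b ≤ dmax b) →
      ∃ Γ : ∀ (b : pB C J₀) (m : Fin (L.N b.1)), Cht h (gX D C b.1) b.1.ax (L.a b.1 m) (η b.1),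
        GamS D C E Lb lam L η Γ := by
  have hΩ : IsOpen Ω := D.bΩ.1
  obtain ⟨RP⟩ := exists_rtpre hΩ (D.G C) h (X := gX D C) (Fm := gFm M E) (isCompact_gX D C)
    (gX_sub D C) gFm_cone (gFm_lf hΩ M E) V₀ hσ
  obtain ⟨Lb, dmax, hLb, hd, hclose, H⟩ := exists_gamLev hΩ RP (isCompact_gX D C) (gX_sub D C)
    (pB C J₀)
    (fun b Lc t η Γ => GamOk h (gX D C b) b.ax (gFm M E) {S | ∃ i ∈ tcell D C b, S = M.Q i}
      Lc t η Γ ∧ Vert D C b t Γ)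
    (fun b Lc L' t η Γ h0 hL H => ⟨H.1.mono h0.le hL, H.2⟩)
    (fun b _ Lc t η Γ H => H.1.fib)
    (fun b hb p hp => by
      obtain ⟨w1, w2, w3⟩ := RP.I_win b p hp
      refine exists_gamK D C hΩ E hb (RP.w0 b) w2 ?_ ?_ (RP.I_reg b p hp)
      · rwa [(_root_.P073.H236.tlo_ax (D.G C)).1]
      · rwa [(_root_.P073.H236.tlo_ax (D.G C)).2]) hlam
  refine ⟨RP.T, Lb, fun b => min (dmax b) (6 * ω3T δ C b), RP.T_le, RP.sum, fun b t ht => pt_mem ht,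
    hLb, fun b => lt_min (hd b) (by have := D.ω3T_pos C b; positivity), ?_⟩
  intro ηn εE dl L η h0 h1 h2
  obtain ⟨Γ, hΓ⟩ := H L η h0 h1
  exact ⟨Γ, ⟨h0, h1, fun b => (h2 b).trans (min_le_right _ _), fun b m => (hΓ b m).1,
    fun b m => (hΓ b m).2, fun b m => hclose b.1 b.2 _ _ _ (h0 b.1)
      ((h2 b.1).trans (min_le_left _ _)) (hΓ b m)⟩⟩

end Vale.Agent.P073.H669
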