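import Vale.Agent.P073.H190.NumP3
import Vale.Agent.P073.H669.PLwH
import Vale.Agent.P073.H345.JnM
import Vale.Agent.P073.H805.Marks2

/-!
# P073, H669: **[NUM-P3], sub-windows**, all edges

The weights of the edges in ROUND P of `K3C`, levels with compensation windows (`PLw`): the
crossings are counted in the sub-windows between the marked points (`jnM`), where the clamped
coordinate has small variation (`tvg`).

* `varIn_slab_le`: the variation in a slab is at most the variation of the clamped coordinate;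
* `rel_of_met`: the met boxes of the axis `tg s β` matter for the levels of `s`;
* `cnt_all`, `tsum_all`, `tsum_h2_all`.
-/

open Set Metric Topology Filter MeasureTheory
open scoped ENNReal

namespace Vale.Agent.P073.H669

open _root_.P073 _root_.P073.Net _root_.P073.PA691
open Vale.Agent.P073.St (V)
open Vale.Agent.P073.H471 Vale.Agent.P073.H267
open Vale.Agent.P073.H73 (Mesh onSeg)
open Vale.Agent.P073.H193 (Edges)
open Vale.Agent.P073.H926 Vale.Agent.P073.H926.KIn3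
open Vale.Agent.P073.H238.K3 (clm)
open Vale.Agent.P073.H687 (Marks PLw)
open Vale.Agent.P073.H190.Num3 (dichK3 at_PK3 at_PK3_unique PE_unique crK_empty)
open Vale.Agent.P073.H190.Tvp (crK sum_h2_le PE_sub_int)
open _root_.P073.Croft (varIn onS cross levs)
open _root_.P073.H267 (tvE lenE)
open _root_.P073.H345 (tg tg_ne PK PB_sub_PK PLev)
open _root_.P073.H880.RP (ROut3)
open _root_.P073.H880

/-! ### the clamped coordinate -/

theorem clm_of_le {lo hi t : ℝ} (h : t ≤ lo) : clm lo hi t = lo :=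
  max_eq_left ((min_le_right _ _).trans h)

theorem clm_of_ge {lo hi t : ℝ} (h : hi ≤ t) : clm lo hi t = max lo hi := by
  unfold Vale.Agent.P073.H238.K3.clm
  rw [min_eq_left h]

theorem clm_of_mem {lo hi t : ℝ} (h1 : lo ≤ t) (h2 : t ≤ hi) : clm lo hi t = t := by
  unfold Vale.Agent.P073.H238.K3.clm
  rw [min_eq_right h2, max_eq_right h1]

theorem clm_sub_le (lo hi s t : ℝ) : |clm lo hi s - clm lo hi t| ≤ |s - t| := by
  unfold Vale.Agent.P073.H238.K3.clm
  have h1 := abs_max_sub_max_le_max lo (min hi s) lo (min hi t)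
  have h2 := abs_min_sub_min_le_max hi s hi t
  rw [sub_self, abs_zero] at h1 h2
  rw [max_eq_right (abs_nonneg (min hi s - min hi t))] at h1
  rw [max_eq_right (abs_nonneg (s - t))] at h2
  exact h1.trans h2

/-- the clamped coordinate is constant on a zone which misses the window -/
theorem clm_const {lo hi x y : ℝ} (h : y ≤ lo ∨ hi ≤ x) {s t : ℝ} (hs : s ∈ Icc x y)
    (ht : t ∈ Icc x y) : clm lo hi s = clm lo hi t := by
  rcases h with h | h
  · rw [clm_of_le (hs.2.trans h), clm_of_le (ht.2.trans h)]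
  · rw [clm_of_ge (h.trans hs.1), clm_of_ge (h.trans ht.1)]

/-! ### the variation in a slab -/

/-- **the variation in a slab** is at most the variation of the clamped coordinate -/
theorem varIn_slab_le {q : ℝ → V} {a b : ℝ} (hab : a ≤ b) (hq : ConicalOn q (Icc a b)) (i : Fin 3)
    {P : Set V} (hP : Convex ℝ P) (lo hi : ℝ) :
    varIn q i (P ∩ {y | lo ≤ y i ∧ y i ≤ hi}) a b ≤
      eVariationOn (fun t => clm lo hi (q t i)) (Icc a b) := by
  have hP' : Convex ℝ (P ∩ {y : V | lo ≤ y i ∧ y i ≤ hi}) := by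
    refine hP.inter fun x hx y hy s t hs ht hst => ?_
    have e1 : (s • x + t • y) i = s * x i + t * y i := by
      simp [Pi.add_apply, Pi.smul_apply, smul_eq_mul]
    have h1 : lo = s * lo + t * lo := by rw [← add_mul, hst, one_mul]
    have h2 : hi = s * hi + t * hi := by rw [← add_mul, hst, one_mul]
    show lo ≤ (s • x + t • y) i ∧ (s • x + t • y) i ≤ hi
    rw [e1]
    constructor
    · rw [h1]
      exact add_le_add (mul_le_mul_of_nonneg_left hx.1 hs) (mul_le_mul_of_nonneg_left hy.1 ht)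
    · rw [h2]
      exact add_le_add (mul_le_mul_of_nonneg_left hx.2 hs) (mul_le_mul_of_nonneg_left hy.2 ht)
  set P' : Set V := P ∩ {y : V | lo ≤ y i ∧ y i ≤ hi} with hPdef
  have piece : ∀ x y : ℝ, x ≤ y → ∀ w : V, (∀ s ∈ Icc x y, q s = q x + (s - x) • w) →
      varIn q i P' x y ≤ eVariationOn (fun t => clm lo hi (q t i)) (Icc x y) := by
    intro x y hxy w hw
    rw [Croft.piece_varIn hw hP']
    by_cases hwi : w i = 0
    · rw [hwi, enorm_zero, zero_mul]
      exact zero_le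
    have hw0 : ‖w i‖ₑ ≠ 0 := by simpa using hwi
    have hwt : ‖w i‖ₑ ≠ ⊤ := enorm_ne_top
    have h1 : volume ((q ⁻¹' P') ∩ Ioc x y) ≤
        eVariationOn (fun t => clm lo hi (q t i)) (Icc x y) / ‖w i‖ₑ := by
      refine (Real.volume_le_diam _).trans (ediam_le fun s hs t ht => ?_)
      rw [ENNReal.le_div_iff_mul_le (Or.inl hw0) (Or.inl hwt)]
      have hs' : s ∈ Icc x y := ⟨hs.2.1.le, hs.2.2⟩
      have ht' : t ∈ Icc x y := ⟨ht.2.1.le, ht.2.2⟩
      have e1 : edist (clm lo hi (q s i)) (clm lo hi (q t i)) = edist s t * ‖w i‖ₑ := by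
        rw [clm_of_mem hs.1.2.1 hs.1.2.2, clm_of_mem ht.1.2.1 ht.1.2.2, hw s hs', hw t ht']
        rw [edist_dist, edist_dist, Real.dist_eq, Real.dist_eq, Real.enorm_eq_ofReal_abs,
          ← ENNReal.ofReal_mul (abs_nonneg _)]
        congr 1
        rw [Pi.add_apply, Pi.smul_apply, Pi.add_apply, Pi.smul_apply, smul_eq_mul, smul_eq_mul,
          ← abs_mul]
        congr 1
        ring
      rw [← e1]
      exact eVariationOn.edist_le (fun t => clm lo hi (q t i)) hs' ht'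
    calc ‖w i‖ₑ * volume ((q ⁻¹' P') ∩ Ioc x y)
        ≤ ‖w i‖ₑ * (eVariationOn (fun t => clm lo hi (q t i)) (Icc x y) / ‖w i‖ₑ) :=
          mul_le_mul_right h1 _
      _ ≤ _ := ENNReal.mul_div_le
  refine icc_chain (P := fun x y => varIn q i P' x y ≤
    eVariationOn (fun t => clm lo hi (q t i)) (Icc x y)) hab ?_ ?_ ?_ ?_
  · refine piece a a le_rfl 0 ?_
    intro s hs
    rw [Icc_self, mem_singleton_iff] at hs
    subst hs; simp
  · intro x y z _ hxy hyz _ h1 h2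
    have h3 := eVariationOn.Icc_add_Icc (fun t => clm lo hi (q t i)) hxy hyz (s := univ) (mem_univ y)
    simp only [univ_inter] at h3
    rw [Croft.varIn_add q i P' hxy hyz, ← h3]
    exact add_le_add h1 h2
  · intro x hx hxb
    obtain ⟨r, hr, hrb, w, hw⟩ := conical_right' hq hx hxb
    exact ⟨r, hr, hrb, piece _ _ (by linarith) w hw⟩
  · intro x hx hax
    obtain ⟨r, hr, hra, w, hw⟩ := conical_left' hq hx hax
    refine ⟨r, hr, hra, fun y hy => piece y x hy.2.le w ?_⟩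
    intro s hs
    rw [hw s ⟨hy.1.le.trans hs.1, hs.2⟩, hw y ⟨hy.1.le, hy.2.le⟩]
    module

theorem cnt_biUnion_le {ι : Type*} (S : Finset ι) (A : ι → Set ℝ) :
    cnt (⋃ i ∈ S, A i) ≤ ∑ i ∈ S, cnt (A i) := by
  classical
  induction S using Finset.induction_on with
  | empty => simp [cnt]
  | insert a S ha ih =>
    rw [Finset.set_biUnion_insert, Finset.sum_insert ha]
    exact (Croft.cnt_union_le _ _).trans (add_le_add le_rfl ih)

/-! ### the boxes which matter -/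

section geo

variable {Λ : Set V} {v : V} {K : BoxCx Λ v} {S₀ : Rad K} {W : Wid K S₀} {B : Boxes W} {G : Geo B}

/-- **the met boxes of the axis `l` matter for the levels of `s`** -/
theorem rel_of_met {s : K.S} {y : V} (hy : y ∈ W.ss s) {b : TBx K} (hb : y ∈ G.TB false b)
    {l : Fin 3} (hax : b.ax = l) : Rel s l b := by
  rcases b with e | H
  · have hZe := Geo.TB_subset_Ze e hb
    exact ⟨edge_subset_sq hy hZe.1 (Ze_nJ hZe), hax⟩
  · refine ⟨?_, hax⟩
    by_contra hne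
    exact (disjoint_ss (W := W) hne).notMem_of_mem_left (Zs_subset (Geo.TB_subset_Zs H hb)) hy

end geo

/-! ### the weights -/

section weights

variable {c₀ n δ : ℝ} {j : ℕ} {Ω Λ : Set V} {v w : V} {ρ : V → ℝ} {M : Mesh Ω} {h h1 : ConHomeo Ω Λ}
  {J₀ J : Set (ℕ × (Fin 3 → ℤ))} {P Z : Set M.ι} {K : BoxCx Λ w} {E : Edges M}

variable (D : KIn3 c₀ n j δ v w ρ M h J₀ J P Z) (C : Cells ρ w K)

/-- the unclamped coordinate, off the end zones (a field of `TOut3`) -/
def Tvg (E : Edges M) (h1 : ConHomeo Ω Λ) (C₀ : ℝ) (ε : E.ε → ℝ) : Prop :=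
  ∀ e₀ (l : Fin 3), (∀ b ∈ pB C J₀, (h.toFun '' E.seg e₀ ∩ (D.G C).TB false b).Nonempty →
      b.ax = l) →
    ∀ f : ℝ → ℝ, (∀ s t, |f s - f t| ≤ |s - t|) →
    (∀ b ∈ pB C J₀, (h.toFun '' E.seg e₀ ∩ (D.G C).TB false b).Nonempty →
      (∀ s ∈ Icc ((D.G C).tlo true b b.ax) ((D.G C).tlo true b b.ax + 50 * ω3T δ C b),
        f s = f ((D.G C).tlo true b b.ax)) ∧
      ∀ s ∈ Icc ((D.G C).thi true b b.ax - 50 * ω3T δ C b) ((D.G C).thi true b b.ax),
        f s = f ((D.G C).thi true b b.ax)) →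
    eVariationOn (fun t : ℝ => f (h1.toFun (E.a e₀ + t • (E.b e₀ - E.a e₀)) l)) (Icc 0 1) ≤
      ENNReal.ofReal C₀ * lenE E h.toFun e₀ + ENNReal.ofReal (ε e₀)

variable {D C}

section pos

variable (hn : ∀ x ∈ Ω, ∀ q, h.toFun x ∈ K.cube q → ‖h1.toFun x - h.toFun x‖ ≤ (D.G C).om q)
include hn

/-- the met boxes of an edge at a processed plate matter for the levels -/
theorem rel_of_edge {e : E.ε} {s : K.S} (hs : s ∈ pS C J₀) {x₁ : V} (hx₁ : x₁ ∈ E.seg e)
    (hx₁s : h1.toFun x₁ ∈ PK (D.G C) s) {β : Bool} {b : TBx K} (hax : b.ax = tg s β)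
    (hm : (h.toFun '' E.seg e ∩ (D.G C).TB false b).Nonempty) : Rel s (tg s β) b := by
  obtain ⟨_, ⟨x₀, hx₀, rfl⟩, hxb⟩ := hm
  have h2 := (at_PK3 D C hn hs hx₁ hx₁s hx₀).1
  have hτ := (D.B C).τ_pos s
  have hoτ := (D.G C).oS_τ s
  have hX : h.toFun x₀ ∈ PX (D.G C) s := PX_of_near hx₁s (by linarith)
  exact rel_of_met (G := D.G C) (PX_sub_ss s hX) hxb hax

end pos

section main

variable {Tl : K.S → Bool → Finset (ℝ × ℝ)} {η r₀ : ℝ} {τ₀ : Type*} {Fam : τ₀ → Set V}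
  {Cn : Set ℝ} {εE : E.ε → ℝ} {Wn : K.S → Bool → Set ℝ} {Jn : K.S → Bool → Finset (ℝ × ℝ)}
  {μ Bg δP : K.S → ℝ} {J' R r : K.S → ℝ} {Q : K.S → Bool → Finset ℝ} {m : ℕ}
  {C₀ : ℝ} {ε : E.ε → ℝ}

/-- **the sub-windows**: each level lies in a sub-window which avoids the marked points -/
structure SubW (D : KIn3 c₀ n j δ v w ρ M h J₀ J P Z) (C : Cells ρ w K) (lev : PLev (D.G C))
    (J' r : K.S → ℝ) (Q : K.S → Bool → Finset ℝ) (Jn : K.S → Bool → Finset (ℝ × ℝ)) (m : ℕ) :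
    Prop where
  card : ∀ s ∈ pS C J₀, ∀ β, (Jn s β).card ≤ m
  lev : ∀ s ∈ pS C J₀, ∀ β, ∀ k < lev.N s β, ∃ p ∈ Jn s β, p.1 ≤ lev.a s β k ∧
    lev.a s β k ≤ p.2 ∧ K.slo s (tg s β) + (D.G C).a s ≤ p.1 ∧
    p.2 ≤ K.shi s (tg s β) - (D.G C).a s ∧ ∀ q ∈ Q s β, q + r s ≤ p.1 ∨ p.2 ≤ q - r s
  ends : ∀ s ∈ pS C J₀, ∀ β (b : TBx K), Rel s (tg s β) b → ∀ t, (t = (D.G C).tlo true b b.ax ∨
    t = (D.G C).thi true b b.ax) → t + J' s ≤ K.slo s (tg s β) + (D.G C).a s ∨
      K.shi s (tg s β) - (D.G C).a s ≤ t - J' s ∨ t ∈ Q s β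
  ωJ : ∀ s ∈ pS C J₀, ∀ β (b : TBx K), Rel s (tg s β) b → 50 * ω3T δ C b ≤ J' s
  ωr : ∀ s ∈ pS C J₀, ∀ β (b : TBx K), Rel s (tg s β) b → 50 * ω3T δ C b ≤ r s

/-- the clamped coordinate is constant on the end zones of the related boxes -/
theorem SubW.zones {lev : PLev (D.G C)} (H : SubW D C lev J' r Q Jn m) {s : K.S}
    (hs : s ∈ pS C J₀) {β : Bool} {b : TBx K} (hb : Rel s (tg s β) b) {p : ℝ × ℝ}
    (h1 : K.slo s (tg s β) + (D.G C).a s ≤ p.1) (h2 : p.2 ≤ K.shi s (tg s β) - (D.G C).a s)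
    (h3 : ∀ q ∈ Q s β, q + r s ≤ p.1 ∨ p.2 ≤ q - r s) :
    (∀ t ∈ Icc ((D.G C).tlo true b b.ax) ((D.G C).tlo true b b.ax + 50 * ω3T δ C b),
      clm p.1 p.2 t = clm p.1 p.2 ((D.G C).tlo true b b.ax)) ∧
    ∀ t ∈ Icc ((D.G C).thi true b b.ax - 50 * ω3T δ C b) ((D.G C).thi true b b.ax),
      clm p.1 p.2 t = clm p.1 p.2 ((D.G C).thi true b b.ax) := by
  have hω := D.ω3T_pos C b
  have hJ := H.ωJ s hs β b hb
  have hr := H.ωr s hs β b hb
  constructor
  · intro t ht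
    refine clm_const ?_ ht ⟨le_rfl, by linarith⟩
    rcases H.ends s hs β b hb _ (Or.inl rfl) with h4 | h4 | h4
    · left; linarith
    · right; linarith
    · rcases h3 _ h4 with h5 | h5
      · left; linarith
      · right; linarith
  · intro t ht
    refine clm_const ?_ ht ⟨by linarith, le_rfl⟩
    rcases H.ends s hs β b hb _ (Or.inr rfl) with h4 | h4 | h4
    · left; linarith
    · right; linarith
    · rcases h3 _ h4 with h5 | h5
      · left; linarith
      · right; linarith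

/-- **the sub-windows of 345** -/
theorem subW_of {L : PLw (D.G C) h1 Tl η r₀ Fam Cn E.a E.b εE Wn
      (H345W.jnM (D.G C) r Q) μ Bg δP} (HM : Marks (D.G C) J' R Q)
    (hωJ : ∀ s ∈ pS C J₀, ∀ β (b : TBx K), Rel s (tg s β) b → 50 * ω3T δ C b ≤ J' s)
    (hωr : ∀ s ∈ pS C J₀, ∀ β (b : TBx K), Rel s (tg s β) b → 50 * ω3T δ C b ≤ r s)
    (hband : ∀ s ∈ pS C J₀, ∀ β, ∀ H : Hang K, H.s = s → H.l = tg s β → ∀ k < L.N s,
      ∀ t, (t = K.w H.i H.l - (D.G C).be H.i ∨ t = K.w H.i H.l + (D.G C).be H.i) →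
      L.a s β k ≤ t - r s ∨ t + r s ≤ L.a s β k) :
    SubW D C L.lev J' r Q (H345W.jnM (D.G C) r Q) 25 where
  card := fun s _ β => (H345W.card_jnM (HM.card s β)).trans (by norm_num)
  lev := fun s hs β k hk => by
    have hge := (L.lv s β).ge k hk
    have hle := (L.lv s β).le k hk
    have h0 := L.δ0 s
    obtain ⟨p, h2, h3, h4, h5, h6, h7⟩ := H345W.exists_jnM (G := D.G C) (r := r) (Q := Q) (s := s)
      (β := β) (t := L.a s β k) (by linarith) (by linarith) fun q hq => by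
        obtain ⟨H, e1, e2, e3⟩ := HM.hang s β q hq
        exact hband s hs β H e1 e2 k hk q e3
    exact ⟨p, h2, h3, h4, h5, h6, h7⟩
  ends := fun s _ β b hb t ht => HM.ends s β b hb t ht
  ωJ := hωJ
  ωr := hωr

variable {L : PLw (D.G C) h1 Tl η r₀ Fam Cn E.a E.b εE Wn Jn μ Bg δP}
  (H : SubW D C L.lev J' r Q Jn m)
  (hn : ∀ x ∈ Ω, ∀ q, h.toFun x ∈ K.cube q → ‖h1.toFun x - h.toFun x‖ ≤ (D.G C).om q)
  (htvg : Tvg D C E h1 C₀ ε)
include H hn htvg

/-- **the crossings of an edge at a processed plate**, one direction -/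
theorem cnt_oneW {e : E.ε} {s : K.S} (hs : s ∈ pS C J₀) (β : Bool) :
    ENNReal.ofReal (δP s) * cnt (crK L.lev h1 (E.a e) (E.b e) s β) ≤
      m * (ENNReal.ofReal ((1 - 2 * η)⁻¹ * (1 + r₀)) *
        (ENNReal.ofReal C₀ * lenE E h.toFun e + ENNReal.ofReal (ε e)) +
        ENNReal.ofReal (εE e)) := by
  classical
  by_cases hmet : ∃ x ∈ E.seg e, h1.toFun x ∈ PK (D.G C) s
  swap
  · push Not at hmet
    rw [crK_empty L.lev hmet β]
    simp [cnt]
  obtain ⟨x₁, hx₁, hx₁s⟩ := hmet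
  rcases dichK3 D C hn hs hx₁ hx₁s β with h2 | h2
  swap
  · have h0 : crK L.lev h1 (E.a e) (E.b e) s β = ∅ := by
      rw [eq_empty_iff_forall_notMem]
      rintro t ⟨ht, -, k, hk, htl⟩
      have hx : E.a e + t • (E.b e - E.a e) ∈ E.seg e := by
        rw [Edges.seg, segment_eq_image']
        exact ⟨t, ht, rfl⟩
      have htl' : h1.toFun (E.a e + t • (E.b e - E.a e)) (tg s β) = L.a s β k := htl
      have hge := (L.lv s β).ge k hk
      have hle := (L.lv s β).le k hk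
      have h0 := L.δ0 s
      refine h2 _ hx ?_
      rw [htl']
      constructor <;> linarith
    rw [h0]
    simp [cnt]
  set Gd : Finset (ℝ × ℝ) := (Jn s β).filter fun p => K.slo s (tg s β) + (D.G C).a s ≤ p.1 ∧
    p.2 ≤ K.shi s (tg s β) - (D.G C).a s ∧ ∀ q ∈ Q s β, q + r s ≤ p.1 ∨ p.2 ≤ q - r s with hGd
  set A : ℝ × ℝ → Set ℝ := fun p => cross (onS h1.toFun (E.a e) (E.b e)) (tg s β)
    (levs (L.N s) (L.a s β)) (PK (D.G C) s ∩ {y | p.1 ≤ y (tg s β) ∧ y (tg s β) ≤ p.2}) with hA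
  have hsub : crK L.lev h1 (E.a e) (E.b e) s β ⊆ ⋃ p ∈ Gd, A p := by
    rintro t ⟨ht, htP, k, hk, htl⟩
    obtain ⟨p, g1, g2, g3, g4, g5, g6⟩ := H.lev s hs β k hk
    have htl' : onS h1.toFun (E.a e) (E.b e) t (tg s β) = L.a s β k := htl
    refine mem_iUnion₂.2 ⟨p, Finset.mem_filter.2 ⟨g1, g4, g5, g6⟩, ht, ⟨htP, ?_⟩, k, hk, htl⟩
    show p.1 ≤ onS h1.toFun (E.a e) (E.b e) t (tg s β) ∧
      onS h1.toFun (E.a e) (E.b e) t (tg s β) ≤ p.2
    rw [htl']
    exact ⟨g2, g3⟩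
  have hone : ∀ p ∈ Gd, ENNReal.ofReal (δP s) * cnt (A p) ≤
      ENNReal.ofReal ((1 - 2 * η)⁻¹ * (1 + r₀)) *
        (ENNReal.ofReal C₀ * lenE E h.toFun e + ENNReal.ofReal (ε e)) +
        ENNReal.ofReal (εE e) := by
    intro p hp
    obtain ⟨g1, g2, g3, g4⟩ := Finset.mem_filter.1 hp
    refine (L.crsw e s β p g1).trans (add_le_add (mul_le_mul' le_rfl ?_) le_rfl)
    refine (varIn_slab_le zero_le_one (Croft.conicalOn_onS h1.conical (E.seg_sub_Ω e))
      (tg s β) (H669.PK_convex (D.G C) s) p.1 p.2).trans ?_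
    exact htvg e (tg s β) h2 (clm p.1 p.2) (clm_sub_le _ _) fun b hb hm =>
      H.zones hs (rel_of_edge hn hs hx₁ hx₁s (h2 b hb hm) hm) g2 g3 g4
  calc ENNReal.ofReal (δP s) * cnt (crK L.lev h1 (E.a e) (E.b e) s β)
      ≤ ENNReal.ofReal (δP s) * ∑ p ∈ Gd, cnt (A p) :=
        mul_le_mul' le_rfl ((Croft.cnt_mono hsub).trans (cnt_biUnion_le _ _))
    _ = ∑ p ∈ Gd, ENNReal.ofReal (δP s) * cnt (A p) := Finset.mul_sum _ _ _
    _ ≤ ∑ p ∈ Gd, (ENNReal.ofReal ((1 - 2 * η)⁻¹ * (1 + r₀)) *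
        (ENNReal.ofReal C₀ * lenE E h.toFun e + ENNReal.ofReal (ε e)) +
        ENNReal.ofReal (εE e)) := Finset.sum_le_sum hone
    _ ≤ _ := by
        rw [Finset.sum_const, nsmul_eq_mul]
        refine mul_le_mul' ?_ le_rfl
        have h5 : Gd.card ≤ m := (Finset.card_filter_le _ _).trans (H.card s hs β)
        exact_mod_cast h5

/-- **the weights of an edge at a processed plate**, one direction; all edges -/
theorem cnt_allW (e : E.ε) (s : K.S) (hs : s ∈ pS C J₀) (β : Bool) :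
    ENNReal.ofReal (L.lev.om s β) * cnt (crK L.lev h1 (E.a e) (E.b e) s β) ≤
      m * (ENNReal.ofReal 5 *
        (ENNReal.ofReal C₀ * lenE E h.toFun e + ENNReal.ofReal (ε e)) +
        ENNReal.ofReal (2 * εE e)) := by
  have h2 : L.lev.om s β ≤ 2 * δP s := L.om_le_two s β
  have h3 := L.η0
  have h4 := L.η4
  have h5 := L.r0
  have h6 := L.r7
  have h7 : (1 - 2 * η)⁻¹ * (1 + r₀) ≤ 5 / 2 := by
    have e1 : (1 - 2 * η)⁻¹ ≤ 2 := by
      rw [inv_le_comm₀ (by linarith) (by norm_num)]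
      linarith
    have e2 : 0 ≤ (1 - 2 * η)⁻¹ := inv_nonneg.2 (by linarith)
    nlinarith
  have h8 := cnt_oneW H hn htvg (e := e) hs β
  calc ENNReal.ofReal (L.lev.om s β) * cnt (crK L.lev h1 (E.a e) (E.b e) s β)
      ≤ ENNReal.ofReal (2 * δP s) * cnt (crK L.lev h1 (E.a e) (E.b e) s β) :=
        mul_le_mul' (ENNReal.ofReal_le_ofReal h2) le_rfl
    _ = 2 * (ENNReal.ofReal (δP s) * cnt (crK L.lev h1 (E.a e) (E.b e) s β)) := by
        rw [ENNReal.ofReal_mul (by norm_num), mul_assoc]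
        norm_num
    _ ≤ 2 * (m * (ENNReal.ofReal (5 / 2) *
        (ENNReal.ofReal C₀ * lenE E h.toFun e + ENNReal.ofReal (ε e)) +
        ENNReal.ofReal (εE e))) := by
        refine mul_le_mul' le_rfl (h8.trans (mul_le_mul' le_rfl (add_le_add (mul_le_mul' ?_ le_rfl)
          le_rfl)))
        exact ENNReal.ofReal_le_ofReal h7
    _ = _ := by
        have e1 : ENNReal.ofReal 5 = 2 * ENNReal.ofReal (5 / 2) := by
          rw [← ENNReal.ofReal_ofNat 2, ← ENNReal.ofReal_mul (by norm_num)]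
          norm_num
        have e2 : ENNReal.ofReal (2 * εE e) = 2 * ENNReal.ofReal (εE e) := by
          rw [ENNReal.ofReal_mul (by norm_num)]
          norm_num
        rw [e1, e2]
        ring

/-- **the weights of an edge** -/
theorem tsum_allW (e : E.ε) :
    ∑' o : (D.dat C).S₀ × Bool, ENNReal.ofReal (L.lev.om o.1.1 o.2) *
      cnt (crK L.lev h1 (E.a e) (E.b e) o.1.1 o.2) ≤
      2 * (m * (ENNReal.ofReal 5 *
        (ENNReal.ofReal C₀ * lenE E h.toFun e + ENNReal.ofReal (ε e)) +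
        ENNReal.ofReal (2 * εE e))) := by
  classical
  by_cases hex : ∃ s ∈ (D.dat C).S₀, ∃ x ∈ E.seg e, h1.toFun x ∈ PK (D.G C) s
  · obtain ⟨s, hs, x, hx, hxs⟩ := hex
    rw [tsum_eq_sum (s := ({(⟨s, hs⟩, true), (⟨s, hs⟩, false)} :
      Finset ((D.dat C).S₀ × Bool))) (fun i hi => ?_)]
    · rw [Finset.sum_pair (by simp), two_mul]
      exact add_le_add (cnt_allW H hn htvg e s hs true) (cnt_allW H hn htvg e s hs false)
    · obtain ⟨⟨s', hs'⟩, β⟩ := i
      rw [crK_empty L.lev (fun y hy hys => hi ?_)]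
      · simp [cnt]
      · have h1 := at_PK3_unique D C hn hs hx hxs hy hys
        dsimp only at h1
        subst h1
        cases β <;> simp
  · push Not at hex
    rw [ENNReal.tsum_eq_zero.2 fun i => ?_]
    · exact zero_le
    · rw [crK_empty L.lev (hex i.1.1 i.1.2)]
      simp [cnt]

/-- **the weights of the crossings of the map after the exchange**, all edges -/
theorem tsum_h2_allW {h2 : ConHomeo Ω Λ} {ι : Type} {F : ι → Set V} {i : ι}
    (O : ROut3 (D.G C) E (D.dat C) h1 h2 L.lev.lv F) {e : E.ε} (hi : F i = E.seg e) :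
    ∑' o : (D.dat C).S₀ × Bool, ENNReal.ofReal (L.lev.om o.1.1 o.2) *
      cnt (cross (onS h2.toFun (E.a e) (E.b e)) (tg o.1.1 o.2)
        (levs (L.lev.N o.1.1 o.2) (L.lev.a o.1.1 o.2)) (PK (D.G C) o.1.1)) ≤
      2 * (m * (ENNReal.ofReal 5 *
        (ENNReal.ofReal C₀ * lenE E h.toFun e + ENNReal.ofReal (ε e)) +
        ENNReal.ofReal (2 * εE e))) := by
  have h3 := sum_h2_le O (fun s _ β => D.dat_ht_le C s β) (E.ne e) hi (E.seg_sub_Ω e)
    (fun s hs s' _ h3 h4 => PE_unique D C hn hs h3 h4) (le_refl (1:ℝ))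
    (fun s _ β => by
      rw [one_mul]
      exact (L.om_eq s β (!β)).le)
  rw [ENNReal.ofReal_one, one_mul] at h3
  exact h3.trans (tsum_allW H hn htvg e)

end main

end weights

end Vale.Agent.P073.H669
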