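import Vale.Agent.P073.H669.PLevD
import Vale.Agent.P073.H142.PCone2

/-!
# P073, H669: **[P-LEV3]** the levels of round P for `K3C`

`PLg`: as `PLv`, with arbitrary slivers `T s β`, an arbitrary family `F` and an arbitrary locally
finite family of segments.
-/

open Set Metric Topology Filter
open scoped ENNReal

namespace Vale.Agent.P073.H669

open _root_.P073 _root_.P073.TR _root_.P073.Net _root_.P073.PA691
open _root_.P073.PR720 (LF)
open Vale.Agent.P073.St (V)
open Vale.Agent.P073.H471 (Rad Wid Boxes Near lf_ss ss_subset)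
open Vale.Agent.P073.H267
open Vale.Agent.P073.H73 (Mesh)
open Vale.Agent.P073.H193 (Edges)
open _root_.P073.Croft (Cells Crs levs Generic onS cross varIn TransAt SepL)
open _root_.P073.H345 (tg tg_ne tg_ne_not tg_cases bt bt_tg tg_bt PK PB_sub_PK PK_sub_ss PK_unique
  PLev)
open _root_.P073.H236 (BX Lvs NoSl BFam stp abs_sm_sub_self_le abs_sm_sub_le)
open _root_.P073.H805 (Reg)

variable {Ω Λ : Set V} {v : V} {K : BoxCx Λ v} {S : Rad K} {W : Wid K S} {B : Boxes W}

/-! ### the levels -/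

/-- **the levels of round P**, with arbitrary slivers, family and segments -/
structure PLg (G : Geo B) (h : ConHomeo Ω Λ) (T : K.S → Bool → Finset (ℝ × ℝ)) (η : ℝ)
    {τ : Type*} (F : τ → Set V) (C : Set ℝ) {ξ : Type*} (sa sb : ξ → V)
    (εE : ξ → ℝ) (μ δ : K.S → ℝ) where
  /-- the offset -/
  θ : Fin 3 → ℝ
  /-- number of levels, in both directions -/
  N : K.S → ℕ
  N' : K.S → Bool → ℕ
  /-- the cells -/
  x : K.S → Bool → ℕ → ℝ
  /-- the levels -/
  a : K.S → Bool → ℕ → ℝ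
  δ0 : ∀ s, 0 < δ s
  η0 : 0 < η
  η4 : η ≤ 1 / 4
  μw : ∀ s, μ s ≤ G.a s
  δμ : ∀ s, 8 * δ s ≤ μ s
  sq : ∀ s β β', wl G s β = wl G s β'
  pos : ∀ s, 0 < N s
  N_le : ∀ s β, N s ≤ N' s β
  cells : ∀ s β, Cells (K.slo s (tg s β) + G.a s) (K.shi s (tg s β) - G.a s) (θ (tg s β))
    (δ s) η (T s β) (N' s β) (x s β) (a s β)
  /-- few levels are lost -/
  num : ∀ s β, wl G s β ≤ N s * δ s + μ s / 2
  /-- the cells are shifted by a small amount -/
  shift : ∀ s β, ∀ n < N s, x s β n ≤ K.slo s (tg s β) + G.a s + n * δ s + μ s / 2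
  gen : Generic h.toFun F Ω C θ
  crs : ∀ e, Crs h.toFun (sa e) (sb e) (fun q : K.S × Bool => tg q.1 q.2)
    (fun q => PK G q.1) (fun q => δ q.1) (fun q => levs (N q.1) (a q.1 q.2))
    (1 - 2 * η)⁻¹ (εE e)

theorem exists_plg (hΩ : IsOpen Ω) (G : Geo B) (h : ConHomeo Ω Λ)
    (hsq : ∀ s : K.S, K.shi s (tg s false) - K.slo s (tg s false) =
      K.shi s (tg s true) - K.slo s (tg s true)) {T : K.S → Bool → Finset (ℝ × ℝ)}
    (hT : ∀ s β, ∀ p ∈ T s β, p.1 ≤ p.2) {μ : K.S → ℝ} (hμ : ∀ s, 0 < μ s)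
    (hμa : ∀ s, μ s ≤ G.a s)
    (hsum : ∀ s β, ∑ p ∈ T s β, (p.2 - p.1) ≤ μ s / 4) {τ : Type*} {F : τ → Set V}
    (hF : ∀ t, ∀ x ∈ Ω, LocConeAt (F t) x)
    (hFlf : ∀ x ∈ Ω, ∃ U ∈ 𝓝 x, {t | (F t ∩ U).Nonempty}.Finite)
    {ξ : Type*} {sa sb : ξ → V} (hseg : ∀ e, segment ℝ (sa e) (sb e) ⊆ Ω)
    (hslf : ∀ X ⊆ Ω, IsCompact X → {e | (segment ℝ (sa e) (sb e) ∩ X).Nonempty}.Finite)
    {εE : ξ → ℝ} (hε : ∀ e, 0 < εE e) {C : Set ℝ} (hC : C.Countable) {η : ℝ} (hη : 0 < η)
    (hη4 : η ≤ 1 / 4) {dmax : K.S → ℝ} (hd : ∀ s, 0 < dmax s) :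
    ∃ δ : K.S → ℝ, (∀ s, δ s ≤ dmax s) ∧ Nonempty (PLg G h T η F C sa sb εE μ δ) := by
  classical
  have hcount : Countable K.S := Croft.countable_of_lf (P := fun s => PK G s)
    (fun s => PK_nonempty G s) (fun s => PK_sub G s) (lf_PK G)
  have h2η : 0 < 1 - 2 * η := by linarith
  have hK : 1 ≤ (1 - 2 * η)⁻¹ := (one_le_inv₀ h2η).2 (by linarith)
  obtain ⟨θ, -, hgen, δ₀, hδ₀, H⟩ := Croft.exists_croft (κ := K.S × Bool) h hΩ
    (M := F) hF hFlf hseg
    (P := fun q => PK G q.1) (fun q => PK_convex G q.1)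
    (fun e => ((Croft.finite_inter_image h (lf_PK G) (H805.isCompact_seg (sa e) (sb e)) (hseg e)).prod
      (Set.toFinite (univ : Set Bool))).subset fun q hq => ⟨hq, mem_univ _⟩)
    (fun q => Croft.finite_image_inter h hseg hslf
      (PK_compact G q.1) (PK_sub G q.1)) (fun q => tg q.1 q.2) hε hC
    isOpen_univ univ_nonempty hK
  -- the spacings
  set cd : K.S → ℝ := fun s => ((T s false).card : ℝ) +
    ((T s true).card : ℝ) with hcd
  have hcd0 : ∀ s β, ((T s β).card : ℝ) ≤ cd s := fun s β => by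
    have h1 : (0:ℝ) ≤ ((T s false).card : ℝ) := Nat.cast_nonneg _
    have h2 : (0:ℝ) ≤ ((T s true).card : ℝ) := Nat.cast_nonneg _
    simp only [hcd]
    cases β <;> linarith
  have hcdn : ∀ s, 0 ≤ cd s := fun s => (Nat.cast_nonneg _).trans (hcd0 s true)
  set δ : K.S → ℝ := fun s => min (min (δ₀ (s, false)) (δ₀ (s, true))) (min (dmax s)
    (μ s / 4 / (2 * cd s + 2))) with hδ
  have hδ0 : ∀ s, 0 < δ s := fun s => lt_min (lt_min (hδ₀ _) (hδ₀ _))
    (lt_min (hd s) (div_pos (by linarith [hμ s]) (by linarith [hcdn s])))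
  have hδf : ∀ q : K.S × Bool, δ q.1 ≤ δ₀ q := by
    rintro ⟨s, f⟩
    cases f
    · exact (min_le_left _ _).trans (min_le_left _ _)
    · exact (min_le_left _ _).trans (min_le_right _ _)
  have hδm : ∀ s, δ s ≤ dmax s := fun s => (min_le_right _ _).trans (min_le_left _ _)
  have hδμ : ∀ s, (2 * cd s + 2) * δ s ≤ μ s / 4 := fun s => by
    have h1 : δ s ≤ μ s / 4 / (2 * cd s + 2) := (min_le_right _ _).trans (min_le_right _ _)
    rw [le_div_iff₀ (by linarith [hcdn s])] at h1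
    linarith
  have hlh : ∀ (s : K.S) (β : Bool),
      K.slo s (tg s β) + G.a s ≤ K.shi s (tg s β) - G.a s := fun s β => by
    have h1 := wl_pos G s β
    have h2 := G.a_pos s
    unfold wl at h1
    linarith
  choose N' x a hc using fun (s : K.S) (β : Bool) =>
    Croft.exists_cells (θ (tg s β)) (hlh s β) (hδ0 s) hη (T s β)
      (hT s β)
  -- the displacement
  have hdsp : ∀ s β, ∑ p ∈ T s β, (p.2 - p.1) +
      (2 * (T s β).card + 1) * δ s ≤ μ s / 2 := fun s β => by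
    have h1 := hsum s β
    have h2 := hδμ s
    have h3 : (2 * ((T s β).card : ℝ) + 1) * δ s ≤ (2 * cd s + 2) * δ s :=
      mul_le_mul_of_nonneg_right (by linarith [hcd0 s β]) (hδ0 s).le
    linarith
  have hwl : ∀ (s : K.S) (β β' : Bool), wl G s β = wl G s β' := by
    have h1 : ∀ s : K.S, wl G s false = wl G s true := fun s => by
      have := hsq s
      unfold wl
      linarith
    intro s β β'
    cases β <;> cases β'
    · rfl
    · exact h1 s
    · exact (h1 s).symm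
    · rfl
  have hnum : ∀ s β, wl G s β ≤ (N' s β) * δ s + μ s / 2 := fun s β => by
    have h1 := (hc s β).le_num
    have h2 := hdsp s β
    unfold wl
    linarith
  set N : K.S → ℕ := fun s => min (N' s false) (N' s true) with hN
  have hNle : ∀ s β, N s ≤ N' s β := fun s β => by
    cases β
    · exact min_le_left _ _
    · exact min_le_right _ _
  have hnumN : ∀ s β, wl G s β ≤ N s * δ s + μ s / 2 := fun s β => by
    rcases min_choice (N' s false) (N' s true) with h1 | h1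
    · have h2 : N s = N' s false := h1
      rw [h2, hwl s β false]
      exact hnum s false
    · have h2 : N s = N' s true := h1
      rw [h2, hwl s β true]
      exact hnum s true
  have hpos : ∀ s, 0 < N s := by
    intro s
    rcases Nat.eq_zero_or_pos (N s) with h0 | h0
    · exfalso
      have h1 := hnumN s true
      rw [h0] at h1
      have h2 := wl_pos G s true
      have h3 := G.a_pos s
      have h4 := hμa s
      push_cast at h1
      linarith
    · exact h0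
  have hL : ∀ s β, levs (N s) (a s β) ⊆ levs (N' s β) (a s β) := by
    rintro s β t ⟨k, hk, rfl⟩
    exact ⟨k, hk.trans_le (hNle s β), rfl⟩
  have Hc := H (fun q => δ q.1) (fun q => levs (N q.1) (a q.1 q.2)) (fun q => hδ0 q.1) hδf
    (fun q => by
      have h1 := (hc q.1 q.2).sepL (hδ0 q.1) hη4
      have e : δ q.1 / (1 - 2 * η)⁻¹ = (1 - 2 * η) * δ q.1 := by
        rw [div_inv_eq_mul]; ring
      show SepL (δ q.1 / (1 - 2 * η)⁻¹) _
      rw [e]
      exact fun t ht t' ht' => h1 t (hL _ _ ht) t' (hL _ _ ht')) (fun q t ht => by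
      obtain ⟨k, -, rfl⟩ := ht
      exact (hc q.1 q.2).rat k)
  refine ⟨δ, hδm, ⟨⟨θ, N, N', x, a, hδ0, hη, hη4, hμa, fun s => ?_, hwl, hpos, hNle, hc, hnumN,
    fun s β n hn => ?_, hgen, Hc⟩⟩⟩
  · have h1 := hδμ s
    have h2 : 2 * δ s ≤ (2 * cd s + 2) * δ s :=
      mul_le_mul_of_nonneg_right (by linarith [hcdn s]) (hδ0 s).le
    linarith
  · have h1 := (hc s β).disp_le n (hn.trans_le (hNle s β))
    have h2 := hdsp s β
    have h3 := hδ0 s
    linarith

section lemmas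

variable {G : Geo B} {h : ConHomeo Ω Λ} {T : K.S → Bool → Finset (ℝ × ℝ)} {η : ℝ}
  {τ : Type*} {F : τ → Set V} {C : Set ℝ} {ξ : Type*} {sa sb : ξ → V} {εE : ξ → ℝ}
  {μ δ : K.S → ℝ}

namespace PLg

variable (L : PLg G h T η F C sa sb εE μ δ)

theorem lt_a (s : K.S) (β : Bool) (n : ℕ) :
    L.x s β n + δ s / 4 < L.a s β n ∧ L.a s β n < L.x s β n + 3 / 4 * δ s :=
  (L.cells s β).lt_a (L.δ0 s) L.η4 n

/-- **345's levels** -/
noncomputable def lev : PLev G where
  N := fun s _ => L.N s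
  a := L.a
  c := fun s _ => δ s / 8
  lvs := fun s β => by
    have h0 := L.δ0 s
    have hN := L.pos s
    refine ⟨hN, by linarith, ?_, fun k hk => ?_, ?_⟩
    · have h1 := L.lt_a s β 0
      have h2 := (L.cells s β).ge 0 (hN.trans_le (L.N_le s β))
      linarith [h1.1]
    · have h1 := L.lt_a s β k
      have h2 := L.lt_a s β (k + 1)
      have h3 := (L.cells s β).succ k (hk.trans_le (L.N_le s β))
      linarith [h1.2, h2.1]
    · have h1 := L.lt_a s β (L.N s - 1)
      have h2 := (L.cells s β).le (L.N s - 1)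
        ((Nat.sub_lt hN one_pos).trans_le (L.N_le s β))
      linarith [h1.2]

theorem lev_N (s : K.S) (β : Bool) : L.lev.N s β = L.N s := rfl

theorem lev_c (s : K.S) (β : Bool) : L.lev.c s β = δ s / 8 := rfl

theorem mem_lv {s : K.S} {l : Fin 3} {t : ℝ} (ht : t ∈ L.lev.lv s l) :
    ∃ β, tg s β = l ∧ ∃ n < L.N s, L.a s β n = t := by
  obtain ⟨h1, n, h2, h3⟩ := PLev.mem_lv.1 ht
  exact ⟨bt s l, tg_bt s h1, n, h2, h3⟩

theorem mem_lv_iff {s : K.S} {β : Bool} {t : ℝ} :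
    t ∈ L.lev.lv s (tg s β) ↔ ∃ n < L.N s, L.a s β n = t := by
  rw [PLev.mem_lv, bt_tg]
  exact ⟨fun h => h.2, fun h => ⟨tg_ne s β, h⟩⟩

theorem mem_levs {s : K.S} {β : Bool} {t : ℝ} :
    t ∈ levs (L.N s) (L.a s β) ↔ t ∈ L.lev.lv s (tg s β) := by
  rw [mem_lv_iff]
  constructor
  · rintro ⟨k, hk, h1⟩; exact ⟨k, hk, h1.symm⟩
  · rintro ⟨k, hk, h1⟩; exact ⟨k, hk, h1.symm⟩

/-- the window -/
theorem win (s : K.S) (l : Fin 3) (_ : l ≠ K.nrm s) : ∀ t ∈ L.lev.lv s l,
    K.slo s l + G.a s ≤ t ∧ t ≤ K.shi s l - G.a s := by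
  intro t ht
  obtain ⟨β, rfl, n, hn, rfl⟩ := L.mem_lv ht
  have h1 := L.lt_a s β n
  have h2 := (L.cells s β).ge n (hn.trans_le (L.N_le s β))
  have h3 := (L.cells s β).le n (hn.trans_le (L.N_le s β))
  have h4 := L.δ0 s
  constructor <;> linarith [h1.1, h1.2]

/-- **(BAND)**, the cells avoid the closed slivers -/
theorem bandT (s : K.S) (β : Bool) {n : ℕ} (hn : n < L.N s) {p : ℝ × ℝ} (hp : p ∈ T s β) :
    p.2 < L.a s β n - 2 * (δ s / 8) ∨ L.a s β n + 2 * (δ s / 8) < p.1 := by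
  have h1 := L.lt_a s β n
  rcases (L.cells s β).sliver n (hn.trans_le (L.N_le s β)) p hp with h2 | h2
  · right; linarith [h1.2]
  · left; linarith [h1.1]

/-- the same, for the levels of 345 -/
theorem bandT' (s : K.S) (β : Bool) {n : ℕ} (hn : n < L.lev.N s β) {p : ℝ × ℝ}
    (hp : p ∈ T s β) : p.2 < L.lev.a s β n - 2 * L.lev.c s β ∨
      L.lev.a s β n + 2 * L.lev.c s β < p.1 := L.bandT s β hn hp

/-- no sliver of the boxes of round T meets a cell -/
theorem band {sl : TBx K → Finset (ℝ × ℝ)} {s : K.S} {β : Bool} {b : TBx K}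
    (hT : sl b ⊆ T s β) {n : ℕ} (hn : n < L.N s) {r : ℝ}
    (hr : |r - L.a s β n| ≤ 2 * (δ s / 8)) : NoSl (sl b) r := by
  intro p hp hmem
  have h3 := abs_le.1 hr
  have h4 := hmem.1
  have h5 := hmem.2
  rcases L.bandT s β hn (hT hp) with h2 | h2
  · linarith [h3.1, h3.2]
  · linarith [h3.1, h3.2]

theorem hns {sl : TBx K → Finset (ℝ × ℝ)} {s : K.S} {β : Bool} {b : TBx K}
    (hT : sl b ⊆ T s β) {t : ℝ} (ht : t ∈ L.lev.lv s (tg s β)) : NoSl (sl b) t := by
  obtain ⟨n, hn, rfl⟩ := L.mem_lv_iff.1 ht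
  have h4 := L.δ0 s
  exact L.band hT hn (by rw [sub_self, abs_zero]; linarith)

/-- the levels avoid the countable set -/
theorem notMem (s : K.S) (β : Bool) (n : ℕ) : L.a s β n ∉ C := by
  obtain ⟨r, hr⟩ := (L.cells s β).rat n
  rw [hr]
  exact L.gen.notMem _ r

theorem lv_notMem {s : K.S} {l : Fin 3} {t : ℝ} (ht : t ∈ L.lev.lv s l) : t ∉ C := by
  obtain ⟨β, -, n, -, rfl⟩ := L.mem_lv ht
  exact L.notMem s β n

theorem rat {s : K.S} {l : Fin 3} {t : ℝ} (ht : t ∈ L.lev.lv s l) : ∃ r : ℚ, t = L.θ l + r := by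
  obtain ⟨β, rfl, n, -, rfl⟩ := L.mem_lv ht
  exact (L.cells s β).rat n

/-- regularity for the large family -/
theorem regF {s : K.S} {l : Fin 3} {x : V} (hx : x ∈ Ω) (hl : h.toFun x l ∈ L.lev.lv s l) :
    Reg (fun y => h.toFun y l) F x := by
  obtain ⟨r, hr⟩ := L.rat hl
  exact L.gen.reg1 hx hr

theorem regF2 {s s' : K.S} {l l' : Fin 3} (hll : l ≠ l') {x : V} (hx : x ∈ Ω)
    (hl : h.toFun x l ∈ L.lev.lv s l) (hl' : h.toFun x l' ∈ L.lev.lv s' l') :
    Reg (fun y => (h.toFun y l, h.toFun y l')) F x := by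
  obtain ⟨r, hr⟩ := L.rat hl
  obtain ⟨r', hr'⟩ := L.rat hl'
  exact L.gen.reg2 hx hll hr hr'

/-! ### the staircases -/

/-- the step -/
noncomputable def om (s : K.S) (β : Bool) : ℝ :=
  stp (L.N s) (K.slo s (tg s β) + G.a s) (K.shi s (tg s β) - G.a s)

theorem om_eq_omP (s : K.S) (β : Bool) (t : ℝ) : L.lev.omP s (tg s β) t = L.om s β :=
  PLev.omP_tg _ _ _ _

/-- the step is the same in both directions -/
theorem om_eq (s : K.S) (β β' : Bool) : L.om s β = L.om s β' := by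
  unfold om stp
  have h1 := L.sq s β β'
  unfold wl at h1
  rw [h1]

theorem omP_eq (s : K.S) {j j' : Fin 3} (hj : j ≠ K.nrm s) (hj' : j' ≠ K.nrm s) (t t' : ℝ) :
    L.lev.omP s j t = L.lev.omP s j' t' := by
  obtain ⟨β, rfl⟩ : ∃ β, j = tg s β := ⟨bt s j, (tg_bt s hj).symm⟩
  obtain ⟨β', rfl⟩ : ∃ β, j' = tg s β := ⟨bt s j', (tg_bt s hj').symm⟩
  rw [om_eq_omP, om_eq_omP, L.om_eq s β β']

theorem N0 (s : K.S) : (0:ℝ) < L.N s := by exact_mod_cast L.pos s

theorem Ns (s : K.S) (β : Bool) : (L.N s : ℝ) * L.om s β = wl G s β := by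
  have := L.N0 s
  unfold om stp wl
  rw [mul_div_cancel₀ _ this.ne']

theorem Nδ_le (s : K.S) (β : Bool) : (L.N s : ℝ) * δ s ≤ wl G s β := by
  have h1 := (L.cells s β).num_le
  have h2 : (L.N s : ℝ) ≤ L.N' s β := by exact_mod_cast L.N_le s β
  have h3 := L.δ0 s
  unfold wl
  nlinarith

theorem om_ge (s : K.S) (β : Bool) : δ s ≤ L.om s β := by
  have h1 := L.Nδ_le s β
  have h2 := L.Ns s β
  have h3 := L.N0 s
  by_contra hcon
  push Not at hcon
  have := mul_lt_mul_of_pos_left hcon h3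
  linarith

theorem om_pos (s : K.S) (β : Bool) : 0 < L.om s β := (L.δ0 s).trans_le (L.om_ge s β)

/-- **the step is at most `(1 + r) δ`** if the displacement is at most `r` times the window -/
theorem om_le (s : K.S) (β : Bool) {r : ℝ} (hr0 : 0 ≤ r) (hr1 : r ≤ 1)
    (hr : μ s ≤ r * wl G s β) : L.om s β ≤ (1 + r) * δ s := by
  have h1 := L.num s β
  have h2 := L.Ns s β
  have h3 := L.N0 s
  have hw : 0 < wl G s β := by have := wl_pos G s β; have := G.a_pos s; linarith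
  -- (1 - r / 2) wl ≤ N δ
  have h4 : (1 - r / 2) * wl G s β ≤ L.N s * δ s := by nlinarith
  -- wl ≤ (1 + r) (1 - r / 2) wl
  have h5 : 1 ≤ (1 + r) * (1 - r / 2) := by nlinarith
  have h6 : (L.N s : ℝ) * L.om s β ≤ L.N s * ((1 + r) * δ s) := by
    calc (L.N s : ℝ) * L.om s β = wl G s β := h2
      _ ≤ (1 + r) * ((1 - r / 2) * wl G s β) := by nlinarith
      _ ≤ (1 + r) * (L.N s * δ s) := mul_le_mul_of_nonneg_left h4 (by linarith)
      _ = _ := by ring
  exact le_of_mul_le_mul_left h6 h3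

theorem om_le_two (s : K.S) (β : Bool) : L.om s β ≤ 2 * δ s := by
  have h1 := L.μw s
  have h2 := wl_pos G s β
  have h3 := G.a_pos s
  have := L.om_le s β zero_le_one le_rfl (by linarith)
  linarith

/-- **the displacement** -/
theorem disp (s : K.S) (β : Bool) {e : ℝ} (he : 0 < e) (he8 : e ≤ δ s / 8) (t : ℝ) :
    |_root_.P073.H236.sm (L.N s) (L.a s β) (δ s / 8) (K.slo s (tg s β) + G.a s) (K.shi s (tg s β) - G.a s)
      (K.slo s (tg s β) + G.a s) (L.om s β) e t - t| ≤ μ s := by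
  have h0 := L.δ0 s
  have hμ := L.δμ s
  have h1 := L.num s β
  have h2 := L.Ns s β
  have h3 := L.om_ge s β
  have h3' := L.om_le_two s β
  have key : ∀ k : ℕ, k ≤ L.N s → (k:ℝ) * δ s ≤ k * L.om s β ∧
      k * L.om s β ≤ k * δ s + μ s / 2 := by
    intro k hk
    have hk' : (k:ℝ) ≤ L.N s := by exact_mod_cast hk
    constructor
    · exact mul_le_mul_of_nonneg_left h3 (Nat.cast_nonneg _)
    · have h5 : (k:ℝ) * (L.om s β - δ s) ≤ L.N s * (L.om s β - δ s) :=
        mul_le_mul_of_nonneg_right hk' (by linarith)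
      have h6 : (L.N s : ℝ) * (L.om s β - δ s) = wl G s β - L.N s * δ s := by
        rw [mul_sub, h2]
      linarith
  refine abs_sm_sub_self_le (L.lev.lvs s β) (by linarith) (fun k hk => ?_) (fun k hk => ?_) t
  · have e1 := L.lt_a s β k
    have e2 := (L.cells s β).disp_nonneg k (hk.trans_le (L.N_le s β))
    have e3 := L.shift s β k hk
    have e4 := key k hk.le
    change |K.slo s (tg s β) + G.a s + k * L.om s β + e - (L.a s β k - δ s / 8)| ≤ μ s
    rw [abs_le]
    constructor <;> linarith [e1.1, e1.2, e4.1, e4.2]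
  · have e1 := L.lt_a s β k
    have e2 := (L.cells s β).disp_nonneg k (hk.trans_le (L.N_le s β))
    have e3 := L.shift s β k hk
    have e4 := key k hk.le
    change |K.slo s (tg s β) + G.a s + (k + 1) * L.om s β - e - (L.a s β k + δ s / 8)| ≤ μ s
    rw [abs_le]
    constructor <;> linarith [e1.1, e1.2, e4.1, e4.2]

theorem bx_sub (s : K.S) (β : Bool) : (L.lev.bx β s).K ⊆ PK G s := fun _ hy =>
  (PLev.mem_bxK.1 hy).1

/-- **the two families of staircases of round P** -/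
noncomputable def bfam (e : K.S → ℝ) (he : ∀ s, 0 < e s) (he8 : ∀ s, e s ≤ δ s / 8) (β : Bool) :
    BFam 3 K.S Λ where
  B := L.lev.bx β
  e := e
  D := μ
  he := he
  heo := fun s => by
    have h1 := L.om_ge s β
    have h2 := he8 s
    have h3 := L.δ0 s
    show 2 * e s < L.om s β
    linarith
  hD := fun s t => L.disp s β (he s) (he8 s) t
  sub := fun s => (L.bx_sub s β).trans (PK_sub G s)
  lf := fun z hz => by
    obtain ⟨U, hU, hf⟩ := lf_PK G z hz
    refine ⟨U, hU, hf.subset ?_⟩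
    rintro s ⟨x, hx, hxU⟩
    exact ⟨x, L.bx_sub s β hx, hxU⟩
  dis := fun s s' hne => Set.disjoint_left.2 fun y hy hy' =>
    hne (PK_unique (L.bx_sub s β (interior_subset hy)) (L.bx_sub s' β hy'))

theorem bfam_B (e : K.S → ℝ) (he : ∀ s, 0 < e s) (he8 : ∀ s, e s ≤ δ s / 8) (β : Bool) :
    (L.bfam e he he8 β).B = L.lev.bx β := rfl

theorem bfam_om (e : K.S → ℝ) (he : ∀ s, 0 < e s) (he8 : ∀ s, e s ≤ δ s / 8) (β : Bool)
    (s : K.S) : (L.bfam e he he8 β).om s = L.om s β := rfl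

/-! ### crossings -/

/-- **the crossing numbers** against the variation of one coordinate in the plate -/
theorem cnt_one (e : ξ) (s : K.S) (β : Bool) : ENNReal.ofReal (δ s) *
        cnt (cross (onS h.toFun (sa e) (sb e)) (tg s β)
          (L.lev.lv s (tg s β) : Set ℝ) (PK G s)) ≤
      ENNReal.ofReal (1 - 2 * η)⁻¹ *
        varIn (onS h.toFun (sa e) (sb e)) (tg s β) (PK G s) 0 1 +
        ENNReal.ofReal (εE e) := by
  have h1 : (L.lev.lv s (tg s β) : Set ℝ) = levs (L.N s) (L.a s β) := by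
    ext t
    rw [Finset.mem_coe, mem_levs]
  rw [h1]
  exact (L.crs e).one (s, β)

/-- finitely many, transversal crossings -/
theorem cross_fin (e : ξ) (s : K.S) (β : Bool) :
    (cross (onS h.toFun (sa e) (sb e)) (tg s β) (L.lev.lv s (tg s β) : Set ℝ)
      (PK G s)).Finite := by
  have h1 : (L.lev.lv s (tg s β) : Set ℝ) = levs (L.N s) (L.a s β) := by
    ext t
    rw [Finset.mem_coe, mem_levs]
  rw [h1]
  exact (L.crs e).fin (s, β)

theorem cross_trans (e : ξ) (s : K.S) (β : Bool) :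
    ∀ t ∈ cross (onS h.toFun (sa e) (sb e)) (tg s β) (L.lev.lv s (tg s β) : Set ℝ)
      (PK G s), TransAt (onS h.toFun (sa e) (sb e)) (tg s β) t := by
  have h1 : (L.lev.lv s (tg s β) : Set ℝ) = levs (L.N s) (L.a s β) := by
    ext t
    rw [Finset.mem_coe, mem_levs]
  rw [h1]
  exact (L.crs e).trans (s, β)

/-- **all crossings of one edge** against its length -/
theorem cnt_sum (e : ξ) (he : segment ℝ (sa e) (sb e) ⊆ Ω) : ∑' q : K.S × Bool, ENNReal.ofReal (δ q.1) *
        cnt (cross (onS h.toFun (sa e) (sb e)) (tg q.1 q.2)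
          (L.lev.lv q.1 (tg q.1 q.2) : Set ℝ) (PK G q.1)) ≤
      ENNReal.ofReal (1 - 2 * η)⁻¹ * (2 * len (onS h.toFun (sa e) (sb e)) (Icc 0 1)) +
        ENNReal.ofReal (εE e) := by
  have h0 : ∀ q : K.S × Bool, (L.lev.lv q.1 (tg q.1 q.2) : Set ℝ) =
      levs (L.N q.1) (L.a q.1 q.2) := by
    intro q
    ext t
    rw [Finset.mem_coe, mem_levs]
  simp_rw [h0]
  have h1 := (L.crs e).sum_le_len (m := 2) (Croft.conicalOn_onS h.conical he)
    (fun q => PK_convex G q.1) (fun y => by exact_mod_cast encard_PK G y)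
  exact_mod_cast h1

/-- the same, with the steps as weights -/
theorem cnt_sum_om (e : ξ) (he : segment ℝ (sa e) (sb e) ⊆ Ω) : ∑' q : K.S × Bool, ENNReal.ofReal (L.om q.1 q.2) *
        cnt (cross (onS h.toFun (sa e) (sb e)) (tg q.1 q.2)
          (L.lev.lv q.1 (tg q.1 q.2) : Set ℝ) (PK G q.1)) ≤
      2 * (ENNReal.ofReal (1 - 2 * η)⁻¹ * (2 * len (onS h.toFun (sa e) (sb e)) (Icc 0 1)) +
        ENNReal.ofReal (εE e)) := by
  refine le_trans ?_ (mul_le_mul_right (L.cnt_sum e he) 2)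
  rw [← ENNReal.tsum_mul_left]
  refine ENNReal.tsum_le_tsum fun q => ?_
  rw [← mul_assoc]
  refine mul_le_mul_left ?_ _
  have h1 : ENNReal.ofReal (L.om q.1 q.2) ≤ ENNReal.ofReal (2 * δ q.1) :=
    ENNReal.ofReal_le_ofReal (L.om_le_two q.1 q.2)
  refine h1.trans (le_of_eq ?_)
  rw [ENNReal.ofReal_mul (by norm_num)]
  norm_num

/-- the step against the width of the flats -/
theorem om_le_c (s : K.S) (β : Bool) : L.om s β ≤ 16 * (δ s / 8) := by
  have := L.om_le_two s β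
  linarith

theorem omP_le_c (s : K.S) (β : Bool) (t : ℝ) :
    L.lev.omP s (tg s β) t ≤ 16 * L.lev.c s β := by
  rw [om_eq_omP]
  exact L.om_le_c s β

section bfam

variable {e : K.S → ℝ} (he : ∀ s, 0 < e s) (he8 : ∀ s, e s ≤ δ s / 8)

/-- **slope of the staircases** -/
theorem bfam_slope (β : Bool) (s : K.S) (t t' : ℝ) :
    |(L.bfam e he he8 β).σ s t - (L.bfam e he he8 β).σ s t'| ≤ 8 * |t - t'| := by
  have h0 := L.δ0 s
  have hN := L.pos s
  have he' := he s
  have he8' := he8 s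
  have h2 := L.om_le_two s β
  have hNs := L.Ns s β
  refine abs_sm_sub_le (L.lev.lvs s β) ((L.bfam e he he8 β).tgt s) (by norm_num) ?_ ?_ ?_ t t'
  · have h1 := L.lt_a s β 0
    have h3 := (L.cells s β).ge 0 (hN.trans_le (L.N_le s β))
    change K.slo s (tg s β) + G.a s + e s - (K.slo s (tg s β) + G.a s) ≤
      8 * (L.a s β 0 - δ s / 8 - (K.slo s (tg s β) + G.a s))
    linarith [h1.1]
  · change L.om s β ≤ 8 * (2 * (δ s / 8))
    linarith
  · have h1 := L.lt_a s β (L.N s - 1)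
    have h3 := (L.cells s β).le (L.N s - 1) ((Nat.sub_lt hN one_pos).trans_le (L.N_le s β))
    change K.shi s (tg s β) - G.a s - (K.slo s (tg s β) + G.a s + (L.N s : ℝ) * L.om s β - e s) ≤
      8 * (K.shi s (tg s β) - G.a s - (L.a s β (L.N s - 1) + δ s / 8))
    rw [hNs]
    unfold wl
    linarith [h1.2]

/-- **142's hypothesis on the slopes** -/
theorem hs16 : ∀ β s t t', |(L.bfam e he he8 β).σ s t - (L.bfam e he he8 β).σ s t'| ≤
    16 * |t - t'| := fun β s t t' => (L.bfam_slope he he8 β s t t').trans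
  (mul_le_mul_of_nonneg_right (by norm_num) (abs_nonneg _))

/-- **142's `PS`** -/
theorem ps {T : Bool → ConHomeo Λ Λ} (hT : ∀ β, (L.bfam e he he8 β).IsS (T β)) :
    _root_.P073.H142.PS L.lev (fun β => L.bfam e he he8 β) T where
  B := fun _ => rfl
  isS := hT

end bfam

end PLg

end lemmas


end Vale.Agent.P073.H669
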