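import Vale.Agent.P073.H669.TLevC
import Vale.Agent.P073.H669.PLevA
import Vale.Agent.P073.H236.GBox

/-!
# P073, H669: **[T-BANDS]** the gaps of the bands at an edge

`sqE e`: the squares at the edge `e`.  `eLo`, `eHi`: the window of the tube `B.E e`; it is contained
in the window of round T and in the windows of round P of the squares at `e`.  `gap N T T' D`: the
gaps between the bands `[T k, T' k]`, fattened by `D`.  `in_band`: an interval which meets no gap is
contained in a band.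
-/

open Set Metric Topology Filter

namespace Vale.Agent.P073.H669

open _root_.P073 _root_.P073.TR _root_.P073.Net _root_.P073.PA691
open _root_.P073.PR720 (LF)
open Vale.Agent.P073.St (V)
open Vale.Agent.P073.H471 Vale.Agent.P073.H267 Vale.Agent.P073.H267.Geo
open Vale.Agent.P073.H238 (oT)
open _root_.P073.H236 (dsp TG BX)
open _root_.P073.H345 (tg bt tg_ne bt_tg tg_bt)

/-! ### bands and gaps -/

/-- the bands `[T k, T' k]`, `k < N`, are in order -/
structure Bds (N : ℕ) (T T' : ℕ → ℝ) : Prop where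
  pos : 0 < N
  lt : ∀ k < N, T k < T' k
  lt' : ∀ k, k + 1 < N → T' k < T (k + 1)

/-- the gaps, fattened by `D` -/
noncomputable def gap (N : ℕ) (T T' : ℕ → ℝ) (D : ℝ) : Finset (ℝ × ℝ) := by
  classical exact (Finset.range (N - 1)).image fun k => (T' k - D, T (k + 1) + D)

section gap

variable {N : ℕ} {T T' : ℕ → ℝ} {D : ℝ}

theorem mem_gap {p : ℝ × ℝ} : p ∈ gap N T T' D ↔
    ∃ k, k + 1 < N ∧ p = (T' k - D, T (k + 1) + D) := by
  classical
  unfold gap
  rw [Finset.mem_image]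
  constructor
  · rintro ⟨k, hk, h⟩
    exact ⟨k, by have := Finset.mem_range.1 hk; omega, h.symm⟩
  · rintro ⟨k, hk, h⟩
    exact ⟨k, Finset.mem_range.2 (by omega), h.symm⟩

theorem gap_le (H : Bds N T T') (hD : 0 ≤ D) : ∀ p ∈ gap N T T' D, p.1 ≤ p.2 := by
  intro p hp
  obtain ⟨k, hk, rfl⟩ := mem_gap.1 hp
  have := H.lt' k hk
  show T' k - D ≤ T (k + 1) + D
  linarith

/-- the total length of the gaps -/
theorem sum_gap_le {e : ℝ} (he0 : 0 ≤ e + 2 * D)
    (he : ∀ k, k + 1 < N → T (k + 1) - T' k ≤ e) :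
    ∑ p ∈ gap N T T' D, (p.2 - p.1) ≤ N * (e + 2 * D) := by
  classical
  have h1 : ∑ p ∈ gap N T T' D, (p.2 - p.1) ≤ ∑ p ∈ gap N T T' D, (e + 2 * D) := by
    refine Finset.sum_le_sum fun p hp => ?_
    obtain ⟨k, hk, rfl⟩ := mem_gap.1 hp
    have := he k hk
    show T (k + 1) + D - (T' k - D) ≤ e + 2 * D
    linarith
  refine h1.trans ?_
  rw [Finset.sum_const, nsmul_eq_mul]
  refine mul_le_mul_of_nonneg_right ?_ he0
  have h2 : (gap N T T' D).card ≤ N := by
    refine Finset.card_image_le.trans ?_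
    rw [Finset.card_range]
    exact Nat.sub_le _ _
  exact_mod_cast h2

/-- **an interval which meets no gap is contained in a band** -/
theorem in_band (H : Bds N T T') {x y : ℝ} (h0 : T 0 + D ≤ x) (h1 : y ≤ T' (N - 1) - D)
    (hg : ∀ p ∈ gap N T T' D, y ≤ p.1 ∨ p.2 ≤ x) : ∃ k < N, T k + D ≤ x ∧ y ≤ T' k - D := by
  classical
  have hN := H.pos
  set A := (Finset.range N).filter fun k => T k + D ≤ x with hA
  have hne : A.Nonempty := ⟨0, Finset.mem_filter.2 ⟨Finset.mem_range.2 hN, h0⟩⟩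
  obtain ⟨a1, a2⟩ := Finset.mem_filter.1 (A.max'_mem hne)
  have hk := Finset.mem_range.1 a1
  refine ⟨A.max' hne, hk, a2, ?_⟩
  by_cases hk1 : A.max' hne + 1 < N
  · rcases hg _ (mem_gap.2 ⟨A.max' hne, hk1, rfl⟩) with h2 | h2
    · exact h2
    · exfalso
      have h3 : A.max' hne + 1 ∈ A := Finset.mem_filter.2 ⟨Finset.mem_range.2 hk1, h2⟩
      have h4 := A.le_max' _ h3
      omega
  · have h2 : A.max' hne = N - 1 := by omega
    rw [h2]
    exact h1

/-- the band is unique -/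
theorem Bds.lt_of (H : Bds N T T') {k l : ℕ} (hkl : k < l) (hl : l < N) : T' k < T l := by
  induction l with
  | zero => omega
  | succ l ih =>
    rcases Nat.lt_succ_iff_lt_or_eq.1 hkl with h | h
    · have h1 := ih h (by omega)
      have h2 := H.lt l (by omega)
      have h3 := H.lt' l hl
      linarith
    · subst h
      exact H.lt' k hl

/-- uniform bands -/
theorem Bds.unif {t₀ om e : ℝ} (hN : 0 < N) (he : 0 < e) (he2 : 2 * e < om) :
    Bds N (fun k => t₀ + k * om + e) (fun k => t₀ + (k + 1) * om - e) where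
  pos := hN
  lt := fun k _ => by linarith
  lt' := fun k _ => by push_cast; linarith

theorem gap_unif {t₀ om e : ℝ} (k : ℕ) :
    (fun k : ℕ => t₀ + k * om + e) (k + 1) - (fun k : ℕ => t₀ + ((k:ℝ) + 1) * om - e) k = 2 * e := by
  push_cast; ring

/-- the targets of round T -/
theorem Bds.of_tg {n : ℕ} {B : BX n} (τ : TG B) : Bds B.N τ.T τ.T' where
  pos := B.lvs.pos
  lt := fun _ hk => τ.T_lt hk
  lt' := fun k hk => τ.T'_lt (Nat.lt_succ_self k) hk

end gap

/-! ### squares at an edge -/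

variable {Λ : Set V} {v : V} {K : BoxCx Λ v} {S : Rad K} {W : Wid K S} {B : Boxes W}

theorem isCompact_edge (e : K.G) : IsCompact (K.edge e) := isCompact_Icc

theorem sqE_fin (e : K.G) : {s : K.S | K.edge e ⊆ K.sq s}.Finite := by
  refine (lf_fin K.lfS (isCompact_edge e) (edge_sub_Λ e)).subset ?_
  intro s hs
  obtain ⟨x, hx⟩ := edge_nonempty e
  exact ⟨x, hs hx, hx⟩

/-- the squares at the edge `e` -/
noncomputable def sqE (e : K.G) : Finset K.S := (sqE_fin e).toFinset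

theorem mem_sqE {e : K.G} {s : K.S} : s ∈ sqE e ↔ K.edge e ⊆ K.sq s := Set.Finite.mem_toFinset _

theorem edge_ab {e : K.G} {s : K.S} (he : K.edge e ⊆ K.sq s) :
    K.w (K.a e) ∈ K.sq s ∧ K.w (K.b e) ∈ K.sq s := by
  have hab : K.w (K.a e) ≤ K.w (K.b e) := fun k => by
    by_cases hk : k = K.dir e
    · rw [hk]; exact (K.ab_dir e).le
    · exact (K.ab_off e k hk).le
  exact ⟨he (left_mem_Icc.2 hab), he (right_mem_Icc.2 hab)⟩

theorem dir_ne_nrm {e : K.G} {s : K.S} (he : K.edge e ⊆ K.sq s) : K.dir e ≠ K.nrm s := by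
  intro h
  obtain ⟨h1, h2⟩ := edge_ab he
  have h3 := K.ab_dir e
  have h4 := h1.1 (K.dir e)
  have h5 := h2.2 (K.dir e)
  have h6 := K.s_flat s
  rw [h] at h3 h4 h5
  linarith

/-! ### the windows -/

/-- lower end of the window of the tube -/
noncomputable def eLo (W : Wid K S) (e : K.G) : ℝ := K.w (K.a e) (K.dir e) + W.wv (K.a e) / 2

/-- upper end of the window of the tube -/
noncomputable def eHi (W : Wid K S) (e : K.G) : ℝ := K.w (K.b e) (K.dir e) - W.wv (K.b e) / 2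

/-- the window of the tube, in the window of round T -/
theorem eLo_T (G : Geo B) (e : K.G) :
    G.tlo true (.inl e) (K.dir e) + 15 * G.be (K.a e) ≤ eLo W e ∧
      eHi W e + 15 * G.be (K.b e) ≤ G.thi true (.inl e) (K.dir e) := by
  have h1 := G.be_wv (K.a e)
  have h2 := G.be_wv (K.b e)
  unfold eLo eHi
  simp only [Geo.tlo, Geo.thi, if_true]
  constructor <;> linarith

/-- the window of the tube, in the windows of round P -/
theorem eLo_P (G : Geo B) {e : K.G} {s : K.S} (he : K.edge e ⊆ K.sq s) :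
    K.slo s (K.dir e) + 32 * G.a s ≤ eLo W e ∧ eHi W e ≤ K.shi s (K.dir e) - 32 * G.a s := by
  obtain ⟨h1, h2⟩ := edge_ab he
  have h3 := h1.1 (K.dir e)
  have h4 := h2.2 (K.dir e)
  have h5 := G.a_u s
  have h6 := G.u_T s e he
  have h7 := B.T_le_a e
  have h8 := B.T_le_b e
  unfold eLo eHi
  constructor <;> linarith

/-- the window of the tube is long -/
theorem eLo_lt (G : Geo B) (e : K.G) : eLo W e + 32 * G.be (K.a e) < eHi W e := by
  have h7 := vdist S (i := K.a e) (j := K.b e) (l := K.dir e) (fun hab => by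
    have := K.ab_dir e
    rw [hab] at this
    exact lt_irrefl _ this) (fun k hk => K.ab_off e k hk)
  have h8 := W.wv_le (K.a e)
  have h9 := W.wv_le (K.b e)
  have h1 := G.be_wv (K.a e)
  have h2 := G.be_wv (K.b e)
  have h3 := G.be_pos (K.a e)
  have h4 := G.be_pos (K.b e)
  have h11 := K.ab_dir e
  rw [abs_of_neg (by linarith)] at h7
  unfold eLo eHi
  linarith

/-- the ends of the bands of round T -/
theorem T_first (G : Geo B) {e : K.G} {X : BX 3} (τ : TG X)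
    (hal : X.al = G.tlo true (.inl e) (K.dir e)) (hbe : X.be = G.thi true (.inl e) (K.dir e))
    {r D : ℝ} (hr : r + D ≤ 15 * G.be (K.a e)) (hr' : r + D ≤ 15 * G.be (K.b e))
    (h0 : τ.T 0 ≤ X.al + r) (h1 : X.be - r ≤ τ.T' (X.N - 1)) :
    τ.T 0 + D ≤ eLo W e ∧ eHi W e ≤ τ.T' (X.N - 1) - D := by
  obtain ⟨h2, h3⟩ := eLo_T G e
  constructor <;> linarith

/-! ### all slivers at an edge -/

/-- the slivers at an edge: `gT` of round T, `gP s` of round P -/
noncomputable def tbSl (e : K.G) (gT : Finset (ℝ × ℝ)) (gP : K.S → Finset (ℝ × ℝ)) :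
    Finset (ℝ × ℝ) := by
  classical exact gT ∪ (sqE e).biUnion gP

theorem mem_tbSl {e : K.G} {gT : Finset (ℝ × ℝ)} {gP : K.S → Finset (ℝ × ℝ)} {p : ℝ × ℝ} :
    p ∈ tbSl e gT gP ↔ p ∈ gT ∨ ∃ s, K.edge e ⊆ K.sq s ∧ p ∈ gP s := by
  classical
  unfold tbSl
  rw [Finset.mem_union, Finset.mem_biUnion]
  simp only [mem_sqE]

theorem tbSl_le {e : K.G} {gT : Finset (ℝ × ℝ)} {gP : K.S → Finset (ℝ × ℝ)}
    (h1 : ∀ p ∈ gT, p.1 ≤ p.2) (h2 : ∀ s, ∀ p ∈ gP s, p.1 ≤ p.2) :
    ∀ p ∈ tbSl e gT gP, p.1 ≤ p.2 := by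
  intro p hp
  rcases mem_tbSl.1 hp with h | ⟨s, -, h⟩
  · exact h1 p h
  · exact h2 s p h

theorem sum_tbSl_le {e : K.G} {gT : Finset (ℝ × ℝ)} {gP : K.S → Finset (ℝ × ℝ)}
    (h1 : ∀ p ∈ gT, p.1 ≤ p.2) (h2 : ∀ s, ∀ p ∈ gP s, p.1 ≤ p.2) :
    ∑ p ∈ tbSl e gT gP, (p.2 - p.1) ≤
      ∑ p ∈ gT, (p.2 - p.1) + ∑ s ∈ sqE e, ∑ p ∈ gP s, (p.2 - p.1) := by
  classical
  have key : ∀ (A B : Finset (ℝ × ℝ)), (∀ p ∈ A, p.1 ≤ p.2) →
      ∑ p ∈ A ∪ B, (p.2 - p.1) ≤ ∑ p ∈ A, (p.2 - p.1) + ∑ p ∈ B, (p.2 - p.1) := by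
    intro A B hA
    have h3 := Finset.sum_union_inter (s₁ := A) (s₂ := B) (f := fun p : ℝ × ℝ => p.2 - p.1)
    have h4 : 0 ≤ ∑ p ∈ A ∩ B, (p.2 - p.1) := Finset.sum_nonneg fun p hp => by
      have := hA p (Finset.mem_inter.1 hp).1
      linarith
    linarith
  have h5 : ∀ F : Finset K.S, ∑ p ∈ F.biUnion gP, (p.2 - p.1) ≤
      ∑ s ∈ F, ∑ p ∈ gP s, (p.2 - p.1) := by
    intro F
    induction F using Finset.induction_on with
    | empty => simp
    | insert s F hs ih =>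
      rw [Finset.biUnion_insert, Finset.sum_insert hs]
      have := key (gP s) (F.biUnion gP) (h2 s)
      linarith
  unfold tbSl
  have h6 := key gT ((sqE e).biUnion gP) h1
  have h7 := h5 (sqE e)
  linarith

/-- **[T-BANDS]**: an interval in the window of the tube which meets no sliver is contained in a band
of round T, shrunk by `D`, and in one band of round P of every square at the edge -/
theorem in_bands {e : K.G} {N : ℕ} {T T' : ℕ → ℝ} (H : Bds N T T') {D : ℝ}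
    {Ns : K.S → ℕ} {P P' : K.S → ℕ → ℝ} (HP : ∀ s, K.edge e ⊆ K.sq s → Bds (Ns s) (P s) (P' s))
    {lo hi : ℝ} (h0 : T 0 + D ≤ lo) (h1 : hi ≤ T' (N - 1) - D)
    (h0' : ∀ s, K.edge e ⊆ K.sq s → P s 0 ≤ lo) (h1' : ∀ s, K.edge e ⊆ K.sq s → hi ≤ P' s (Ns s - 1))
    {x y : ℝ} (hx : lo ≤ x) (hy : y ≤ hi)
    (hg : ∀ p ∈ tbSl e (gap N T T' D) (fun s => gap (Ns s) (P s) (P' s) 0), y ≤ p.1 ∨ p.2 ≤ x) :
    (∃ k < N, T k + D ≤ x ∧ y ≤ T' k - D) ∧
      ∀ s, K.edge e ⊆ K.sq s → ∃ k < Ns s, P s k ≤ x ∧ y ≤ P' s k := by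
  refine ⟨in_band H (h0.trans hx) (hy.trans h1) fun p hp => hg p (mem_tbSl.2 (Or.inl hp)),
    fun s hs => ?_⟩
  obtain ⟨k, hk, h2, h3⟩ := in_band (D := 0) (HP s hs) (by linarith [h0' s hs])
    (by linarith [h1' s hs]) (x := x) (y := y)
    fun p hp => hg p (mem_tbSl.2 (Or.inr ⟨s, hs, hp⟩))
  exact ⟨k, hk, by linarith, by linarith⟩

end Vale.Agent.P073.H669
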