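import Vale.Agent.P073.H669.RTLev

/-!
# P073, H669: **[TLvS]** the levels of round T, with further segments

`exists_tlvS`, `RTPre.exists_levS`: the levels of round T (`TLv`), generic also for a further locally
finite family of segments `[sa i, sb i] ⊆ Ω`, with the sharp crossing numbers of these segments in
all boxes (`Croft.Crs`).
-/

open Set Metric Topology Filter
open scoped ENNReal

namespace Vale.Agent.P073.H669

open _root_.P073 _root_.P073.TR _root_.P073.Net _root_.P073.PA691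
open _root_.P073.PR720 (LF)
open Vale.Agent.P073.St (V)
open Vale.Agent.P073.H471 Vale.Agent.P073.H267 Vale.Agent.P073.H267.Geo
open Vale.Agent.P073.H73 (Mesh)
open Vale.Agent.P073.H193 (Edges)
open Vale.Agent.P073.H238 (oT marg TStage1 TAct TProt skel mesh_sub)
open _root_.P073.Croft (Cells Crs levs Generic onS cross varIn TransAt SepL)
open _root_.P073.H345 (fam Fam RegB)
open _root_.P073.H236 (BX Lvs dsp)
open _root_.P073.H805 (Reg)

variable {Ω Λ : Set V} {v : V} {K : BoxCx Λ v} {S : Rad K} {W : Wid K S} {B : Boxes W}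

/-- **the levels of round T, with further segments** -/
theorem exists_tlvS (hΩ : IsOpen Ω) (G : Geo B) {M : Mesh Ω} (E : Edges M) (h : ConHomeo Ω Λ)
    {ω : TBx K → ℝ} (ω0 : ∀ b, 0 < ω b) (ωo : ∀ b, ω b ≤ oT G b) {τ : Type*} {A : τ → Set V}
    (hA : ∀ t, ∀ x ∈ Ω, LocConeAt (A t) x)
    (hAlf : ∀ x ∈ Ω, ∃ U ∈ 𝓝 x, {t | (A t ∩ U).Nonempty}.Finite)
    {εE : E.ε → ℝ} (hε : ∀ e, 0 < εE e) {C : Set ℝ} (hC : C.Countable) {η : ℝ} (hη : 0 < η)
    (hη4 : η ≤ 1 / 4) {dmax : TBx K → ℝ} (hd : ∀ b, 0 < dmax b) (T : TBx K → Finset (ℝ × ℝ))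
    (hT : ∀ b, ∀ p ∈ T b, p.1 ≤ p.2)
    (hTs : ∀ b, ∑ p ∈ T b, (p.2 - p.1) <
      G.thi true b b.ax - 30 * ω b - (G.tlo true b b.ax + 30 * ω b))
    {ξ : Type*} {sa sb : ξ → V} (hseg : ∀ i, segment ℝ (sa i) (sb i) ⊆ Ω)
    (hslf : ∀ X ⊆ Ω, IsCompact X → {i | (segment ℝ (sa i) (sb i) ∩ X).Nonempty}.Finite)
    {εS : ξ → ℝ} (hεS : ∀ i, 0 < εS i) :
    ∃ δ : TBx K → ℝ, (∀ b, δ b ≤ dmax b) ∧ ∃ L : TLv G E h ω T η A C εE δ,
      ∀ (f : Bool) (i : ξ), Crs h.toFun (sa i) (sb i) TBx.ax (fun b => G.TB f b) δ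
        (fun b => levs (L.N b) (L.a b)) (1 - 2 * η)⁻¹ (εS i) := by
  classical
  -- all segments
  set qa : E.ε ⊕ ξ → V := Sum.elim E.a sa with hqa
  set qb : E.ε ⊕ ξ → V := Sum.elim E.b sb with hqb
  set εQ : E.ε ⊕ ξ → ℝ := Sum.elim εE εS with hεQ
  have hQ0 : ∀ e, 0 < εQ e := by
    rintro (e | i)
    · exact hε e
    · exact hεS i
  have hTBc : ∀ (f : Bool) b, IsCompact (G.TB f b) := fun f b => isCompact_Icc
  have hTBs : ∀ (f : Bool) b, G.TB f b ⊆ Λ := fun f b => (TB_sub_false G f b).trans (TB_sub b)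
  have hlfB : ∀ y ∈ Λ, ∃ O ∈ 𝓝 y, {b : TBx K | (G.TB false b ∩ O).Nonempty}.Finite := lf_TB G
  have hcount : Countable (TBx K) := Croft.countable_of_lf (P := fun b => G.TB false b)
    (fun b => TB_nonempty G b (ω0 b) (ωo b) false) (fun b => TB_sub b) hlfB
  have hsegQ : ∀ e, segment ℝ (qa e) (qb e) ⊆ Ω := by
    rintro (e | i)
    · exact E.seg_sub_Ω e
    · exact hseg i
  have hcpt : ∀ e, IsCompact (segment ℝ (qa e) (qb e)) := fun e => by
    rw [segment_eq_image_lineMap]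
    exact isCompact_Icc.image AffineMap.lineMap_continuous
  have hQlf : ∀ X ⊆ Ω, IsCompact X → {e | (segment ℝ (qa e) (qb e) ∩ X).Nonempty}.Finite := by
    intro X hX hXc
    refine (((E.fin X hX hXc).image Sum.inl).union ((hslf X hX hXc).image Sum.inr)).subset ?_
    rintro (e | i) he
    · exact Or.inl ⟨e, he, rfl⟩
    · exact Or.inr ⟨i, he, rfl⟩
  have hfin0 : ∀ e, {b | (h.toFun '' segment ℝ (qa e) (qb e) ∩ G.TB false b).Nonempty}.Finite :=
    fun e => Croft.finite_inter_image h hlfB (hcpt e) (hsegQ e)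
  -- the tolerances
  set n : E.ε ⊕ ξ → ℝ := fun e => ((hfin0 e).toFinset.card : ℝ) with hn
  have hn0 : ∀ e, 0 ≤ n e := fun e => Nat.cast_nonneg _
  have hε' : ∀ e, 0 < εQ e / (1 + n e) := fun e => div_pos (hQ0 e) (by linarith [hn0 e])
  have h2η : 0 < 1 - 2 * η := by linarith
  have hK : 1 ≤ (1 - 2 * η)⁻¹ := (one_le_inv₀ h2η).2 (by linarith)
  obtain ⟨θ, -, hgen, δ₀, hδ₀, H⟩ := Croft.exists_croft (κ := TBx K × Bool) h hΩ
    (M := famA M E A) (fun m => famA_cone hA m) (famA_lf hΩ M E hAlf) hsegQ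
    (P := fun b => G.TB b.2 b.1) (fun b => convex_Icc _ _)
    (fun e => ((hfin0 e).prod (Set.toFinite (univ : Set Bool))).subset fun b hb =>
      ⟨hb.mono (inter_subset_inter_right _ (TB_sub_false G b.2 b.1)), mem_univ _⟩)
    (fun b => Croft.finite_image_inter h hsegQ hQlf
      (hTBc b.2 b.1) (hTBs b.2 b.1)) (fun b => b.1.ax) (ε := fun e => εQ e / (1 + n e)) hε' hC
    isOpen_univ univ_nonempty hK
  -- the spacings
  set ℓ : TBx K → ℝ := fun b => G.thi true b b.ax - 30 * ω b - (G.tlo true b b.ax + 30 * ω b) -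
    ∑ p ∈ T b, (p.2 - p.1) with hℓ
  have hℓ0 : ∀ b, 0 < ℓ b := fun b => by have := hTs b; simp only [hℓ]; linarith
  set δ : TBx K → ℝ := fun b => min (min (δ₀ (b, false)) (δ₀ (b, true))) (min (dmax b)
    (ℓ b / (2 * (T b).card + 2))) with hδ
  have hδ0 : ∀ b, 0 < δ b := fun b => lt_min (lt_min (hδ₀ _) (hδ₀ _))
    (lt_min (hd b) (div_pos (hℓ0 b) (by positivity)))
  have hδf : ∀ b : TBx K × Bool, δ b.1 ≤ δ₀ b := by
    rintro ⟨b, f⟩
    cases f
    · exact (min_le_left _ _).trans (min_le_left _ _)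
    · exact (min_le_left _ _).trans (min_le_right _ _)
  have hδm : ∀ b, δ b ≤ dmax b := fun b => (min_le_right _ _).trans (min_le_left _ _)
  have hδℓ : ∀ b, δ b * (2 * (T b).card + 2) ≤ ℓ b := fun b => by
    have h1 : δ b ≤ ℓ b / (2 * (T b).card + 2) := (min_le_right _ _).trans (min_le_right _ _)
    rwa [le_div_iff₀ (by positivity)] at h1
  have hTn : ∀ b, 0 ≤ ∑ p ∈ T b, (p.2 - p.1) := fun b =>
    Finset.sum_nonneg fun p hp => by linarith [hT b p hp]
  have hlh : ∀ b : TBx K, G.tlo true b b.ax + 30 * ω b ≤ G.thi true b b.ax - 30 * ω b := fun b => by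
    linarith [hTs b, hTn b]
  choose N x a hc using fun b => Croft.exists_cells (θ b.ax) (hlh b) (hδ0 b) hη (T b) (hT b)
  have hpos : ∀ b, 0 < N b := by
    intro b
    rcases Nat.eq_zero_or_pos (N b) with h0 | h0
    · exfalso
      have h1 := (hc b).le_num
      rw [h0] at h1
      have h2 := hδℓ b
      have h3 := hδ0 b
      simp only [hℓ] at h2
      push_cast at h1
      nlinarith
    · exact h0
  have Hc := H (fun b => δ b.1) (fun b => levs (N b.1) (a b.1)) (fun b => hδ0 b.1) hδf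
    (fun b => by
      have h1 := (hc b.1).sepL (hδ0 b.1) hη4
      have e : δ b.1 / (1 - 2 * η)⁻¹ = (1 - 2 * η) * δ b.1 := by
        rw [div_inv_eq_mul]; ring
      show SepL (δ b.1 / (1 - 2 * η)⁻¹) _
      rwa [e]) (fun b t ht => by
      obtain ⟨k, -, rfl⟩ := ht
      exact (hc b.1).rat k)
  have hall : ∀ (f : Bool) (e : E.ε ⊕ ξ), Crs h.toFun (qa e) (qb e) TBx.ax (fun b => G.TB f b) δ
      (fun b => levs (N b) (a b)) (1 - 2 * η)⁻¹ (εQ e) := by
    intro f e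
    have He := Hc e
    refine ⟨fun b => He.fin (b, f), fun b => He.trans (b, f), fun b => ?_, ?_⟩
    · refine (He.one (b, f)).trans ?_
      gcongr
      rw [div_le_iff₀ (by linarith [hn0 e])]
      nlinarith [hQ0 e, hn0 e]
    · -- finitely many boxes
      set F := (hfin0 e).toFinset with hF
      have hzero : ∀ b, b ∉ F → ENNReal.ofReal (δ b) *
          cnt (cross (onS h.toFun (qa e) (qb e)) b.ax (levs (N b) (a b)) (G.TB f b)) = 0 := by
        intro b hb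
        have : cross (onS h.toFun (qa e) (qb e)) b.ax (levs (N b) (a b)) (G.TB f b) = ∅ := by
          rw [Set.eq_empty_iff_forall_notMem]
          rintro t ⟨ht, htP, -⟩
          refine hb ?_
          rw [hF, Finite.mem_toFinset]
          exact ⟨_, ⟨_, Croft.onS_mem ht, rfl⟩, TB_sub_false G f b htP⟩
        rw [this]
        simp [cnt]
      rw [tsum_eq_sum hzero]
      calc ∑ b ∈ F, ENNReal.ofReal (δ b) *
            cnt (cross (onS h.toFun (qa e) (qb e)) b.ax (levs (N b) (a b)) (G.TB f b))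
          ≤ ∑ b ∈ F, (ENNReal.ofReal (1 - 2 * η)⁻¹ *
              varIn (onS h.toFun (qa e) (qb e)) b.ax (G.TB f b) 0 1 +
              ENNReal.ofReal (εQ e / (1 + n e))) :=
            Finset.sum_le_sum fun b _ => He.one (b, f)
        _ = ENNReal.ofReal (1 - 2 * η)⁻¹ *
              ∑ b ∈ F, varIn (onS h.toFun (qa e) (qb e)) b.ax (G.TB f b) 0 1 +
              (F.card : ℝ≥0∞) * ENNReal.ofReal (εQ e / (1 + n e)) := by
            rw [Finset.sum_add_distrib, Finset.mul_sum, Finset.sum_const, nsmul_eq_mul]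
        _ ≤ _ := by
            gcongr
            · exact ENNReal.sum_le_tsum _
            · rw [← ENNReal.ofReal_natCast, ← ENNReal.ofReal_mul (Nat.cast_nonneg _)]
              apply ENNReal.ofReal_le_ofReal
              have h1 : ((F.card : ℕ) : ℝ) = n e := rfl
              rw [h1, ← mul_div_assoc, div_le_iff₀ (by linarith [hn0 e])]
              nlinarith [hQ0 e, hn0 e]
  exact ⟨δ, hδm, ⟨θ, N, x, a, ω0, ωo, hδ0, hη, hη4, hpos, hc, hgen,
    fun f e => hall f (Sum.inl e)⟩, fun f i => hall f (Sum.inr i)⟩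

/-- **[RT-LEV]**, second part, with further segments -/
theorem RTPre.exists_levS {G : Geo B} {h : ConHomeo Ω Λ} {X : TBx K → Set V} {τ' : Type*}
    {Fm : τ' → Set V} {V₀ : TBx K → Finset ℝ} {σ : TBx K → ℝ} (P : RTPre G h X Fm V₀ σ)
    (hΩ : IsOpen Ω) {M : Mesh Ω} (E : Edges M) {ω : TBx K → ℝ}
    (ω0 : ∀ b, 0 < ω b) (ωo : ∀ b, ω b ≤ oT G b) (hσ : ∀ b, σ b ≤ oT G b) (hσ0 : ∀ b, 0 < σ b)
    {τ : Type*} {A : τ → Set V} (hA : ∀ t, ∀ x ∈ Ω, LocConeAt (A t) x)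
    (hAlf : ∀ x ∈ Ω, ∃ U ∈ 𝓝 x, {t | (A t ∩ U).Nonempty}.Finite)
    {εE : E.ε → ℝ} (hε : ∀ e, 0 < εE e) {C : Set ℝ} (hC : C.Countable) {η : ℝ} (hη : 0 < η)
    (hη4 : η ≤ 1 / 4) {dmax : TBx K → ℝ} (hd : ∀ b, 0 < dmax b)
    {ξ : Type*} {sa sb : ξ → V} (hseg : ∀ i, segment ℝ (sa i) (sb i) ⊆ Ω)
    (hslf : ∀ X ⊆ Ω, IsCompact X → {i | (segment ℝ (sa i) (sb i) ∩ X).Nonempty}.Finite)
    {εS : ξ → ℝ} (hεS : ∀ i, 0 < εS i) :
    ∃ δ : TBx K → ℝ, (∀ b, δ b ≤ dmax b) ∧ (∀ b, dsp (P.T b) (δ b) ≤ 2 * σ b) ∧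
      ∃ L : TLv G E h ω P.T η A C εE δ,
        ∀ (f : Bool) (i : ξ), Crs h.toFun (sa i) (sb i) TBx.ax (fun b => G.TB f b) δ
          (fun b => levs (L.N b) (L.a b)) (1 - 2 * η)⁻¹ (εS i) := by
  have hd' : ∀ b, 0 < min (dmax b) (σ b / (2 * (P.T b).card + 1)) := fun b =>
    lt_min (hd b) (div_pos (hσ0 b) (by positivity))
  obtain ⟨δ, h1, h2⟩ := exists_tlvS hΩ G E h ω0 ωo hA hAlf hε hC hη hη4 hd' P.T P.T_le
    (fun b => by
      have h3 := win G b
      have h4 := ωo b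
      have h5 := ω0 b
      have h6 := P.sum b
      have h7 := hσ b
      show ∑ p ∈ rtT P.cr P.w V₀ b, (p.2 - p.1) < _
      linarith) hseg hslf hεS
  refine ⟨δ, fun b => (h1 b).trans (min_le_left _ _), fun b => ?_, h2⟩
  have h3 : δ b ≤ σ b / (2 * (P.T b).card + 1) := (h1 b).trans (min_le_right _ _)
  rw [le_div_iff₀ (by positivity)] at h3
  have h4 := P.sum b
  unfold dsp
  have h5 : ∑ p ∈ P.T b, (p.2 - p.1) ≤ σ b := h4
  linarith

end Vale.Agent.P073.H669
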